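import Vale.Agent.P099.Geom

open MeasureTheory Set Complex AddCircle
open scoped Real ComplexConjugate InnerProductSpace

noncomputable section

namespace Vale.Agent.P099

variable {A : Fin 3 → ℂ}
variable {H : Type} [NormedAddCommGroup H] [InnerProductSpace ℂ H] [CompleteSpace H]

omit [CompleteSpace H] in
lemma inner_trig (c : ℤ → H) (s : Finset ℤ) (θ : UnitAddCircle) (v : H) :
    ⟪∑ n ∈ s, fourier n θ • c n, v⟫_ℂ = ∑ n ∈ s, ⟪c n, fourier (-n) θ • v⟫_ℂ := by
  rw [sum_inner]
  refine Finset.sum_congr rfl fun n _ => ?_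
  rw [inner_smul_left, inner_smul_right, fourier_neg]

lemma integral_inner_trig (c : ℤ → H) (s : Finset ℤ) (b : UnitAddCircle → H)
    (hb : Integrable b haarAddCircle) :
    Integrable (fun θ => ⟪∑ n ∈ s, fourier n θ • c n, b θ⟫_ℂ) haarAddCircle ∧
    ∫ θ, ⟪∑ n ∈ s, fourier n θ • c n, b θ⟫_ℂ ∂haarAddCircle
      = ∑ n ∈ s, ⟪c n, fourierCoeff b n⟫_ℂ := by
  simp_rw [inner_trig]
  have hi : ∀ n ∈ s, Integrable (fun θ => ⟪c n, fourier (-n) θ • b θ⟫_ℂ) haarAddCircle :=
    fun n _ => (hb.fourier_smul (-n)).const_inner (c n)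
  refine ⟨integrable_finsetSum s hi, ?_⟩
  rw [integral_finsetSum s hi]
  refine Finset.sum_congr rfl fun n _ => ?_
  rw [integral_inner (hb.fourier_smul (-n))]
  rfl

lemma coeff_trig (c : ℤ → H) (s : Finset ℤ) {m : ℤ} (hm : m ∈ s) :
    fourierCoeff (fun θ : UnitAddCircle => ∑ n ∈ s, fourier n θ • c n) m = c m := by
  have h1 : ∀ n, fourierCoeff (fun θ : UnitAddCircle => fourier n θ • c n) m
      = (Pi.single n (1 : ℂ) : ℤ → ℂ) m • c n := by
    intro n
    rw [← fourierCoeff_fourier (T := 1) n]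
    simp only [fourierCoeff, ← smul_assoc]
    rw [integral_smul_const]
  have h2 : ∀ n ∈ s, Integrable (fun θ : UnitAddCircle => fourier n θ • c n) haarAddCircle :=
    fun n _ => (integrable_const (c n)).fourier_smul n
  have h3 : (fun θ : UnitAddCircle => ∑ n ∈ s, fourier n θ • c n)
      = ∑ n ∈ s, fun θ : UnitAddCircle => fourier n θ • c n := by
    ext θ; simp only [Finset.sum_apply]
  rw [h3, fourierCoeff.sum s _ h2, Finset.sum_apply]
  simp_rw [h1]
  rw [Finset.sum_eq_single m]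
  · simp
  · intro n _ hn
    simp [hn.symm]
  · intro h; exact absurd hm h

/-- Bessel inequality for Hilbert space valued functions -/
theorem bessel (a : UnitAddCircle → H) (ha : MemLp a 2 haarAddCircle) (s : Finset ℤ) :
    ∑ n ∈ s, ‖fourierCoeff a n‖ ^ 2 ≤ ∫ θ, ‖a θ‖ ^ 2 ∂haarAddCircle := by
  set c := fourierCoeff a with hc
  set S : UnitAddCircle → H := fun θ => ∑ n ∈ s, fourier n θ • c n with hS
  have hai : Integrable a haarAddCircle := ha.integrable (by norm_num)
  have hSi : Integrable S haarAddCircle :=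
    integrable_finsetSum s fun n _ => (integrable_const (c n)).fourier_smul n
  obtain ⟨i1, e1⟩ := integral_inner_trig c s a hai
  obtain ⟨i2, e2⟩ := integral_inner_trig c s S hSi
  have e3 : ∑ n ∈ s, ⟪c n, fourierCoeff S n⟫_ℂ = ∑ n ∈ s, ⟪c n, c n⟫_ℂ :=
    Finset.sum_congr rfl fun n hn => by rw [hS, coeff_trig c s hn]
  rw [e3] at e2
  have e4 : (∑ n ∈ s, ⟪c n, c n⟫_ℂ).re = ∑ n ∈ s, ‖c n‖ ^ 2 := by
    rw [Complex.re_sum]
    exact Finset.sum_congr rfl fun n _ => (norm_sq_eq_re_inner (𝕜 := ℂ) (c n)).symm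
  have r1 := integral_re i1
  have r2 := integral_re i2
  rw [e1] at r1
  rw [e2] at r2
  have hsq : Integrable (fun θ => ‖a θ‖ ^ 2) haarAddCircle :=
    (memLp_two_iff_integrable_sq_norm ha.1).1 ha
  have key : ∫ θ, (2 * RCLike.re ⟪S θ, a θ⟫_ℂ - RCLike.re ⟪S θ, S θ⟫_ℂ) ∂haarAddCircle
      ≤ ∫ θ, ‖a θ‖ ^ 2 ∂haarAddCircle := by
    refine integral_mono ((i1.re.const_mul 2).sub i2.re) hsq fun θ => ?_
    have := norm_sub_sq (𝕜 := ℂ) (S θ) (a θ)
    have h0 := sq_nonneg ‖S θ - a θ‖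
    have h1 := norm_sq_eq_re_inner (𝕜 := ℂ) (S θ)
    simp only
    linarith
  rw [integral_sub (i1.re.const_mul 2) i2.re, integral_const_mul] at key
  have r1' : ∫ θ, RCLike.re ⟪S θ, a θ⟫_ℂ ∂haarAddCircle = ∑ n ∈ s, ‖c n‖ ^ 2 := r1.trans e4
  have r2' : ∫ θ, RCLike.re ⟪S θ, S θ⟫_ℂ ∂haarAddCircle = ∑ n ∈ s, ‖c n‖ ^ 2 := r2.trans e4
  rw [r1', r2'] at key
  linarith

theorem stronglyMeasurable_coeff (F : Ph → H) (hF : StronglyMeasurable F) (n : ℤ) :
    StronglyMeasurable fun x : ℂ => fourierCoeff (fun θ => F (x, θ)) n := by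
  have h : StronglyMeasurable fun p : Ph => fourier (-n) p.2 • F p :=
    (((map_continuous (fourier (-n))).comp continuous_snd).stronglyMeasurable).smul hF
  exact h.integral_prod_right' (ν := haarAddCircle)

theorem norm_coeff_le (a : UnitAddCircle → H) (C : ℝ) (hC : ∀ θ, ‖a θ‖ ≤ C) (n : ℤ) :
    ‖fourierCoeff a n‖ ≤ C := by
  have h := norm_integral_le_of_norm_le_const (μ := haarAddCircle) (C := C)
    (f := fun θ : UnitAddCircle => fourier (-n) θ • a θ) (ae_of_all _ fun θ => by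
      rw [norm_smul, fourier_apply, Circle.norm_coe, one_mul]; exact hC θ)
  rw [probReal_univ, mul_one] at h
  exact h

/-- integrated Bessel inequality, with a pointwise majorant -/
theorem bessel_TT (F : Ph → H) (hF : StronglyMeasurable F) (C : ℝ) (hC : ∀ p, ‖F p‖ ≤ C)
    (g : Ph → ℝ) (hg : Integrable g ((volume.restrict (TT A)).prod haarAddCircle))
    (hFg : ∀ᵐ θ ∂haarAddCircle, ∀ x ∈ TT A, ‖F (x, θ)‖ ^ 2 ≤ g (x, θ)) (s : Finset ℤ) :
    ∑ n ∈ s, ∫ x in TT A, ‖fourierCoeff (fun θ => F (x, θ)) n‖ ^ 2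
      ≤ ∫ p, g p ∂((volume.restrict (TT A)).prod haarAddCircle) := by
  have : IsFiniteMeasure (volume.restrict (TT A)) :=
    isFiniteMeasure_restrict.2 (isCompact_TT (A := A)).measure_lt_top.ne
  have hi : ∀ n ∈ s, Integrable (fun x : ℂ => ‖fourierCoeff (fun θ => F (x, θ)) n‖ ^ 2)
      (volume.restrict (TT A)) := by
    intro n _
    refine Integrable.of_bound
      (((stronglyMeasurable_coeff F hF n).norm.pow 2).aestronglyMeasurable) (C ^ 2)
      (ae_of_all _ fun x => ?_)
    rw [Real.norm_of_nonneg (sq_nonneg _)]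
    exact pow_le_pow_left₀ (norm_nonneg _) (norm_coeff_le _ C (fun θ => hC _) n) 2
  rw [← integral_finsetSum s hi, integral_prod _ hg]
  refine integral_mono_ae (integrable_finsetSum s hi) hg.integral_prod_left ?_
  filter_upwards [hg.prod_right_ae, ae_restrict_mem (measurableSet_TT (A := A))] with x hx hxT
  have hm : MemLp (fun θ : UnitAddCircle => F (x, θ)) 2 haarAddCircle :=
    MemLp.of_bound (hF.comp_measurable measurable_prodMk_left).aestronglyMeasurable C
      (ae_of_all _ fun θ => hC _)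
  refine (bessel _ hm s).trans (integral_mono_ae
    ((memLp_two_iff_integrable_sq_norm hm.1).1 hm) hx ?_)
  filter_upwards [hFg] with θ hθ using hθ x hxT

theorem fourier_unique [SecondCountableTopology H] (a : UnitAddCircle → H)
    (ha : MemLp a 2 haarAddCircle) (h : ∀ n, fourierCoeff a n = 0) :
    a =ᵐ[haarAddCircle] 0 := by
  refine ae_eq_zero_of_forall_inner (𝕜 := ℂ) fun v => ?_
  have hai : Integrable a haarAddCircle := ha.integrable (by norm_num)
  have hm : MemLp (fun θ => ⟪v, a θ⟫_ℂ) 2 haarAddCircle := ha.const_inner v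
  have hc : ∀ n, fourierCoeff (hm.toLp _) n = 0 := by
    intro n
    rw [fourierCoeff_congr_ae hm.coeFn_toLp]
    have : fourierCoeff (fun θ => ⟪v, a θ⟫_ℂ) n = ⟪v, fourierCoeff a n⟫_ℂ := by
      unfold fourierCoeff
      rw [← integral_inner (hai.fourier_smul (-n))]
      simp only [inner_smul_right, smul_eq_mul]
    rw [this, h, inner_zero_right]
  have h0 : hm.toLp _ = 0 := by
    have := hasSum_fourier_series_L2 (hm.toLp _)
    simp only [hc, zero_smul] at this
    exact (hasSum_zero.unique this).symm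
  have h1 := hm.coeFn_toLp
  rw [h0] at h1
  exact h1.symm.trans (Lp.coeFn_zero _ _ _)

/-- an almost convex sequence dominated by a summable one is small -/
theorem seq_convex (b g : ℤ → ℝ) (ε ε' Γ : ℝ) (hε' : 0 ≤ ε') (hg : ∀ n, 0 ≤ g n)
    (hΓ : ∀ s : Finset ℤ, ∑ n ∈ s, g n ≤ Γ) (h1 : ∀ n, b n ≤ g n + ε)
    (h2 : ∀ n, 2 * b n - ε' ≤ b (n - 1) + b (n + 1)) (K : ℕ) (hK : 0 < K) (n : ℤ) :
    b n ≤ Γ / K + ε + K ^ 2 * ε' := by
  set D : ℕ → ℝ := fun k => b (n + k) + b (n - k) with hD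
  have hstep : ∀ k : ℕ, D k - (2 * k + 1) * ε' ≤ D (k + 1) := by
    intro k
    induction k with
    | zero =>
      have := h2 n
      simp only [hD]
      push_cast
      simp only [add_zero, sub_zero]
      linarith
    | succ k ih =>
      have a1 := h2 (n + (k + 1))
      have a2 := h2 (n - (k + 1))
      simp only [hD] at ih ⊢
      push_cast at ih ⊢
      have e1 : n + ((k : ℤ) + 1) - 1 = n + k := by ring
      have e2 : n + ((k : ℤ) + 1) + 1 = n + (k + 1 + 1) := by ring
      have e3 : n - ((k : ℤ) + 1) - 1 = n - (k + 1 + 1) := by ring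
      have e4 : n - ((k : ℤ) + 1) + 1 = n - k := by ring
      rw [e1, e2] at a1
      rw [e3, e4] at a2
      linarith
  have hlow : ∀ k : ℕ, 2 * b n - k ^ 2 * ε' ≤ D k := by
    intro k
    induction k with
    | zero => simp [hD]; linarith
    | succ k ih =>
      have := hstep k
      push_cast
      nlinarith
  have hA : ∑ k ∈ Finset.range K, g (n + k) ≤ Γ := by
    have := hΓ ((Finset.range K).image fun k : ℕ => n + k)
    rwa [Finset.sum_image (fun x _ y _ h => by simpa using h)] at this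
  have hB : ∑ k ∈ Finset.range K, g (n - k) ≤ Γ := by
    have := hΓ ((Finset.range K).image fun k : ℕ => n - k)
    rwa [Finset.sum_image (fun x _ y _ h => by simpa using h)] at this
  have hsum : ∑ k ∈ Finset.range K, (2 * b n - K ^ 2 * ε' - 2 * ε)
      ≤ ∑ k ∈ Finset.range K, (g (n + k) + g (n - k)) := by
    refine Finset.sum_le_sum fun k hk => ?_
    have hk' : (k : ℝ) ≤ K := by exact_mod_cast (Finset.mem_range.1 hk).le
    have := hlow k
    have a1 := h1 (n + k)
    have a2 := h1 (n - k)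
    have a3 : (k : ℝ) ^ 2 * ε' ≤ K ^ 2 * ε' := by gcongr
    simp only [hD] at this
    linarith
  rw [Finset.sum_add_distrib, Finset.sum_const, Finset.card_range, nsmul_eq_mul] at hsum
  have hK' : (0 : ℝ) < K := by exact_mod_cast hK
  have h3 : b n - ε - K ^ 2 * ε' ≤ Γ / K := by
    rw [le_div_iff₀ hK']
    have : 0 ≤ (K : ℝ) * (K ^ 2 * ε') := by positivity
    nlinarith
  linarith

end Vale.Agent.P099
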