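import Vale.Agent.P099.Green
import Vale.Agent.P099.Bessel

open MeasureTheory Set Complex
open scoped Real ComplexConjugate InnerProductSpace

noncomputable section

namespace Vale.Agent.P099

variable {A : Fin 3 → ℂ}
variable {H : Type} [NormedAddCommGroup H] [InnerProductSpace ℂ H] [CompleteSpace H]

/-- the Wirtinger derivative in `z` -/
def dp (a : ℂ → H) (x : ℂ) : H := (1 / 2 : ℂ) • (fderiv ℝ a x 1 - I • fderiv ℝ a x I)

/-- the Wirtinger derivative in `conj z` -/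
def dm (a : ℂ → H) (x : ℂ) : H := (1 / 2 : ℂ) • (fderiv ℝ a x 1 + I • fderiv ℝ a x I)

namespace ChainAux

theorem chain_real (al be g p p' r s R T : ℤ → ℝ) (ε Γ : ℝ) (hε : 0 < ε)
    (al0 : ∀ n, 0 ≤ al n) (be0 : ∀ n, 0 ≤ be n) (g0 : ∀ n, 0 ≤ g n)
    (I1 : ∀ n, al n - be n = al (-n) - be (-n))
    (I2 : ∀ n, p (n + 1) - p' n = p (-n) - p' (-(n + 1)))
    (hr : ∀ n, r n = al (n - 1) - be (n + 1) + p n - p' n)
    (hs : ∀ n, p n + p' n = -g n + s n)
    (h1 : ∀ n, -g n / 4 ≤ al (n - 1) + p n) (h2 : ∀ n, -g n / 4 ≤ be (n + 1) + p' n)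
    (hrR : ∀ n, |r n| ≤ R n) (hR : ∀ S : Finset ℤ, ∑ n ∈ S, R n ≤ ε ^ 2)
    (hsb : ∀ n, |s n| ≤ ε * (1 + Γ) / 2)
    (hG : ∀ S : Finset ℤ, ∑ n ∈ S, g n ≤ Γ)
    (hT : Filter.Tendsto T Filter.cofinite (nhds 0))
    (t1 : ∀ n, al (n - 1) ≤ T n) (t2 : ∀ n, be (n + 1) ≤ T n) (t3 : ∀ n, |p n| ≤ T n)
    (t4 : ∀ n, |p' n| ≤ T n) (K : ℕ) (hK : 0 < K) (n : ℤ) :
    2 * (al n + be n) ≤ 100 * (Γ / K + K ^ 2 * (ε ^ 2 + ε * (1 + Γ))) := by
  obtain ⟨b, hb⟩ : ∃ b : ℤ → ℝ, ∀ n, b n = al n + be (-n) := ⟨_, fun _ => rfl⟩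
  have hb' : ∀ n, b n = be n + al (-n) := fun n => by rw [hb]; linarith [I1 n]
  obtain ⟨Q, hQ⟩ : ∃ Q : ℤ → ℝ, ∀ n, Q n = b (n - 1) + b n + p n + p' (-n) := ⟨_, fun _ => rfl⟩
  have hstep : ∀ n, Q n - Q (n + 1) = r n - r (-n) := by
    intro n
    have e1 := hb (n - 1)
    have e2 := hb' (n + 1)
    have e3 := I2 n
    rw [hQ, hQ, hr, hr, add_sub_cancel_right]
    rw [show -(n - 1) = -n + 1 by ring] at e1
    rw [show -(n + 1) = -n - 1 by ring] at e2
    linarith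
  have htel : ∀ n, ∀ N : ℕ, |Q n - Q (n + N)| ≤
      ∑ k ∈ Finset.range N, R (n + k) + ∑ k ∈ Finset.range N, R (-(n + k)) := by
    intro n N
    induction N with
    | zero => simp
    | succ N ih =>
      rw [Finset.sum_range_succ, Finset.sum_range_succ]
      have e1 := hstep (n + N)
      have e2 := abs_le.1 (hrR (n + N))
      have e3 := abs_le.1 (hrR (-(n + N)))
      have e4 := abs_le.1 ih
      push_cast
      rw [← add_assoc, abs_le]
      constructor <;> linarith [e2.1, e2.2, e3.1, e3.2, e4.1, e4.2]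
  have htel2 : ∀ n, ∀ N : ℕ, |Q n - Q (n + N)| ≤ 2 * ε ^ 2 := by
    intro n N
    have hA := hR ((Finset.range N).image fun k : ℕ => n + k)
    rw [Finset.sum_image (fun x _ y _ h => by simpa using h)] at hA
    have hB := hR ((Finset.range N).image fun k : ℕ => -(n + k))
    rw [Finset.sum_image (fun x _ y _ h => by simpa using h)] at hB
    linarith [htel n N]
  have hQT : ∀ m, |Q m| ≤ 2 * T m + 2 * T (-m) + T (m + 1) + T (-(m + 1)) := by
    intro m
    have e1 := hb (m - 1)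
    have e2 := hb m
    have a1 := t1 m
    have a2 := t2 (-m)
    have a3 := t1 (m + 1)
    have a4 := t2 (-(m + 1))
    have a5 := abs_le.1 (t3 m)
    have a6 := abs_le.1 (t4 (-m))
    rw [show -(m - 1) = -m + 1 by ring] at e1
    rw [add_sub_cancel_right] at a3
    rw [show -(m + 1) + 1 = -m by ring] at a4
    rw [hQ, abs_le]
    have := al0 (m - 1)
    have := al0 m
    have := be0 (-m + 1)
    have := be0 (-m)
    constructor <;> linarith [a5.1, a5.2, a6.1, a6.2]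
  have hinj : ∀ f : ℕ → ℤ, Function.Injective f →
      Filter.Tendsto (fun N => T (f N)) Filter.atTop (nhds 0) := by
    intro f hf
    rw [← Nat.cofinite_eq_atTop]
    exact hT.comp hf.tendsto_cofinite
  have hQ0 : ∀ n, Filter.Tendsto (fun N : ℕ => Q (n + N)) Filter.atTop (nhds 0) := by
    intro n
    have l1 := hinj (fun N => n + N) (fun x y h => by simpa using h)
    have l2 := hinj (fun N => -(n + N)) (fun x y h => by simpa using h)
    have l3 := hinj (fun N => n + N + 1) (fun x y h => by simpa using h)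
    have l4 := hinj (fun N => -(n + N + 1)) (fun x y h => by simpa using h)
    have l5 := (((l1.const_mul 2).add (l2.const_mul 2)).add l3).add l4
    simp only [mul_zero, add_zero] at l5
    exact squeeze_zero_norm (fun N => hQT (n + N)) l5
  have hQb : ∀ n, |Q n| ≤ 2 * ε ^ 2 := by
    intro n
    have l1 := ((hQ0 n).const_sub (Q n)).abs
    rw [sub_zero] at l1
    exact le_of_tendsto' l1 (htel2 n)
  have hb1 : ∀ n, b n ≤ (g n + g (-n)) / 4 + 2 * ε ^ 2 := by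
    intro n
    have e1 := hb (n - 1)
    rw [show -(n - 1) = -n + 1 by ring] at e1
    have e2 := (abs_le.1 (hQb n)).2
    rw [hQ] at e2
    linarith [h1 n, h2 (-n)]
  have hb2 : ∀ n, 2 * b n - (12 * ε ^ 2 + ε * (1 + Γ)) ≤ b (n - 1) + b (n + 1) := by
    intro n
    have e1 := (abs_le.1 (hQb n)).2
    have e2 := (abs_le.1 (hQb (n + 1))).2
    have e1' := (abs_le.1 (hQb n)).1
    have e2' := (abs_le.1 (hQb (n + 1))).1
    rw [hQ] at e1 e2 e1' e2'
    rw [add_sub_cancel_right] at e2 e2'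
    have e3 := abs_le.1 (hsb n)
    have e4 := abs_le.1 (hsb (-n))
    linarith [I2 n, hs n, hs (-n), hb1 n, e3.1, e3.2, e4.1, e4.2]
  have hΓ : 0 ≤ Γ := by simpa using hG ∅
  have hsum : ∀ S : Finset ℤ, ∑ n ∈ S, (g n + g (-n)) / 4 ≤ Γ / 2 := by
    intro S
    have hB := hG (S.image fun k => -k)
    rw [Finset.sum_image (fun x _ y _ h => by simpa using h)] at hB
    rw [← Finset.sum_div, Finset.sum_add_distrib]
    linarith [hG S]
  have hfin := seq_convex b (fun n => (g n + g (-n)) / 4) (2 * ε ^ 2) (12 * ε ^ 2 + ε * (1 + Γ))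
    (Γ / 2) (by positivity) (fun n => by have := g0 n; have := g0 (-n); positivity) hsum hb1 hb2
    K hK n
  have hK1 : (1 : ℝ) ≤ K := by exact_mod_cast hK
  have hK2 : (1 : ℝ) ≤ (K : ℝ) ^ 2 := one_le_pow₀ hK1
  have c1 : ε ^ 2 ≤ (K : ℝ) ^ 2 * ε ^ 2 := le_mul_of_one_le_left (by positivity) hK2
  have c2 : 0 ≤ (K : ℝ) ^ 2 * (ε * (1 + Γ)) := by positivity
  have c3 : 0 ≤ Γ / K := by positivity
  have c4 : Γ / 2 / K = Γ / K / 2 := by ring
  have c5 : 0 ≤ ε ^ 2 := by positivity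
  have d1 := hb n
  have d2 := hb' n
  have := al0 (-n)
  have := be0 (-n)
  rw [c4] at hfin
  nlinarith

/-! ### integrals of continuous functions -/

theorem intg {f : ℂ → ℝ} (hf : Continuous f) : IntegrableOn f (TT A) :=
  hf.continuousOn.integrableOn_compact isCompact_TT

theorem lin5 {f1 f2 f3 f4 f5 : ℂ → ℝ} (h1 : Continuous f1) (h2 : Continuous f2)
    (h3 : Continuous f3) (h4 : Continuous f4) (h5 : Continuous f5) (c1 c2 c3 c4 c5 : ℝ) :
    ∫ x in TT A, (c1 * f1 x + c2 * f2 x + c3 * f3 x + c4 * f4 x + c5 * f5 x) =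
      c1 * (∫ x in TT A, f1 x) + c2 * (∫ x in TT A, f2 x) + c3 * (∫ x in TT A, f3 x) +
        c4 * (∫ x in TT A, f4 x) + c5 * (∫ x in TT A, f5 x) := by
  rw [integral_add (intg (by fun_prop)) (intg (by fun_prop)),
    integral_add (intg (by fun_prop)) (intg (by fun_prop)),
    integral_add (intg (by fun_prop)) (intg (by fun_prop)),
    integral_add (intg (by fun_prop)) (intg (by fun_prop)),
    integral_const_mul, integral_const_mul, integral_const_mul, integral_const_mul,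
    integral_const_mul]

theorem lin_nonneg {f1 f2 f3 f4 f5 : ℂ → ℝ} (h1 : Continuous f1) (h2 : Continuous f2)
    (h3 : Continuous f3) (h4 : Continuous f4) (h5 : Continuous f5) (c1 c2 c3 c4 c5 : ℝ)
    (h : ∀ x, 0 ≤ c1 * f1 x + c2 * f2 x + c3 * f3 x + c4 * f4 x + c5 * f5 x) :
    0 ≤ c1 * (∫ x in TT A, f1 x) + c2 * (∫ x in TT A, f2 x) + c3 * (∫ x in TT A, f3 x) +
        c4 * (∫ x in TT A, f4 x) + c5 * (∫ x in TT A, f5 x) := by
  rw [← lin5 h1 h2 h3 h4 h5]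
  exact integral_nonneg h

theorem lin_zero {f1 f2 f3 f4 f5 : ℂ → ℝ} (h1 : Continuous f1) (h2 : Continuous f2)
    (h3 : Continuous f3) (h4 : Continuous f4) (h5 : Continuous f5) (c1 c2 c3 c4 c5 : ℝ)
    (h : ∀ x, c1 * f1 x + c2 * f2 x + c3 * f3 x + c4 * f4 x + c5 * f5 x = 0) :
    c1 * (∫ x in TT A, f1 x) + c2 * (∫ x in TT A, f2 x) + c3 * (∫ x in TT A, f3 x) +
        c4 * (∫ x in TT A, f4 x) + c5 * (∫ x in TT A, f5 x) = 0 := by
  rw [← lin5 h1 h2 h3 h4 h5]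
  simp only [h, integral_zero]

/-! ### the real inner product -/

omit [CompleteSpace H]

/-- real part of the inner product -/
def ip (x y : H) : ℝ := (⟪x, y⟫_ℂ).re

theorem ip_add (x y z : H) : ip x (y + z) = ip x y + ip x z := by simp [ip]
theorem ip_sub (x y z : H) : ip x (y - z) = ip x y - ip x z := by simp [ip]
theorem add_ip (x y z : H) : ip (x + y) z = ip x z + ip y z := by simp [ip]
theorem ip_comm (x y : H) : ip x y = ip y x := by
  unfold ip
  rw [← inner_conj_symm, conj_re]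
theorem ip_self (x : H) : ip x x = ‖x‖ ^ 2 := inner_self_eq_norm_sq (𝕜 := ℂ) x
theorem abs_ip (x y : H) : |ip x y| ≤ ‖x‖ * ‖y‖ :=
  (abs_re_le_norm _).trans (norm_inner_le_norm x y)

theorem abs_ip_le (x y : H) {t : ℝ} (ht : 0 < t) :
    |ip x y| ≤ t / 2 * ‖x‖ ^ 2 + 1 / (2 * t) * ‖y‖ ^ 2 := by
  refine (abs_ip x y).trans ?_
  have h : t / 2 * ‖x‖ ^ 2 + 1 / (2 * t) * ‖y‖ ^ 2 - ‖x‖ * ‖y‖ =
      1 / (2 * t) * (t * ‖x‖ - ‖y‖) ^ 2 := by
    field_simp; ring
  have h2 : 0 ≤ 1 / (2 * t) * (t * ‖x‖ - ‖y‖) ^ 2 := by positivity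
  linarith

theorem continuous_ip {f g : ℂ → H} (hf : Continuous f) (hg : Continuous g) :
    Continuous fun x => ip (f x) (g x) :=
  continuous_re.comp (hf.inner hg)

theorem half_le (u v G : H) : ‖u‖ ^ 2 ≤ ‖u + v + G‖ ^ 2 + ‖G‖ ^ 2 + ‖u - v‖ ^ 2 := by
  have h1 : ‖u + u‖ ≤ ‖u + v + G‖ + ‖G‖ + ‖u - v‖ := by
    have e : u + u = (u + v + G) - G + (u - v) := by abel
    rw [e]
    exact (norm_add_le _ _).trans (add_le_add (norm_sub_le _ _) le_rfl)
  have h2 : ‖u + u‖ = 2 * ‖u‖ := by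
    rw [← two_smul ℂ u, norm_smul]; simp
  rw [h2] at h1
  have h3 := pow_le_pow_left₀ (by positivity) h1 2
  nlinarith [sq_nonneg (‖u + v + G‖ - ‖G‖), sq_nonneg (‖u + v + G‖ - ‖u - v‖),
    sq_nonneg (‖G‖ - ‖u - v‖), sq_nonneg ‖u + v + G‖, sq_nonneg ‖G‖, sq_nonneg ‖u - v‖]

theorem ip_dp (G X Y : H) :
    ip G ((1 / 2 : ℂ) • (X - I • Y)) = ((⟪G, X⟫_ℂ).re + (⟪G, Y⟫_ℂ).im) / 2 := by
  simp [ip]
  ring

theorem ip_dm (G X Y : H) :
    ip G ((1 / 2 : ℂ) • (X + I • Y)) = ((⟪G, X⟫_ℂ).re - (⟪G, Y⟫_ℂ).im) / 2 := by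
  simp [ip]
  ring

theorem norm_dp (X Y : H) :
    ‖(1 / 2 : ℂ) • (X - I • Y)‖ ^ 2 = (‖X‖ ^ 2 + ‖Y‖ ^ 2 + 2 * (⟪X, Y⟫_ℂ).im) / 4 := by
  rw [norm_smul, mul_pow, norm_sub_sq (𝕜 := ℂ), norm_smul, inner_smul_right]
  simp
  ring

theorem norm_dm (X Y : H) :
    ‖(1 / 2 : ℂ) • (X + I • Y)‖ ^ 2 = (‖X‖ ^ 2 + ‖Y‖ ^ 2 - 2 * (⟪X, Y⟫_ℂ).im) / 4 := by
  rw [norm_smul, mul_pow, norm_add_sq (𝕜 := ℂ), norm_smul, inner_smul_right]
  simp
  ring

theorem W_dp (W : H →L[ℂ] H) (a : ℂ → H) (x : ℂ) :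
    W (dp a x) = (1 / 2 : ℂ) • (W (fderiv ℝ a x 1) - I • W (fderiv ℝ a x I)) := by
  simp only [dp, map_smul, map_sub]

theorem W_dm (W : H →L[ℂ] H) (a : ℂ → H) (x : ℂ) :
    W (dm a x) = (1 / 2 : ℂ) • (W (fderiv ℝ a x 1) + I • W (fderiv ℝ a x I)) := by
  simp only [dm, map_smul, map_add]

theorem continuous_fd {a : ℂ → H} (ha : ContDiff ℝ 2 a) (v : ℂ) :
    Continuous fun x => fderiv ℝ a x v :=
  (ha.continuous_fderiv (by norm_num)).clm_apply continuous_const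

theorem continuous_dp {a : ℂ → H} (ha : ContDiff ℝ 2 a) : Continuous (dp a) := by
  have h1 := continuous_fd ha 1
  have h2 := continuous_fd ha I
  unfold dp
  fun_prop

theorem continuous_dm {a : ℂ → H} (ha : ContDiff ℝ 2 a) : Continuous (dm a) := by
  have h1 := continuous_fd ha 1
  have h2 := continuous_fd ha I
  unfold dm
  fun_prop

/-! ### derivatives -/

theorem fderiv_W (W : H →L[ℂ] H) {a : ℂ → H} {x : ℂ} (ha : DifferentiableAt ℝ a x) (v : ℂ) :
    fderiv ℝ (fun y => W (a y)) x v = W (fderiv ℝ a x v) := by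
  have := ((W.restrictScalars ℝ).hasFDerivAt.comp x ha.hasFDerivAt).fderiv
  exact congrArg (fun L : ℂ →L[ℝ] H => L v) this

theorem contDiff_W (W : H →L[ℂ] H) {a : ℂ → H} {n : WithTop ℕ∞} (ha : ContDiff ℝ n a) :
    ContDiff ℝ n (fun y => W (a y)) :=
  (W.restrictScalars ℝ).contDiff.comp ha

theorem contDiff_fd {a : ℂ → H} (ha : ContDiff ℝ 2 a) (v : ℂ) :
    ContDiff ℝ 1 fun x => fderiv ℝ a x v :=
  (ha.fderiv_right (m := 1) (by norm_num)).clm_apply contDiff_const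

theorem fd_symm {a : ℂ → H} (ha : ContDiff ℝ 2 a) (x v w : ℂ) :
    fderiv ℝ (fun y => fderiv ℝ a y v) x w = fderiv ℝ (fun y => fderiv ℝ a y w) x v := by
  have hd : DifferentiableAt ℝ (fderiv ℝ a) x :=
    (ha.fderiv_right (m := 1) (by norm_num)).differentiable (by norm_num) x
  have key : ∀ v w : ℂ, fderiv ℝ (fun y => fderiv ℝ a y v) x w = fderiv ℝ (fderiv ℝ a) x w v := by
    intro v w
    rw [fderiv_clm_apply hd (differentiableAt_const v)]
    simp
  rw [key, key]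
  exact (ha.contDiffAt.isSymmSndFDerivAt (by simp)) w v

theorem green_c (hA : AffineIndependent ℝ A) (ξ η : ℂ → ℂ) (hξ : ContDiff ℝ 1 ξ)
    (hη : ContDiff ℝ 1 η)
    (hb : ∀ j, ∀ x ∈ side A j, (ξ x).re * (nrm A j).re + (η x).re * (nrm A j).im = 0) :
    ∫ x in TT A, ((fderiv ℝ ξ x 1).re + (fderiv ℝ η x I).re) = 0 := by
  have h := green hA (fun x => (ξ x).re) (fun x => (η x).re) (reCLM.contDiff.comp hξ)
    (reCLM.contDiff.comp hη) hb
  have key : ∀ ζ : ℂ → ℂ, ContDiff ℝ 1 ζ → ∀ x v, fderiv ℝ (fun x => (ζ x).re) x v =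
      (fderiv ℝ ζ x v).re := by
    intro ζ hζ x v
    have := (reCLM.hasFDerivAt.comp x (hζ.differentiable (by norm_num) x).hasFDerivAt).fderiv
    exact congrArg (fun L : ℂ →L[ℝ] ℝ => L v) this
  simpa only [key ξ hξ, key η hη] using h

theorem tangent (hA : AffineIndependent ℝ A) {j : Fin 3} {f g : ℂ → H} {c : ℂ}
    (hf : Differentiable ℝ f) (hg : Differentiable ℝ g) (h : ∀ x ∈ side A j, g x = c • f x)
    {x : ℂ} (hx : x ∈ side A j) :
    fderiv ℝ g x (I * nrm A j) = c • fderiv ℝ f x (I * nrm A j) := by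
  have hl : HasDerivAt (fun t : ℝ => x + t * (I * nrm A j)) (I * nrm A j) 0 := by
    simpa using ((hasDerivAt_id (0 : ℝ)).ofReal_comp.mul_const (I * nrm A j)).const_add x
  have h0 : x + ((0 : ℝ) : ℂ) * (I * nrm A j) = x := by simp
  have hg' : HasDerivAt (fun t : ℝ => g (x + t * (I * nrm A j))) (fderiv ℝ g x (I * nrm A j)) 0 :=
    (hg x).hasFDerivAt.comp_hasDerivAt_of_eq 0 hl h0.symm
  have hf' : HasDerivAt (fun t : ℝ => c • f (x + t * (I * nrm A j)))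
      (c • fderiv ℝ f x (I * nrm A j)) 0 :=
    ((hf x).hasFDerivAt.comp_hasDerivAt_of_eq 0 hl h0.symm).const_smul c
  refine hg'.unique (hf'.congr_of_eventuallyEq ?_)
  rw [mem_side hA] at hx
  have hnu : nu A j (I * nrm A j) = 0 := by
    rw [nu_eq]; simp; ring
  have hev : ∀ᶠ t : ℝ in nhds 0, ∀ i, i ≠ j → 0 < ell A i (x + t * (I * nrm A j)) := by
    rw [Filter.eventually_all]
    intro i
    by_cases hi : i = j
    · exact Filter.Eventually.of_forall fun t h' => absurd hi h'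
    · have hc : Continuous fun t : ℝ => ell A i (x + t * (I * nrm A j)) :=
        (continuous_ell i).comp (by fun_prop)
      have h5 : 0 < ell A i (x + ((0 : ℝ) : ℂ) * (I * nrm A j)) := by rw [h0]; exact hx.2 i hi
      have := (hc.continuousAt (x := 0)).eventually (lt_mem_nhds h5)
      exact this.mono fun t ht _ => ht
  filter_upwards [hev] with t ht
  exact h _ ((mem_side hA).2 ⟨by rw [ell_line, hnu, hx.1]; simp, ht⟩)

theorem fd_tan (a : ℂ → H) (x z : ℂ) :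
    fderiv ℝ a x (I * z) = z.re • fderiv ℝ a x I - z.im • fderiv ℝ a x 1 := by
  have : I * z = z.re • I - z.im • (1 : ℂ) := by
    apply Complex.ext <;> simp
  rw [this, map_sub, map_smul, map_smul]

theorem zpow_unit {c : ℂ} (hc : ‖c‖ = 1) (n : ℤ) : conj (c ^ n) * c ^ n = 1 := by
  rw [mul_comm, Complex.mul_conj, Complex.normSq_eq_norm_sq, norm_zpow, hc]
  simp

theorem jac (hA : AffineIndependent ℝ A) {w w' : ℂ → H} (hw : ContDiff ℝ 2 w)
    (hw' : ContDiff ℝ 2 w') (c : Fin 3 → ℂ) (hc : ∀ j, conj (c j) * c j = 1)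
    (h : ∀ j, ∀ x ∈ side A j, w' x = c j • w x) :
    ∫ x in TT A, (2 * (⟪fderiv ℝ w x 1, fderiv ℝ w x I⟫_ℂ).im -
      2 * (⟪fderiv ℝ w' x 1, fderiv ℝ w' x I⟫_ℂ).im) = 0 := by
  have hw1 : ContDiff ℝ 1 w := hw.of_le (by norm_num)
  have hw1' : ContDiff ℝ 1 w' := hw'.of_le (by norm_num)
  have hd := hw1.differentiable (by norm_num)
  have hd' := hw1'.differentiable (by norm_num)
  have c1 : ∀ v, ContDiff ℝ 1 fun x => ⟪w x, fderiv ℝ w x v⟫_ℂ := fun v =>
    hw1.inner ℂ (contDiff_fd hw v)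
  have c2 : ∀ v, ContDiff ℝ 1 fun x => ⟪w' x, fderiv ℝ w' x v⟫_ℂ := fun v =>
    hw1'.inner ℂ (contDiff_fd hw' v)
  have key : ∀ (k : ℂ) (x v z : ℂ), fderiv ℝ (fun x => k * (⟪w x, fderiv ℝ w x v⟫_ℂ -
      ⟪w' x, fderiv ℝ w' x v⟫_ℂ)) x z =
      k * ((⟪w x, fderiv ℝ (fun y => fderiv ℝ w y v) x z⟫_ℂ + ⟪fderiv ℝ w x z, fderiv ℝ w x v⟫_ℂ) -
        (⟪w' x, fderiv ℝ (fun y => fderiv ℝ w' y v) x z⟫_ℂ +
          ⟪fderiv ℝ w' x z, fderiv ℝ w' x v⟫_ℂ)) := by
    intro k x v z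
    have d1 := (c1 v).differentiable (by norm_num) x
    have d2 := (c2 v).differentiable (by norm_num) x
    rw [fderiv_const_mul (d1.fun_sub d2), fderiv_fun_sub d1 d2, smul_apply,
      sub_apply,
      fderiv_inner_apply ℂ (hd x) ((contDiff_fd hw v).differentiable (by norm_num) x),
      fderiv_inner_apply ℂ (hd' x) ((contDiff_fd hw' v).differentiable (by norm_num) x),
      smul_eq_mul]
  have hg := green_c hA
    (fun x => -I * (⟪w x, fderiv ℝ w x I⟫_ℂ - ⟪w' x, fderiv ℝ w' x I⟫_ℂ))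
    (fun x => I * (⟪w x, fderiv ℝ w x 1⟫_ℂ - ⟪w' x, fderiv ℝ w' x 1⟫_ℂ))
    (contDiff_const.mul ((c1 I).sub (c2 I))) (contDiff_const.mul ((c1 1).sub (c2 1))) (by
      intro j x hx
      have t1 := tangent hA hd hd' (h j) hx
      have t2 : ⟪w' x, fderiv ℝ w' x (I * nrm A j)⟫_ℂ = ⟪w x, fderiv ℝ w x (I * nrm A j)⟫_ℂ := by
        rw [t1, h j x hx, inner_smul_left, inner_smul_right, ← mul_assoc, hc j, one_mul]
      rw [fd_tan, fd_tan] at t2
      simp only [inner_sub_right, ← Complex.coe_smul, inner_smul_right] at t2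
      have t3 := congrArg Complex.im t2
      simp only [sub_im, mul_im, ofReal_re, ofReal_im, zero_mul, add_zero] at t3
      simp only [mul_re, neg_re, I_re, neg_im, I_im, sub_re, sub_im]
      linarith)
  rw [← hg]
  refine integral_congr_ae (Filter.Eventually.of_forall fun x => ?_)
  simp only [key]
  rw [fd_symm hw x I 1, fd_symm hw' x I 1, ← inner_conj_symm (fderiv ℝ w x I) (fderiv ℝ w x 1),
    ← inner_conj_symm (fderiv ℝ w' x I) (fderiv ℝ w' x 1)]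
  simp only [mul_re, neg_re, I_re, neg_im, I_im, sub_re, sub_im, add_re, add_im, conj_re, conj_im]
  ring

theorem flux (hA : AffineIndependent ℝ A) (W W' : H →L[ℂ] H)
    (hskew : ∀ u v, ⟪W' u, W v⟫_ℂ + ⟪W u, W' v⟫_ℂ = 0) {a b a' b' : ℂ → H}
    (ha : ContDiff ℝ 2 a) (hb : ContDiff ℝ 2 b) (ha' : ContDiff ℝ 2 a') (hb' : ContDiff ℝ 2 b')
    (c : Fin 3 → ℂ) (hc : ∀ j, conj (c j) * c j = 1)
    (h1 : ∀ j, ∀ x ∈ side A j, a' x = (c j * cc A j) • b x)
    (h2 : ∀ j, ∀ x ∈ side A j, b' x = c j • a x) :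
    ∫ x in TT A, (2 * ip (W' (b x)) (W (dp a x)) - 2 * ip (W' (a x)) (W (dm b x)) -
      2 * ip (W' (b' x)) (W (dp a' x)) + 2 * ip (W' (a' x)) (W (dm b' x))) = 0 := by
  have c1 : ∀ {a b : ℂ → H}, ContDiff ℝ 2 a → ContDiff ℝ 2 b →
      ContDiff ℝ 1 fun x => ⟪W (a x), W' (b x)⟫_ℂ := fun ha hb =>
    (contDiff_W W (ha.of_le (by norm_num))).inner ℂ (contDiff_W W' (hb.of_le (by norm_num)))
  have k1 : ∀ {a b : ℂ → H}, ContDiff ℝ 2 a → ContDiff ℝ 2 b → ∀ x z,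
      fderiv ℝ (fun x => ⟪W (a x), W' (b x)⟫_ℂ) x z =
        conj ⟪W' (b x), W (fderiv ℝ a x z)⟫_ℂ - ⟪W' (a x), W (fderiv ℝ b x z)⟫_ℂ := by
    intro a b ha hb x z
    rw [fderiv_inner_apply ℂ ((contDiff_W W ha).differentiable (by norm_num) x)
      ((contDiff_W W' hb).differentiable (by norm_num) x),
      fderiv_W W (ha.differentiable (by norm_num) x),
      fderiv_W W' (hb.differentiable (by norm_num) x), inner_conj_symm]
    linear_combination hskew (a x) (fderiv ℝ b x z)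
  have key : ∀ (k : ℂ) (x z : ℂ), fderiv ℝ (fun x => k * (⟪W (a x), W' (b x)⟫_ℂ -
      ⟪W (a' x), W' (b' x)⟫_ℂ)) x z =
      k * ((conj ⟪W' (b x), W (fderiv ℝ a x z)⟫_ℂ - ⟪W' (a x), W (fderiv ℝ b x z)⟫_ℂ) -
        (conj ⟪W' (b' x), W (fderiv ℝ a' x z)⟫_ℂ - ⟪W' (a' x), W (fderiv ℝ b' x z)⟫_ℂ)) := by
    intro k x z
    have d1 := (c1 ha hb).differentiable (by norm_num) x
    have d2 := (c1 ha' hb').differentiable (by norm_num) x
    rw [fderiv_const_mul (d1.fun_sub d2), fderiv_fun_sub d1 d2, smul_apply,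
      sub_apply, k1 ha hb, k1 ha' hb', smul_eq_mul]
  have hg := green_c hA
    (fun x => 1 * (⟪W (a x), W' (b x)⟫_ℂ - ⟪W (a' x), W' (b' x)⟫_ℂ))
    (fun x => I * (⟪W (a x), W' (b x)⟫_ℂ - ⟪W (a' x), W' (b' x)⟫_ℂ))
    (contDiff_const.mul ((c1 ha hb).sub (c1 ha' hb')))
    (contDiff_const.mul ((c1 ha hb).sub (c1 ha' hb'))) (by
      intro j x hx
      have t1 : ⟪W (a' x), W' (b' x)⟫_ℂ * nrm A j = conj (⟪W (a x), W' (b x)⟫_ℂ * nrm A j) := by
        rw [h1 j x hx, h2 j x hx, map_smul, map_smul, inner_smul_left, inner_smul_right, map_mul,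
          map_mul, inner_conj_symm]
        have e1 := hskew (b x) (a x)
        have e2 := hc j
        have e3 := nrm_mul_conj hA j
        have e4 : conj (cc A j) = -(conj (nrm A j)) ^ 2 := by simp [cc]
        have e5 : ⟪W (b x), W' (a x)⟫_ℂ = -⟪W' (b x), W (a x)⟫_ℂ := by linear_combination e1
        rw [e4, e5]
        linear_combination (⟪W' (b x), W (a x)⟫_ℂ * conj (nrm A j) ^ 2 * nrm A j) * e2 +
          (⟪W' (b x), W (a x)⟫_ℂ * conj (nrm A j)) * e3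
      have t3 := congrArg Complex.re t1
      rw [conj_re] at t3
      simp only [mul_re] at t3
      simp only [one_mul, mul_re, I_re, I_im, sub_re, sub_im]
      linarith)
  rw [← hg]
  refine integral_congr_ae (Filter.Eventually.of_forall fun x => ?_)
  simp only [key, W_dp, W_dm, ip_dp, ip_dm]
  simp only [one_mul, mul_re, I_re, I_im, sub_re, sub_im, conj_re, conj_im]
  ring

end ChainAux

open ChainAux

/-- the energy chain -/
theorem chain (hA : AffineIndependent ℝ A) (W W' : H →L[ℂ] H)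
    (hskew : ∀ u v, ⟪W' u, W v⟫_ℂ + ⟪W u, W' v⟫_ℂ = 0)
    (a : ℤ → ℂ → H) (ha : ∀ n, ContDiff ℝ 2 (a n))
    (hb : ∀ j n, ∀ x ∈ side A j, a (-n) x = cc A j ^ n • a n x)
    (ε t Γ : ℝ) (hε : 0 < ε) (ht : 1 ≤ t)
    (hE : ∀ s : Finset ℤ, ∑ n ∈ s, ∫ x in TT A,
      ‖W (dp (a (n - 1)) x + dm (a (n + 1)) x) + W' (a n x)‖ ^ 2 ≤ ε ^ 2 / t)
    (hY : ∀ s : Finset ℤ, ∑ n ∈ s, ∫ x in TT A,
      ‖W (dp (a (n - 1)) x - dm (a (n + 1)) x)‖ ^ 2 ≤ ε ^ 2 * t)
    (hG : ∀ s : Finset ℤ, ∑ n ∈ s, ∫ x in TT A, ‖W' (a n x)‖ ^ 2 ≤ Γ)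
    (K : ℕ) (hK : 0 < K) (n : ℤ) :
    ∫ x in TT A, (‖W (fderiv ℝ (a n) x 1)‖ ^ 2 + ‖W (fderiv ℝ (a n) x I)‖ ^ 2)
      ≤ 100 * (Γ / K + K ^ 2 * (ε ^ 2 + ε * (1 + Γ))) := by
  have cU : ∀ n, Continuous fun x => W (dp (a n) x) := fun n =>
    W.continuous.comp (continuous_dp (ha n))
  have cV : ∀ n, Continuous fun x => W (dm (a n) x) := fun n =>
    W.continuous.comp (continuous_dm (ha n))
  have cG : ∀ n, Continuous fun x => W' (a n x) := fun n => W'.continuous.comp (ha n).continuous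
  simp only [map_add, map_sub] at hE hY
  have cal : ∀ n, Continuous fun x => ‖W (dp (a n) x)‖ ^ 2 := fun n => (cU n).norm.pow 2
  have cbe : ∀ n, Continuous fun x => ‖W (dm (a n) x)‖ ^ 2 := fun n => (cV n).norm.pow 2
  have cg : ∀ n, Continuous fun x => ‖W' (a n x)‖ ^ 2 := fun n => (cG n).norm.pow 2
  have ce0 : ∀ n, Continuous fun x =>
      W (dp (a (n - 1)) x) + W (dm (a (n + 1)) x) + W' (a n x) := fun n =>
    ((cU _).add (cV _)).add (cG _)
  have cy0 : ∀ n, Continuous fun x => W (dp (a (n - 1)) x) - W (dm (a (n + 1)) x) := fun n =>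
    (cU _).sub (cV _)
  have cE : ∀ n, Continuous fun x =>
      ‖W (dp (a (n - 1)) x) + W (dm (a (n + 1)) x) + W' (a n x)‖ ^ 2 := fun n => (ce0 n).norm.pow 2
  have cY : ∀ n, Continuous fun x => ‖W (dp (a (n - 1)) x) - W (dm (a (n + 1)) x)‖ ^ 2 :=
    fun n => (cy0 n).norm.pow 2
  have cp : ∀ n m, Continuous fun x => ip (W' (a n x)) (W (dp (a m) x)) := fun n m =>
    continuous_ip (cG _) (cU _)
  have cp' : ∀ n m, Continuous fun x => ip (W' (a n x)) (W (dm (a m) x)) := fun n m =>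
    continuous_ip (cG _) (cV _)
  have cr : ∀ n, Continuous fun x => ip (W (dp (a (n - 1)) x) + W (dm (a (n + 1)) x) + W' (a n x))
      (W (dp (a (n - 1)) x) - W (dm (a (n + 1)) x)) := fun n => continuous_ip (ce0 n) (cy0 n)
  have cs : ∀ n, Continuous fun x => ip (W' (a n x))
      (W (dp (a (n - 1)) x) + W (dm (a (n + 1)) x) + W' (a n x)) := fun n =>
    continuous_ip (cG n) (ce0 n)
  have ht0 : 0 < t := by linarith
  have E0 : ∀ n, 0 ≤ ∫ x in TT A,
      ‖W (dp (a (n - 1)) x) + W (dm (a (n + 1)) x) + W' (a n x)‖ ^ 2 := fun n =>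
    integral_nonneg fun _ => sq_nonneg _
  have Y0 : ∀ n, 0 ≤ ∫ x in TT A, ‖W (dp (a (n - 1)) x) - W (dm (a (n + 1)) x)‖ ^ 2 := fun n =>
    integral_nonneg fun _ => sq_nonneg _
  have g0 : ∀ n, 0 ≤ ∫ x in TT A, ‖W' (a n x)‖ ^ 2 := fun n => integral_nonneg fun _ => sq_nonneg _
  have t1 : ∀ n, ∫ x in TT A, ‖W (dp (a (n - 1)) x)‖ ^ 2 ≤
      (∫ x in TT A, ‖W (dp (a (n - 1)) x) + W (dm (a (n + 1)) x) + W' (a n x)‖ ^ 2) +
        (∫ x in TT A, ‖W' (a n x)‖ ^ 2) +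
        ∫ x in TT A, ‖W (dp (a (n - 1)) x) - W (dm (a (n + 1)) x)‖ ^ 2 := by
    intro n
    have := lin_nonneg (A := A) (cal (n - 1)) (cE n) (cg n) (cY n) (cY n) (-1) 1 1 1 0 fun x => by
      linarith [half_le (W (dp (a (n - 1)) x)) (W (dm (a (n + 1)) x)) (W' (a n x))]
    linarith
  have t2 : ∀ n, ∫ x in TT A, ‖W (dm (a (n + 1)) x)‖ ^ 2 ≤
      (∫ x in TT A, ‖W (dp (a (n - 1)) x) + W (dm (a (n + 1)) x) + W' (a n x)‖ ^ 2) +
        (∫ x in TT A, ‖W' (a n x)‖ ^ 2) +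
        ∫ x in TT A, ‖W (dp (a (n - 1)) x) - W (dm (a (n + 1)) x)‖ ^ 2 := by
    intro n
    have := lin_nonneg (A := A) (cbe (n + 1)) (cE n) (cg n) (cY n) (cY n) (-1) 1 1 1 0 fun x => by
      have h := half_le (W (dm (a (n + 1)) x)) (W (dp (a (n - 1)) x)) (W' (a n x))
      rw [add_comm (W (dm (a (n + 1)) x)), norm_sub_rev] at h
      linarith
    linarith
  have habs : ∀ {f u v : ℂ → ℝ} (c d : ℝ), Continuous f → Continuous u → Continuous v →
      (∀ x, |f x| ≤ c * u x + d * v x) →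
      |∫ x in TT A, f x| ≤ c * (∫ x in TT A, u x) + d * ∫ x in TT A, v x := by
    intro f u v c d hf hu hv h
    have h1 := lin_nonneg (A := A) hf hu hv hv hv 1 c d 0 0 fun x => by
      linarith [(abs_le.1 (h x)).1]
    have h2 := lin_nonneg (A := A) hf hu hv hv hv (-1) c d 0 0 fun x => by
      linarith [(abs_le.1 (h x)).2]
    rw [abs_le]
    constructor <;> linarith
  have main := chain_real (fun n => ∫ x in TT A, ‖W (dp (a n) x)‖ ^ 2)
    (fun n => ∫ x in TT A, ‖W (dm (a n) x)‖ ^ 2) (fun n => ∫ x in TT A, ‖W' (a n x)‖ ^ 2)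
    (fun n => ∫ x in TT A, ip (W' (a n x)) (W (dp (a (n - 1)) x)))
    (fun n => ∫ x in TT A, ip (W' (a n x)) (W (dm (a (n + 1)) x)))
    (fun n => ∫ x in TT A, ip (W (dp (a (n - 1)) x) + W (dm (a (n + 1)) x) + W' (a n x))
      (W (dp (a (n - 1)) x) - W (dm (a (n + 1)) x)))
    (fun n => ∫ x in TT A, ip (W' (a n x))
      (W (dp (a (n - 1)) x) + W (dm (a (n + 1)) x) + W' (a n x)))
    (fun n => t / 2 * (∫ x in TT A,
        ‖W (dp (a (n - 1)) x) + W (dm (a (n + 1)) x) + W' (a n x)‖ ^ 2) +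
      1 / (2 * t) * ∫ x in TT A, ‖W (dp (a (n - 1)) x) - W (dm (a (n + 1)) x)‖ ^ 2)
    (fun n => (∫ x in TT A, ‖W (dp (a (n - 1)) x) + W (dm (a (n + 1)) x) + W' (a n x)‖ ^ 2) +
        (∫ x in TT A, ‖W' (a n x)‖ ^ 2) +
        ∫ x in TT A, ‖W (dp (a (n - 1)) x) - W (dm (a (n + 1)) x)‖ ^ 2)
    ε Γ hε (fun n => integral_nonneg fun _ => sq_nonneg _)
    (fun n => integral_nonneg fun _ => sq_nonneg _) g0 ?_ ?_ ?_ ?_ ?_ ?_ ?_ ?_ ?_ hG ?_ t1 t2
    ?_ ?_ K hK n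
  · refine le_trans (le_of_eq ?_) main
    have c1 : Continuous fun x => ‖W (fderiv ℝ (a n) x 1)‖ ^ 2 + ‖W (fderiv ℝ (a n) x I)‖ ^ 2 :=
      ((W.continuous.comp (continuous_fd (ha n) 1)).norm.pow 2).add
        ((W.continuous.comp (continuous_fd (ha n) I)).norm.pow 2)
    have := lin_zero (A := A) c1 (cal n) (cbe n) c1 c1 1 (-2) (-2) 0 0 fun x => by
      rw [W_dp, W_dm, norm_dp, norm_dm]; ring
    linarith
  · intro n
    have h1 := jac hA (contDiff_W W (ha n)) (contDiff_W W (ha (-n))) (fun j => cc A j ^ n)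
      (fun j => zpow_unit (norm_cc hA j) n) (fun j x hx => by rw [hb j n x hx, map_smul])
    have h2 := lin5 (A := A) (cal n) (cbe n) (cal (-n)) (cbe (-n)) (cal n) 2 (-2) (-2) 2 0
    have h3 : ∫ x in TT A, (2 * ‖W (dp (a n) x)‖ ^ 2 + -2 * ‖W (dm (a n) x)‖ ^ 2 +
        -2 * ‖W (dp (a (-n)) x)‖ ^ 2 + 2 * ‖W (dm (a (-n)) x)‖ ^ 2 +
        0 * ‖W (dp (a n) x)‖ ^ 2) = 0 := by
      refine Eq.trans (integral_congr_ae (Filter.Eventually.of_forall fun x => ?_)) h1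
      simp only [fderiv_W W ((ha _).differentiable (by norm_num) x), W_dp, W_dm, norm_dp, norm_dm]
      ring
    linarith
  · intro n
    have h1 := flux hA W W' hskew (ha n) (ha (n + 1)) (ha (-(n + 1))) (ha (-n))
      (fun j => cc A j ^ n) (fun j => zpow_unit (norm_cc hA j) n)
      (fun j x hx => by
        have hne : cc A j ≠ 0 := by
          rw [← norm_ne_zero_iff, norm_cc hA]; exact one_ne_zero
        rw [hb j (n + 1) x hx, zpow_add_one₀ hne])
      (fun j x hx => hb j n x hx)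
    have h2 := lin5 (A := A) (cp (n + 1) n) (cp' n (n + 1)) (cp (-n) (-(n + 1)))
      (cp' (-(n + 1)) (-n)) (cal n) 2 (-2) (-2) 2 0
    have h3 : ∫ x in TT A, (2 * ip (W' (a (n + 1) x)) (W (dp (a n) x)) +
        -2 * ip (W' (a n x)) (W (dm (a (n + 1)) x)) +
        -2 * ip (W' (a (-n) x)) (W (dp (a (-(n + 1))) x)) +
        2 * ip (W' (a (-(n + 1)) x)) (W (dm (a (-n)) x)) + 0 * ‖W (dp (a n) x)‖ ^ 2) = 0 := by
      refine Eq.trans (integral_congr_ae (Filter.Eventually.of_forall fun x => ?_)) h1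
      ring
    simp only [add_sub_cancel_right, show -n - 1 = -(n + 1) by ring,
      show -(n + 1) + 1 = -n by ring]
    linarith
  · intro n
    have := lin_zero (A := A) (cr n) (cal (n - 1)) (cbe (n + 1)) (cp n (n - 1)) (cp' n (n + 1))
      1 (-1) 1 (-1) 1 fun x => by
        simp only [add_ip, ip_sub, ip_self]
        rw [ip_comm (W (dm (a (n + 1)) x))]
        ring
    linarith
  · intro n
    have := lin_zero (A := A) (cp n (n - 1)) (cp' n (n + 1)) (cg n) (cs n) (cs n)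
      1 1 1 (-1) 0 fun x => by
        simp only [ip_add, ip_self]
        ring
    linarith
  · intro n
    have h1 := habs (1 / 2 / 2) (1 / (2 * (1 / 2))) (cp n (n - 1)) (cg n) (cal (n - 1))
      fun x => abs_ip_le _ _ (by norm_num)
    have h2 := (abs_le.1 h1).1
    linarith
  · intro n
    have h1 := habs (1 / 2 / 2) (1 / (2 * (1 / 2))) (cp' n (n + 1)) (cg n) (cbe (n + 1))
      fun x => abs_ip_le _ _ (by norm_num)
    have h2 := (abs_le.1 h1).1
    linarith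
  · intro n
    exact habs _ _ (cr n) (cE n) (cY n) fun x => abs_ip_le _ _ ht0
  · intro S
    rw [Finset.sum_add_distrib, ← Finset.mul_sum, ← Finset.mul_sum]
    have h1 := mul_le_mul_of_nonneg_left (hE S) (by positivity : 0 ≤ t / 2)
    have h2 := mul_le_mul_of_nonneg_left (hY S) (by positivity : 0 ≤ 1 / (2 * t))
    have e1 : t / 2 * (ε ^ 2 / t) = ε ^ 2 / 2 := by field_simp
    have e2 : 1 / (2 * t) * (ε ^ 2 * t) = ε ^ 2 / 2 := by field_simp
    linarith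
  · intro n
    have h1 := habs _ _ (cs n) (cg n) (cE n) fun x => abs_ip_le _ _ hε
    have h2 := hG {n}
    have h3 := hE {n}
    rw [Finset.sum_singleton] at h2 h3
    have h4 : ε ^ 2 / t ≤ ε ^ 2 := div_le_self (by positivity) ht
    have h5 := mul_le_mul_of_nonneg_left h2 (by positivity : 0 ≤ ε / 2)
    have h6 := mul_le_mul_of_nonneg_left (h3.trans h4) (by positivity : 0 ≤ 1 / (2 * ε))
    have e1 : 1 / (2 * ε) * ε ^ 2 = ε / 2 := by field_simp
    linarith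
  · exact (((summable_of_sum_le E0 hE).add (summable_of_sum_le g0 hG)).add
      (summable_of_sum_le Y0 hY)).tendsto_cofinite_zero
  · intro n
    have h1 := habs _ _ (cp n (n - 1)) (cg n) (cal (n - 1)) fun x => abs_ip_le _ _ one_pos
    linarith [t1 n, E0 n, Y0 n, g0 n]
  · intro n
    have h1 := habs _ _ (cp' n (n + 1)) (cg n) (cbe (n + 1)) fun x => abs_ip_le _ _ one_pos
    linarith [t2 n, E0 n, Y0 n, g0 n]

end Vale.Agent.P099
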