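import Vale.Agent.P099.MeasPres
import Vale.Agent.P099.Bessel

open MeasureTheory Set Complex Filter Topology AddCircle Metric
open scoped Real ComplexConjugate ENNReal Convolution

noncomputable section

namespace Vale.Agent.P099

variable {A : Fin 3 → ℂ}

/-- a radial mollifier at scale `h` -/
structure Ker (C h : ℝ) where
  ψ : ℂ → ℝ
  smooth : ContDiff ℝ 2 ψ
  nonneg : ∀ z, 0 ≤ ψ z
  supp : ∀ z, h < ‖z‖ → ψ z = 0
  int : ∫ z, ψ z = 1
  rad : ∀ z w, ‖z‖ = ‖w‖ → ψ z = ψ w
  le : ∀ z, ψ z ≤ C / h ^ 2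
  dle : ∀ z, ‖fderiv ℝ ψ z‖ ≤ C / h ^ 3

lemma compactSupport_of {E : Type} [Zero E] [TopologicalSpace E] {φ : ℂ → E} {h : ℝ}
    (hφ : ∀ z, h < ‖z‖ → φ z = 0) : HasCompactSupport φ :=
  HasCompactSupport.intro (isCompact_closedBall 0 h) fun z hz => hφ z (by simpa using hz)

theorem exists_ker : ∃ C : ℝ, 0 < C ∧ ∀ h, 0 < h → Nonempty (Ker C h) := by
  let φ : ℂ → ℝ := fun z => expNegInvGlue (1 - ‖z‖ ^ 2)
  have hs : ContDiff ℝ 2 φ :=
    expNegInvGlue.contDiff.comp (contDiff_const.sub (contDiff_norm_sq ℝ))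
  have hz : ∀ z, 1 < ‖z‖ → φ z = 0 := fun z hz =>
    expNegInvGlue.zero_of_nonpos (by nlinarith)
  have hc : HasCompactSupport φ := compactSupport_of hz
  have h0 : ∀ z, 0 ≤ φ z := fun z => expNegInvGlue.nonneg _
  have hpos : 0 < ∫ z, φ z :=
    hs.continuous.integral_pos_of_hasCompactSupport_nonneg_nonzero (x := 0) hc h0
      (expNegInvGlue.pos_of_pos (by simp)).ne'
  set c := ∫ z, φ z with hcdef
  obtain ⟨B1, hB1⟩ := hs.continuous.bounded_above_of_compact_support hc
  obtain ⟨B2, hB2⟩ := (hs.continuous_fderiv (by norm_num)).bounded_above_of_compact_support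
    (hc.fderiv ℝ)
  have hB1' : 0 ≤ B1 := (norm_nonneg _).trans (hB1 0)
  have hB2' : 0 ≤ B2 := (norm_nonneg _).trans (hB2 0)
  refine ⟨(B1 + B2 + 1) / c, by positivity, fun h hh => ⟨⟨fun z => (c * h ^ 2)⁻¹ * φ (h⁻¹ • z),
    contDiff_const.mul (hs.comp (contDiff_const_smul _)), fun z => ?_, fun z hz' => ?_, ?_,
    fun z w hzw => ?_, fun z => ?_, fun z => ?_⟩⟩⟩
  · have := h0 (h⁻¹ • z); positivity
  · rw [hz, mul_zero]
    rw [norm_smul, Real.norm_of_nonneg (by positivity), lt_inv_mul_iff₀ hh]; linarith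
  · rw [integral_const_mul, Measure.integral_comp_inv_smul_of_nonneg _ _ hh.le]
    simp only [Complex.finrank_real_complex, smul_eq_mul, ← hcdef]
    field_simp
  · simp only [φ, norm_smul, hzw]
  · have h1 : φ (h⁻¹ • z) ≤ B1 + B2 + 1 := by
      have := (le_abs_self _).trans (hB1 (h⁻¹ • z))
      linarith
    calc (c * h ^ 2)⁻¹ * φ (h⁻¹ • z) ≤ (c * h ^ 2)⁻¹ * (B1 + B2 + 1) := by gcongr
      _ = _ := by field_simp
  · have h1 : HasFDerivAt (fun z : ℂ => (c * h ^ 2)⁻¹ * φ (h⁻¹ • z))
        ((c * h ^ 2)⁻¹ • (fderiv ℝ φ (h⁻¹ • z)).comp (h⁻¹ • ContinuousLinearMap.id ℝ ℂ)) z :=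
      (((hs.differentiable (by norm_num)) _).hasFDerivAt.comp z
        ((hasFDerivAt_id z).const_smul h⁻¹)).const_mul _
    rw [h1.fderiv, norm_smul, Real.norm_of_nonneg (by positivity)]
    have h2 : ‖(fderiv ℝ φ (h⁻¹ • z)).comp (h⁻¹ • ContinuousLinearMap.id ℝ ℂ)‖
        ≤ (B1 + B2 + 1) * h⁻¹ := by
      refine (ContinuousLinearMap.opNorm_comp_le _ _).trans ?_
      rw [norm_smul, Real.norm_of_nonneg (by positivity), ContinuousLinearMap.norm_id, mul_one]
      have := hB2 (h⁻¹ • z)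
      gcongr; linarith
    calc _ ≤ (c * h ^ 2)⁻¹ * ((B1 + B2 + 1) * h⁻¹) := by gcongr
      _ = _ := by field_simp

variable {H : Type} [NormedAddCommGroup H] [InnerProductSpace ℂ H] [CompleteSpace H]

def conv (φ : ℂ → ℝ) (w : ℂ → H) (x : ℂ) : H := ∫ y, φ (x - y) • w y

/-- bounded and measurable -/
structure BM {X : Type} [MeasurableSpace X] (w : X → H) (B : ℝ) : Prop where
  m : StronglyMeasurable w
  b : ∀ y, ‖w y‖ ≤ B

omit [InnerProductSpace ℂ H] [CompleteSpace H] in
lemma BM.integrable {X : Type} [MeasurableSpace X] {w : X → H} {B : ℝ} (hw : BM w B)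
    (μ : Measure X) [IsFiniteMeasure μ] : Integrable w μ :=
  (integrable_const B).mono' hw.m.aestronglyMeasurable (ae_of_all _ hw.b)

omit [InnerProductSpace ℂ H] [CompleteSpace H] in
lemma BM.locInt {w : ℂ → H} {B : ℝ} (hw : BM w B) : LocallyIntegrable w volume :=
  (locallyIntegrable_const B).mono hw.m.aestronglyMeasurable
    (ae_of_all _ fun y => (hw.b y).trans (le_abs_self _))

omit [InnerProductSpace ℂ H] [CompleteSpace H] in
lemma BM.left {u : Ph → H} {B : ℝ} (hu : BM u B) (θ : UnitAddCircle) :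
    BM (fun y => u (y, θ)) B :=
  ⟨hu.m.comp_measurable (by fun_prop), fun _ => hu.b _⟩

omit [InnerProductSpace ℂ H] [CompleteSpace H] in
lemma BM.right {u : Ph → H} {B : ℝ} (hu : BM u B) (x : ℂ) : BM (fun θ => u (x, θ)) B :=
  ⟨hu.m.comp_measurable (by fun_prop), fun _ => hu.b _⟩

lemma BM.coeff {u : Ph → H} {B : ℝ} (hu : BM u B) (n : ℤ) :
    BM (fun y => fourierCoeff (fun θ => u (y, θ)) n) B :=
  ⟨stronglyMeasurable_coeff u hu.m n, fun _ => norm_coeff_le _ B (fun _ => hu.b _) n⟩

omit [InnerProductSpace ℂ H] [CompleteSpace H] in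
lemma BM.sub_const {w : ℂ → H} {B : ℝ} (hw : BM w B) (c : H) :
    BM (fun y => w y - c) (B + ‖c‖) :=
  ⟨hw.m.sub stronglyMeasurable_const, fun y => (norm_sub_le _ _).trans (by linarith [hw.b y])⟩

omit [CompleteSpace H] in
lemma integrable_conv {φ : ℂ → ℝ} (hφ : Integrable φ) {w : ℂ → H} {B : ℝ} (hw : BM w B)
    (x : ℂ) : Integrable fun y => φ (x - y) • w y :=
  (hφ.comp_sub_left x).smul_bdd B hw.m.aestronglyMeasurable (ae_of_all _ hw.b)

omit [CompleteSpace H] in
lemma norm_conv_le_integral {φ : ℂ → ℝ} (hφ : Integrable φ) {w : ℂ → H} {B : ℝ} (hw : BM w B)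
    (x : ℂ) : ‖conv φ w x‖ ≤ (∫ z, ‖φ z‖) * B := by
  rw [← integral_sub_left_eq_self (fun z => ‖φ z‖) volume x, ← integral_mul_const]
  refine norm_integral_le_of_norm_le ((hφ.comp_sub_left x).norm.mul_const B)
    (ae_of_all _ fun y => ?_)
  rw [norm_smul]
  exact mul_le_mul_of_nonneg_left (hw.b y) (norm_nonneg _)

omit [CompleteSpace H] in
lemma BM.conv {φ : ℂ → ℝ} (hφ : Integrable φ) (hc : Continuous φ) {u : Ph → H} {B : ℝ}
    (hu : BM u B) : BM (fun p : Ph => conv φ (fun y => u (y, p.2)) p.1) ((∫ z, ‖φ z‖) * B) := by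
  refine ⟨?_, fun p => norm_conv_le_integral hφ (hu.left _) _⟩
  have h : StronglyMeasurable fun q : Ph × ℂ => φ (q.1.1 - q.2) • u (q.2, q.1.2) :=
    (hc.comp (by fun_prop)).stronglyMeasurable.smul (hu.m.comp_measurable (by fun_prop))
  exact h.integral_prod_right' (ν := volume)

omit [CompleteSpace H] in
lemma coeff_conv {φ : ℂ → ℝ} (hφ : Integrable φ) (hc : Continuous φ) {u : Ph → H} {B : ℝ}
    (hu : BM u B) (x : ℂ) (n : ℤ) :
    fourierCoeff (fun θ => conv φ (fun y => u (y, θ)) x) n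
      = conv φ (fun y => fourierCoeff (fun θ => u (y, θ)) n) x := by
  unfold fourierCoeff conv
  simp_rw [← integral_smul]
  rw [integral_integral_swap]
  · congr 1; ext y; congr 1; ext θ; rw [smul_comm]
  · refine (((hφ.comp_sub_left x).norm.mul_const B).comp_snd haarAddCircle).mono' ?_
      (ae_of_all _ fun q => ?_)
    · refine StronglyMeasurable.aestronglyMeasurable ?_
      exact ((map_continuous (fourier (-n))).comp continuous_fst).stronglyMeasurable.smul
        ((hc.comp (by fun_prop)).stronglyMeasurable.smul (hu.m.comp_measurable (by fun_prop)))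
    · simp only [Function.uncurry]
      rw [norm_smul, norm_smul, fourier_apply, Circle.norm_coe, one_mul]
      exact mul_le_mul_of_nonneg_left (hu.b _) (norm_nonneg _)

omit [CompleteSpace H] in
lemma conv_eq (φ : ℂ → ℝ) (w : ℂ → H) :
    conv φ w = w ⋆[(ContinuousLinearMap.lsmul ℝ ℝ).flip, volume] φ := rfl

variable {C h : ℝ}

lemma Ker.compact (k : Ker C h) : HasCompactSupport k.ψ := compactSupport_of k.supp

lemma Ker.integrable (k : Ker C h) : Integrable k.ψ :=
  k.smooth.continuous.integrable_of_hasCompactSupport k.compact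

/-- directional derivative of the kernel -/
def Ker.d (k : Ker C h) (v : ℂ) (z : ℂ) : ℝ := fderiv ℝ k.ψ z v

lemma Ker.continuous_d (k : Ker C h) (v : ℂ) : Continuous (k.d v) :=
  (k.smooth.continuous_fderiv (by norm_num)).clm_apply continuous_const

lemma Ker.d_supp (k : Ker C h) (v : ℂ) (z : ℂ) (hz : h < ‖z‖) : k.d v z = 0 := by
  have : k.ψ =ᶠ[𝓝 z] fun _ => 0 := by
    filter_upwards [(isOpen_lt continuous_const continuous_norm).mem_nhds hz] with w hw
    exact k.supp w hw
  simp [Ker.d, this.fderiv_eq]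

lemma Ker.integrable_d (k : Ker C h) (v : ℂ) : Integrable (k.d v) :=
  (k.continuous_d v).integrable_of_hasCompactSupport (compactSupport_of (k.d_supp v))

omit [CompleteSpace H] in
lemma Ker.contDiff_conv (k : Ker C h) {w : ℂ → H} {B : ℝ} (hw : BM w B) :
    ContDiff ℝ 2 (conv k.ψ w) := by
  rw [conv_eq]
  exact k.compact.contDiff_convolution_right (n := 2) _ hw.locInt k.smooth

omit [CompleteSpace H] in
lemma Ker.fderiv_conv (k : Ker C h) {w : ℂ → H} {B : ℝ} (hw : BM w B) (x v : ℂ) :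
    fderiv ℝ (conv k.ψ w) x v = conv (k.d v) w x := by
  rw [conv_eq, (k.compact.hasFDerivAt_convolution_right _ hw.locInt
    (k.smooth.of_le (by norm_num)) x).fderiv, convolution_precompR_apply _ hw.locInt
    (k.compact.fderiv ℝ) (k.smooth.continuous_fderiv (by norm_num))]
  rfl

lemma Ker.conv_sub_const (k : Ker C h) {w : ℂ → H} {B : ℝ} (hw : BM w B) (c : H) (x : ℂ) :
    conv k.ψ (fun y => w y - c) x = conv k.ψ w x - c := by
  unfold conv
  simp_rw [smul_sub]
  rw [integral_sub (integrable_conv k.integrable hw x) ((k.integrable.comp_sub_left x).smul_const c),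
    integral_smul_const, integral_sub_left_eq_self k.ψ volume x, k.int, one_smul]

lemma Ker.conv_d_sub_const (k : Ker C h) {w : ℂ → H} {B : ℝ} (hw : BM w B) (c : H) (x v : ℂ) :
    conv (k.d v) (fun y => w y - c) x = conv (k.d v) w x := by
  rw [← k.fderiv_conv hw, ← k.fderiv_conv (hw.sub_const c)]
  have : conv k.ψ (fun y => w y - c) = fun x => conv k.ψ w x - c := by
    ext x; exact k.conv_sub_const hw c x
  rw [this, fderiv_sub_const]

omit [CompleteSpace H] in
lemma Ker.norm_conv_le (k : Ker C h) {w : ℂ → H} {x : ℂ} {c : ℝ}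
    (hw : ∀ᵐ y, ‖y - x‖ ≤ h → ‖w y‖ ≤ c) : ‖conv k.ψ w x‖ ≤ c := by
  have : ∫ y, k.ψ (x - y) * c = c := by
    rw [integral_mul_const, integral_sub_left_eq_self k.ψ volume x, k.int, one_mul]
  rw [← this]
  refine norm_integral_le_of_norm_le ((k.integrable.comp_sub_left x).mul_const c) ?_
  filter_upwards [hw] with y hy
  rw [norm_smul, Real.norm_of_nonneg (k.nonneg _)]
  by_cases hxy : ‖y - x‖ ≤ h
  · exact mul_le_mul_of_nonneg_left (hy hxy) (k.nonneg _)
  · rw [k.supp _ (by rw [norm_sub_rev]; exact not_le.1 hxy)]; simp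

/-- mean oscillation in the space variable -/
def osc (g : Ph → H) (h : ℝ) (p : Ph) : ℝ := ⨍ y in closedBall p.1 h, ‖g (y, p.2) - g p‖

lemma real_closedBall (x : ℂ) (hh : 0 < h) : volume.real (closedBall x h) = π * h ^ 2 := by
  simp [Measure.real, Complex.volume_closedBall, hh.le, mul_comm]

omit [CompleteSpace H] in
lemma norm_conv_osc {φ : ℂ → ℝ} {D : ℝ} (hh : 0 < h) (hD : ∀ z, |φ z| ≤ D)
    (hs : ∀ z, h < ‖z‖ → φ z = 0) {g : Ph → H} {B : ℝ} (hg : BM g B) {w : ℂ → H} {p : Ph}
    {c : ℝ} (hw : ∀ y, ‖y - p.1‖ ≤ h → ‖w y‖ ≤ c + ‖g (y, p.2) - g p‖) :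
    ‖conv φ w p.1‖ ≤ D * (π * h ^ 2) * (c + osc g h p) := by
  have hfin : IsFiniteMeasure (volume.restrict (closedBall p.1 h)) :=
    isFiniteMeasure_restrict.2 (isCompact_closedBall _ _).measure_lt_top.ne
  have hi : IntegrableOn (fun y => ‖g (y, p.2) - g p‖) (closedBall p.1 h) :=
    (((hg.left p.2).sub_const (g p)).integrable _).norm
  have hi2 : IntegrableOn (fun y => D * (c + ‖g (y, p.2) - g p‖)) (closedBall p.1 h) :=
    ((integrable_const c).add hi).const_mul D
  have e : D * (π * h ^ 2) * (c + osc g h p)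
      = ∫ y, indicator (closedBall p.1 h) (fun y => D * (c + ‖g (y, p.2) - g p‖)) y := by
    rw [integral_indicator measurableSet_closedBall, integral_const_mul,
      integral_add (integrable_const c) hi, osc, setAverage_eq, setIntegral_const,
      real_closedBall _ hh]
    simp only [smul_eq_mul]
    field_simp
  rw [e]
  refine norm_integral_le_of_norm_le (hi2.integrable_indicator measurableSet_closedBall)
    (ae_of_all _ fun y => ?_)
  by_cases hy : y ∈ closedBall p.1 h
  · rw [indicator_of_mem hy, norm_smul]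
    exact mul_le_mul (hD _) (hw y (by simpa [dist_eq_norm] using hy)) (norm_nonneg _)
      ((abs_nonneg _).trans (hD 0))
  · rw [indicator_of_notMem hy, hs _ (by rw [norm_sub_rev]; simpa [dist_eq_norm] using hy)]
    simp

omit [InnerProductSpace ℂ H] [CompleteSpace H] in
lemma osc_nonneg (g : Ph → H) (h : ℝ) (p : Ph) : 0 ≤ osc g h p :=
  integral_nonneg fun _ => norm_nonneg _

omit [InnerProductSpace ℂ H] [CompleteSpace H] in
lemma osc_le {g : Ph → H} {B : ℝ} (hg : BM g B) (hh : 0 < h) (p : Ph) : osc g h p ≤ 2 * B := by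
  have h1 : ‖∫ y in closedBall p.1 h, ‖g (y, p.2) - g p‖‖
      ≤ 2 * B * volume.real (closedBall p.1 h) :=
    norm_setIntegral_le_of_norm_le_const (isCompact_closedBall _ _).measure_lt_top
      fun y _ => by
        rw [norm_norm]
        exact (norm_sub_le _ _).trans (by linarith [hg.b (y, p.2), hg.b p])
  rw [osc, setAverage_eq, real_closedBall _ hh, smul_eq_mul, inv_mul_le_iff₀ (by positivity)]
  rw [real_closedBall _ hh] at h1
  linarith [le_abs_self (∫ y in closedBall p.1 h, ‖g (y, p.2) - g p‖), Real.norm_eq_abs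
    (∫ y in closedBall p.1 h, ‖g (y, p.2) - g p‖)]

omit [InnerProductSpace ℂ H] [CompleteSpace H] in
lemma measurable_osc {g : Ph → H} {B : ℝ} (hg : BM g B) (hh : 0 < h) :
    StronglyMeasurable (osc g h) := by
  have e : osc g h = fun p => (π * h ^ 2)⁻¹ * ∫ y,
      indicator {q : Ph × ℂ | dist q.2 q.1.1 ≤ h} (fun q => ‖g (q.2, q.1.2) - g q.1‖) (p, y) := by
    ext p
    rw [osc, setAverage_eq, real_closedBall _ hh, smul_eq_mul,
      ← integral_indicator measurableSet_closedBall]
    rfl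
  rw [e]
  refine stronglyMeasurable_const.mul (StronglyMeasurable.integral_prod_right' ?_)
  refine StronglyMeasurable.indicator ?_ (measurableSet_le (by fun_prop) measurable_const)
  exact ((hg.m.comp_measurable (by fun_prop)).sub (hg.m.comp_measurable measurable_fst)).norm

omit [InnerProductSpace ℂ H] [CompleteSpace H] in
lemma integrable_osc_sq {g : Ph → H} {B : ℝ} (hg : BM g B) (hh : 0 < h) :
    BM (fun p => osc g h p ^ 2) ((2 * B) ^ 2) :=
  ⟨(measurable_osc hg hh).pow 2, fun p => by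
    rw [Real.norm_of_nonneg (sq_nonneg _)]
    exact pow_le_pow_left₀ (osc_nonneg _ _ _) (osc_le hg hh p) 2⟩

omit [InnerProductSpace ℂ H] [CompleteSpace H] in
lemma tendsto_osc {g : Ph → H} {B : ℝ} (hg : BM g B) :
    Tendsto (fun h => ∫ p, osc g h p ^ 2 ∂(mu0 A)) (𝓝[>] 0) (𝓝 0) := by
  have h1 : ∀ θ, Tendsto (fun h => ∫ x in TT A, osc g h (x, θ) ^ 2) (𝓝[>] 0)
      (𝓝 (∫ x in TT A, (0 : ℝ))) := by
    intro θ
    refine tendsto_integral_filter_of_dominated_convergence (fun _ => (2 * B) ^ 2) ?_ ?_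
      (integrable_const _) ?_
    · filter_upwards [self_mem_nhdsWithin] with h hh
      exact ((integrable_osc_sq hg hh).left θ).m.aestronglyMeasurable
    · filter_upwards [self_mem_nhdsWithin] with h hh
      exact ae_of_all _ fun x => (integrable_osc_sq hg hh).b _
    · refine ae_restrict_of_ae ?_
      filter_upwards [(Besicovitch.vitaliFamily volume).ae_tendsto_average_norm_sub
        (hg.left θ).locInt] with x hx
      have := (hx.comp (Besicovitch.tendsto_filterAt volume x)).pow 2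
      simpa [osc] using this
  have h2 : Tendsto (fun h => ∫ θ, (∫ x in TT A, osc g h (x, θ) ^ 2) ∂haarAddCircle) (𝓝[>] 0)
      (𝓝 (∫ _ : UnitAddCircle, (0 : ℝ) ∂haarAddCircle)) := by
    refine tendsto_integral_filter_of_dominated_convergence
      (fun _ => (2 * B) ^ 2 * volume.real (TT A)) ?_ ?_ (integrable_const _) ?_
    · filter_upwards [self_mem_nhdsWithin] with h hh
      exact ((integrable_osc_sq hg hh).m.integral_prod_left').aestronglyMeasurable
    · filter_upwards [self_mem_nhdsWithin] with h hh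
      exact ae_of_all _ fun θ => norm_setIntegral_le_of_norm_le_const isCompact_TT.measure_lt_top
        fun x _ => (integrable_osc_sq hg hh).b _
    · exact ae_of_all _ fun θ => by simpa using h1 θ
  rw [integral_zero] at h2
  refine h2.congr' ?_
  filter_upwards [self_mem_nhdsWithin] with h hh
  rw [integral_prod_symm _ ((integrable_osc_sq hg hh).integrable _)]

end Vale.Agent.P099
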