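import Vale.Agent.P099.Dist

open MeasureTheory Set Complex Filter Topology AddCircle
open scoped Real ComplexConjugate ENNReal

noncomputable section

namespace Vale.Agent.P099

variable {A : Fin 3 → ℂ}

/-- folding of a neighbourhood of the triangle back into it -/
def fold (A : Fin 3 → ℂ) (p : Ph) : Ph :=
  if ell A 0 p.1 < 0 then mirP A 0 p else if ell A 1 p.1 < 0 then mirP A 1 p
  else if ell A 2 p.1 < 0 then mirP A 2 p else p

lemma measurable_fold : Measurable (fold A) := by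
  have h : ∀ j, MeasurableSet {p : Ph | ell A j p.1 < 0} := fun j =>
    measurableSet_lt ((continuous_ell j).comp continuous_fst).measurable measurable_const
  exact Measurable.ite (h 0) (continuous_mirP 0).measurable (Measurable.ite (h 1)
    (continuous_mirP 1).measurable (Measurable.ite (h 2) (continuous_mirP 2).measurable
      measurable_id))

lemma fold_cases (p : Ph) :
    ((∀ j, 0 ≤ ell A j p.1) ∧ fold A p = p) ∨ ∃ j, ell A j p.1 < 0 ∧ fold A p = mirP A j p := by
  unfold fold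
  split_ifs with h0 h1 h2
  · exact Or.inr ⟨0, h0, rfl⟩
  · exact Or.inr ⟨1, h1, rfl⟩
  · exact Or.inr ⟨2, h2, rfl⟩
  · refine Or.inl ⟨fun j => ?_, rfl⟩
    rcases fin3_cases j with rfl | rfl | rfl <;> linarith

lemma fold_of_mem (hA : AffineIndependent ℝ A) {p : Ph} (hp : p.1 ∈ TT A) : fold A p = p := by
  rcases fold_cases (A := A) p with h | ⟨j, h, -⟩
  · exact h.2
  · exact absurd ((mem_TT hA).1 hp j) (not_le.2 h)

lemma norm_fold_le (hA : AffineIndependent ℝ A) {x : ℂ} (hx : x ∈ TT A) (p : Ph) :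
    ‖(fold A p).1 - x‖ ≤ ‖p.1 - x‖ := by
  rcases fold_cases (A := A) p with h | ⟨j, h, h'⟩
  · rw [h.2]
  · rw [h']
    have := norm_sub_le_mir hA j (x := mir A j p.1) (y := x)
      (mul_nonneg (by rw [ell_mir hA]; linarith) ((mem_TT hA).1 hx j))
    rwa [mir_mir hA] at this

lemma fold_chart (hA : AffineIndependent ℝ A) {x : ℂ} (hx : x ∈ TT A) {j : Fin 3} {r : ℝ}
    (hr : ∀ i, i ≠ j → r ≤ ell A i x) {p : Ph} (hp : ‖p.1 - x‖ ≤ r) :
    Orb A j (fold A p) p ∧ (fold A p).1 ∈ TT A := by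
  have h1 : ∀ z, ‖z - x‖ ≤ r → ∀ i, i ≠ j → 0 ≤ ell A i z := fun z hz i hi => by
    have := ell_le_add hA i x z
    rw [norm_sub_rev] at this
    linarith [hr i hi]
  have h2 := norm_fold_le hA hx p
  rcases fold_cases (A := A) p with h | ⟨k, h, h'⟩
  · rw [h.2]; exact ⟨Or.inl rfl, (mem_TT hA).2 h.1⟩
  · have hk : k = j := by
      by_contra hk
      exact absurd (h1 _ hp k hk) (not_le.2 h)
    subst hk
    refine ⟨Or.inr h', (mem_TT hA).2 fun i => ?_⟩
    by_cases hi : i = k
    · subst hi; rw [h']; simp only [mirP]; rw [ell_mir hA]; linarith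
    · exact h1 _ (h2.trans hp) i hi

lemma ae_fold (hA : AffineIndependent ℝ A) {P : Ph → Prop} (h : ∀ᵐ p ∂lam, P p) :
    ∀ᵐ p ∂lam, P (fold A p) := by
  have h2 : ∀ᵐ p ∂lam, ∀ j, P (mirP A j p) :=
    ae_all_iff.2 fun j => (measurePreserving_mirP hA j).quasiMeasurePreserving.ae h
  filter_upwards [h, h2] with p hp hp2
  rcases fold_cases (A := A) p with h | ⟨j, -, h⟩
  · rw [h.2]; exact hp
  · rw [h]; exact hp2 j

lemma orb_unique (hA : AffineIndependent ℝ A) {j : Fin 3} {p p' q : Ph} (hp : p.1 ∈ QQ A)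
    (hp' : p'.1 ∈ TT A) (h : Orb A j p q) (h' : Orb A j p' q) : p' = p := by
  have h1 := (mem_QQ hA).1 hp j
  have h2 := (mem_TT hA).1 hp' j
  rcases h with rfl | rfl <;> rcases h' with rfl | rfl
  · rfl
  · simp only [mirP, ell_mir hA] at h2; linarith
  · simp only [mirP, ell_mir hA] at h1; linarith
  · rfl

lemma dd_nonpos (hA : AffineIndependent ℝ A) {L : ℝ} (hL : 0 < L) {p : Ph} (hp : p.1 ∉ TT A) :
    dd A L p ≤ 0 := by
  refine (min_le_left _ _).trans ((dplus_le hA hL p le_rfl).trans (max_le (by simp) ?_))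
  rw [fwd_dead (fun k => (hitTime_dead hA (fun h => hp h.1) k).le)]
  exact mul_nonpos_of_nonneg_of_nonpos hL.le (del_vertex_le 0)

/-! ### the logarithmic ramp -/

def ramp (t : ℝ) : ℝ := max 0 (min 1 (t - 1))

lemma ramp_nonneg (t : ℝ) : 0 ≤ ramp t := le_max_left _ _

lemma ramp_le_one (t : ℝ) : ramp t ≤ 1 := max_le zero_le_one (min_le_left _ _)

lemma ramp_of_le {t : ℝ} (h : t ≤ 1) : ramp t = 0 :=
  max_eq_left ((min_le_right _ _).trans (by linarith))

lemma ramp_of_ge {t : ℝ} (h : 2 ≤ t) : ramp t = 1 := by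
  unfold ramp; rw [min_eq_left (by linarith), max_eq_right zero_le_one]

lemma abs_ramp_sub (a b : ℝ) : |ramp a - ramp b| ≤ |a - b| := by
  unfold ramp
  refine (abs_max_sub_max_le_max _ _ _ _).trans (max_le (by simp) ?_)
  refine (abs_min_sub_min_le_max _ _ _ _).trans (max_le (by simp) ?_)
  apply le_of_eq; congr 1; ring

lemma continuous_ramp : Continuous ramp := by unfold ramp; fun_prop

def gg (N : ℕ) (l a : ℝ) : ℝ := (N : ℝ)⁻¹ * ∑ k ∈ Finset.range N, ramp (2 ^ (k + 1) * a / l)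

def ind (r c : ℝ) : ℝ := if c < r then 1 else 0

def gam (N : ℕ) (l c : ℝ) : ℝ :=
  (N : ℝ)⁻¹ * (2 / l) * ∑ k ∈ Finset.range N, 2 ^ k * ind (2 * l / 2 ^ k) c

variable {N : ℕ} {l : ℝ}

lemma ind_nonneg (r c : ℝ) : 0 ≤ ind r c := by unfold ind; split_ifs <;> norm_num

lemma ind_le_one (r c : ℝ) : ind r c ≤ 1 := by unfold ind; split_ifs <;> norm_num

lemma measurable_ind (r : ℝ) : Measurable (ind r) :=
  Measurable.ite measurableSet_Iio measurable_const measurable_const

lemma gg_nonneg (a : ℝ) : 0 ≤ gg N l a :=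
  mul_nonneg (by positivity) (Finset.sum_nonneg fun _ _ => ramp_nonneg _)

lemma gg_le_one (a : ℝ) : gg N l a ≤ 1 := by
  have h : ∑ k ∈ Finset.range N, ramp (2 ^ (k + 1) * a / l) ≤ N := by
    simpa using Finset.sum_le_card_nsmul (Finset.range N) _ 1
      (fun k _ => ramp_le_one (2 ^ (k + 1) * a / l))
  exact (mul_le_mul_of_nonneg_left h (by positivity)).trans (inv_mul_le_one_of_le₀ le_rfl (by positivity))

lemma gg_of_le (hl : 0 < l) {a : ℝ} (h : a ≤ l / 2 ^ N) : gg N l a = 0 := by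
  unfold gg
  rw [Finset.sum_eq_zero, mul_zero]
  intro k hk
  apply ramp_of_le
  rw [div_le_one hl]
  have h1 : (2 : ℝ) ^ (k + 1) ≤ 2 ^ N :=
    pow_le_pow_right₀ one_le_two (Finset.mem_range.1 hk)
  calc 2 ^ (k + 1) * a ≤ 2 ^ (k + 1) * (l / 2 ^ N) := by gcongr
    _ ≤ 2 ^ N * (l / 2 ^ N) := by gcongr
    _ = l := by field_simp

lemma gg_of_ge (hN : 0 < N) (hl : 0 < l) {a : ℝ} (h : l ≤ a) : gg N l a = 1 := by
  unfold gg
  rw [Finset.sum_congr rfl (g := fun _ => 1)]
  · simp only [Finset.sum_const, Finset.card_range, nsmul_eq_mul, mul_one]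
    exact inv_mul_cancel₀ (by positivity)
  intro k _
  apply ramp_of_ge
  rw [le_div_iff₀ hl]
  have h1 : (2 : ℝ) ≤ 2 ^ (k + 1) := le_self_pow₀ one_le_two (by omega)
  gcongr

lemma continuous_gg : Continuous (gg N l) := by
  unfold gg
  have := continuous_ramp
  fun_prop

lemma gam_nonneg (hl : 0 < l) (c : ℝ) : 0 ≤ gam N l c :=
  mul_nonneg (by positivity) (Finset.sum_nonneg fun _ _ => mul_nonneg (by positivity)
    (ind_nonneg _ _))

lemma measurable_gam : Measurable (gam N l) := by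
  unfold gam
  have := measurable_ind
  fun_prop

lemma abs_gg_sub (hl : 0 < l) {a b c : ℝ} (ha : |a - c| ≤ l / 2 ^ N) (hb : |b - c| ≤ l / 2 ^ N) :
    |gg N l a - gg N l b| ≤ |a - b| * gam N l c := by
  unfold gg gam
  rw [← mul_sub, ← Finset.sum_sub_distrib, abs_mul, abs_of_nonneg (by positivity : (0 : ℝ) ≤ (N : ℝ)⁻¹)]
  have h : ∀ k ∈ Finset.range N, |ramp (2 ^ (k + 1) * a / l) - ramp (2 ^ (k + 1) * b / l)|
      ≤ |a - b| * (2 / l) * (2 ^ k * ind (2 * l / 2 ^ k) c) := by
    intro k hk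
    unfold ind
    split_ifs with hc
    · refine (abs_ramp_sub _ _).trans (le_of_eq ?_)
      have : 2 ^ (k + 1) * a / l - 2 ^ (k + 1) * b / l = (a - b) * (2 / l * 2 ^ k) := by ring
      rw [this, abs_mul, abs_of_nonneg (by positivity : (0 : ℝ) ≤ 2 / l * 2 ^ k)]; ring
    · have h1 : l / 2 ^ N ≤ l / 2 ^ k :=
        div_le_div_of_nonneg_left hl.le (by positivity)
          (pow_le_pow_right₀ one_le_two (Finset.mem_range.1 hk).le)
      have h2 : ∀ z, |z - c| ≤ l / 2 ^ N → ramp (2 ^ (k + 1) * z / l) = 1 := by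
        intro z hz
        apply ramp_of_ge
        have h3 : l / 2 ^ k ≤ z := by
          have := (abs_le.1 hz).1
          have e : 2 * l / 2 ^ k = 2 * (l / 2 ^ k) := by ring
          linarith
        rw [le_div_iff₀ hl]
        rw [div_le_iff₀ (by positivity)] at h3
        rw [pow_succ]; linarith
      rw [h2 a ha, h2 b hb]; simp
  calc (N : ℝ)⁻¹ * |∑ k ∈ Finset.range N, (ramp (2 ^ (k + 1) * a / l) - ramp (2 ^ (k + 1) * b / l))|
      ≤ (N : ℝ)⁻¹ * ∑ k ∈ Finset.range N, |a - b| * (2 / l) * (2 ^ k * ind (2 * l / 2 ^ k) c) := by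
        gcongr
        exact (Finset.abs_sum_le_sum_abs _ _).trans (Finset.sum_le_sum h)
    _ = _ := by rw [← Finset.mul_sum]; ring

lemma sq_sum_le (e : ℕ → ℝ) (he : ∀ k, e k = 0 ∨ e k = 1) (N : ℕ) :
    (∑ k ∈ Finset.range N, 2 ^ k * e k) ^ 2 ≤ 4 * ∑ k ∈ Finset.range N, 4 ^ k * e k := by
  have h0 : ∀ k, 0 ≤ e k := fun k => by rcases he k with h | h <;> rw [h]; norm_num
  have h1 : ∀ N, ∑ k ∈ Finset.range N, 2 ^ k * e k ≤ 2 ^ N := by
    intro N
    induction N with
    | zero => simp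
    | succ N ih =>
      rw [Finset.sum_range_succ, pow_succ]
      have : (0 : ℝ) < 2 ^ N := by positivity
      rcases he N with h | h <;> rw [h] <;> linarith
  induction N with
  | zero => simp
  | succ N ih =>
    rcases he N with h | h
    · simpa [Finset.sum_range_succ, h] using ih
    · have h2 : 0 ≤ ∑ k ∈ Finset.range (N + 1), 2 ^ k * e k :=
        Finset.sum_nonneg fun k _ => mul_nonneg (by positivity) (h0 k)
      have h3 : 0 ≤ ∑ k ∈ Finset.range N, 4 ^ k * e k :=
        Finset.sum_nonneg fun k _ => mul_nonneg (by positivity) (h0 k)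
      calc _ ≤ ((2 : ℝ) ^ (N + 1)) ^ 2 := pow_le_pow_left₀ h2 (h1 _) 2
        _ = 4 * 4 ^ N := by
          rw [← pow_mul, mul_comm (N + 1), pow_mul, pow_succ]; norm_num; ring
        _ ≤ _ := by rw [Finset.sum_range_succ, h]; linarith

lemma gam_sq_le (c : ℝ) : gam N l c ^ 2
    ≤ ∑ k ∈ Finset.range N, 16 / (N * l) ^ 2 * 4 ^ k * ind (2 * l / 2 ^ k) c := by
  unfold gam
  rw [mul_pow]
  refine (mul_le_mul_of_nonneg_left (sq_sum_le _ (fun k => ?_) N) (sq_nonneg _)).trans
    (le_of_eq ?_)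
  · unfold ind; split_ifs <;> simp
  · rw [Finset.mul_sum, Finset.mul_sum]
    refine Finset.sum_congr rfl fun k _ => ?_
    ring

lemma integral_ind {d : Ph → ℝ} (hd : Measurable d) {C r : ℝ} (hC : 0 ≤ C)
    (h : mu0 A {p | d p < r} ≤ ENNReal.ofReal (C * r ^ 2)) :
    Integrable (fun p => ind r (d p)) (mu0 A) ∧ ∫ p, ind r (d p) ∂(mu0 A) ≤ C * r ^ 2 := by
  have hm : MeasurableSet {p | d p < r} := measurableSet_lt hd measurable_const
  have e : (fun p => ind r (d p)) = indicator {p | d p < r} 1 := by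
    ext p; simp [ind, indicator]
  rw [e]
  refine ⟨(integrable_const 1).indicator hm, ?_⟩
  rw [integral_indicator_one hm]
  exact ENNReal.toReal_le_of_le_ofReal (by positivity) h

/-- the cut-off function and the majorant of its gradient -/
structure Cut (A : Fin 3 → ℂ) (ε η L : ℝ) where
  χ : Ph → ℝ
  γ : Ph → ℝ
  mχ : Measurable χ
  χ0 : ∀ p, 0 ≤ χ p
  χ1 : ∀ p, χ p ≤ 1
  γ0 : ∀ p, 0 ≤ γ p
  m1 : ∀ x ∈ TT A, ∀ y θ, ‖y - x‖ ≤ η / L → |χ (fold A (y, θ)) - χ (x, θ)| ≤ η * γ (x, θ)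
  m2 : ∀ x ∈ TT A, ∀ y θ (s : ℝ), ‖y - x‖ ≤ η / L → 0 ≤ s → s ≤ η / L →
    |χ (fold A (y + s * vel θ, θ)) - χ (fold A (y, θ))| ≤ s / L * γ (x, θ)
  m3 : ∀ x ∈ TT A, ∀ y θ, ‖y - x‖ ≤ 2 * (η / L) → χ (fold A (y, θ)) ≠ 0 →
    10 * (η / L) ≤ del A x
  iγ : Integrable (fun p => γ p ^ 2) (mu0 A)
  bγ : ∫ p, γ p ^ 2 ∂(mu0 A) ≤ ε
  bχ : ∫ p, (1 - χ p) ^ 2 ∂(mu0 A) ≤ ε

theorem exists_cut (hA : AffineIndependent ℝ A) {ε : ℝ} (hε : 0 < ε) :
    ∃ η, 0 < η ∧ η ≤ 1 ∧ ∀ L, 1 ≤ L → Nonempty (Cut A ε η L) := by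
  obtain ⟨C, hC, hmeas⟩ := exists_dd_measure hA
  obtain ⟨N, hN⟩ := exists_nat_gt (576 * C / ε)
  have hN0 : 0 < (N : ℝ) := lt_trans (by positivity) hN
  set l := min 1 (ε / C) with hl
  have hl0 : 0 < l := lt_min one_pos (by positivity)
  have hl1 : l ≤ 1 := min_le_left _ _
  have hl2 : C * l ^ 2 ≤ ε := by
    have : l ≤ ε / C := min_le_right _ _
    rw [le_div_iff₀ hC] at this
    nlinarith
  have h2N : (1 : ℝ) ≤ 2 ^ N := one_le_pow₀ one_le_two
  set η0 := l / 2 ^ N with hη0
  have hη00 : 0 < η0 := by positivity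
  have hη01 : η0 ≤ 1 := (div_le_one (by positivity)).2 (by linarith)
  refine ⟨η0 / 20, by positivity, by linarith, fun L hL => ?_⟩
  have hL0 : 0 < L := by linarith
  set h := η0 / 20 / L with hh
  have hh0 : 0 < h := by positivity
  have hLh : L * h = η0 / 20 := by rw [hh]; field_simp
  have m3 : ∀ x ∈ TT A, ∀ y θ, ‖y - x‖ ≤ 2 * h → gg N l (dd A L (fold A (y, θ))) ≠ 0 →
      10 * h ≤ del A x := by
    intro x hx y θ hy hne
    by_contra hlt
    apply hne
    apply gg_of_le hl0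
    by_cases hq : (fold A (y, θ)).1 ∈ TT A
    · have h1 := dd_le_del hA hL0 hq
      have h2 := del_le_add hA (fold A (y, θ)).1 x
      have h3 := norm_fold_le hA hx (y, θ)
      have h4 : del A (fold A (y, θ)).1 ≤ 12 * h := by simp only at h3; linarith
      nlinarith
    · linarith [dd_nonpos hA hL0 hq]
  have hrel : ∀ x ∈ TT A, ∀ j, (∀ i, i ≠ j → 10 * h ≤ ell A i x) → ∀ y θ, ‖y - x‖ ≤ 2 * h →
      |dd A L (fold A (y, θ)) - dd A L (x, θ)| ≤ η0 := by
    intro x hx j hj y θ hy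
    have h1 := fold_chart hA hx hj (p := (y, θ)) (by simp only; linarith)
    have := dd_rel hA hL0 (rel_of_orb hA (p' := (x, θ)) h1.2 hx h1.1 (Or.inl rfl) hy)
      (by positivity)
    nlinarith
  have hi : ∀ k : ℕ, _ := fun k => integral_ind (A := A) (measurable_dd (L := L) hA) hC.le
    (hmeas L hL (2 * l / 2 ^ k) (by positivity))
  have hsum : Integrable (fun p => 9 * ∑ k ∈ Finset.range N,
      16 / (N * l) ^ 2 * 4 ^ k * ind (2 * l / 2 ^ k) (dd A L p)) (mu0 A) :=
    (integrable_finsetSum _ fun k _ => (hi k).1.const_mul _).const_mul _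
  have hle : ∀ p, (3 * gam N l (dd A L p)) ^ 2 ≤ 9 * ∑ k ∈ Finset.range N,
      16 / (N * l) ^ 2 * 4 ^ k * ind (2 * l / 2 ^ k) (dd A L p) := fun p => by
    have := gam_sq_le (N := N) (l := l) (dd A L p)
    linarith
  have hint : Integrable (fun p => (3 * gam N l (dd A L p)) ^ 2) (mu0 A) := by
    refine hsum.mono' ?_ (ae_of_all _ fun p => ?_)
    · exact ((measurable_const.mul (measurable_gam.comp (measurable_dd hA))).pow_const
        2).aestronglyMeasurable
    · rw [Real.norm_of_nonneg (sq_nonneg _)]; exact hle p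
  refine ⟨⟨fun p => gg N l (dd A L p), fun p => 3 * gam N l (dd A L p),
    continuous_gg.measurable.comp (measurable_dd hA), fun p => gg_nonneg _, fun p => gg_le_one _,
    fun p => mul_nonneg (by norm_num) (gam_nonneg hl0 _), ?_, ?_, m3, hint, ?_, ?_⟩⟩
  · intro x hx y θ hy
    have hg := gam_nonneg (N := N) hl0 (dd A L (x, θ))
    by_cases hd : 10 * h ≤ del A x
    · obtain ⟨j, hj⟩ := exists_chart hd
      have h1 := fold_chart hA hx hj (p := (y, θ)) (by simp only; linarith)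
      have h2 := dd_rel hA hL0 (rel_of_orb hA (p' := (x, θ)) h1.2 hx h1.1 (Or.inl rfl) hy) hh0
      refine (abs_gg_sub hl0 (hrel x hx j hj y θ (by linarith))
        (by simp only [sub_self, abs_zero]; positivity)).trans ?_
      have : 3 * L * h = 3 * (η0 / 20) := by rw [← hLh]; ring
      nlinarith
    · have h1 : gg N l (dd A L (fold A (y, θ))) = 0 := by
        by_contra hne; exact hd (m3 x hx y θ (by linarith) hne)
      have h2 : gg N l (dd A L (fold A (x, θ))) = 0 := by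
        by_contra hne; exact hd (m3 x hx x θ (by simp only [sub_self, norm_zero]; positivity) hne)
      rw [fold_of_mem hA (p := (x, θ)) hx] at h2
      simp only [h1, h2, sub_self, abs_zero]
      positivity
  · intro x hx y θ s hy hs hsh
    have hg := gam_nonneg (N := N) hl0 (dd A L (x, θ))
    have hy' : ‖y + s * vel θ - x‖ ≤ 2 * h := by
      have : y + s * vel θ - x = (y - x) + s * vel θ := by ring
      rw [this]
      refine (norm_add_le _ _).trans ?_
      rw [norm_mul, norm_vel, mul_one, Complex.norm_real, Real.norm_of_nonneg hs]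
      linarith
    by_cases hd : 10 * h ≤ del A x
    · obtain ⟨j, hj⟩ := exists_chart hd
      have h1 := fold_chart hA hx hj (p := (y, θ)) (by simp only; linarith)
      have h1' := fold_chart hA hx hj (p := (y + s * vel θ, θ)) (by simp only; linarith)
      have h3 : ∀ i, i ≠ j → 9 * h ≤ ell A i (fold A (y, θ)).1 := fun i hi => by
        have h4 := ell_le_add hA i x (fold A (y, θ)).1
        have h5 := norm_fold_le hA hx (y, θ)
        rw [norm_sub_rev] at h4
        simp only at h5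
        linarith [hj i hi]
      have h4 := dd_fwd hA hL0 h1.2 h3 hs (by linarith)
      have h5 := dd_orb hA hL0 (fwd_mem hA hs _) h1'.2
        (orb_fwd hA h1.2 h1.1 h3 hs (by linarith)) h1'.1
      refine (abs_gg_sub hl0 (hrel x hx j hj _ θ hy') (hrel x hx j hj y θ (by linarith))).trans ?_
      rw [h5]
      have : 0 ≤ s / L := by positivity
      nlinarith
    · have h1 : gg N l (dd A L (fold A (y, θ))) = 0 := by
        by_contra hne; exact hd (m3 x hx y θ (by linarith) hne)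
      have h2 : gg N l (dd A L (fold A (y + s * vel θ, θ))) = 0 := by
        by_contra hne; exact hd (m3 x hx _ θ hy' hne)
      simp only [h1, h2, sub_self, abs_zero]
      positivity
  · refine (integral_mono hint hsum hle).trans ?_
    rw [integral_const_mul, integral_finsetSum _ fun k _ => (hi k).1.const_mul _]
    have : ∀ k ∈ Finset.range N, ∫ p, 16 / (N * l) ^ 2 * 4 ^ k
        * ind (2 * l / 2 ^ k) (dd A L p) ∂(mu0 A) ≤ 64 * C / N ^ 2 := by
      intro k _
      rw [integral_const_mul]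
      refine (mul_le_mul_of_nonneg_left (hi k).2 (by positivity)).trans (le_of_eq ?_)
      have : (4 : ℝ) ^ k = (2 ^ k) ^ 2 := by rw [← pow_mul, mul_comm, pow_mul]; norm_num
      rw [this]; field_simp; norm_num
    have h2 := Finset.sum_le_card_nsmul _ _ _ this
    rw [Finset.card_range, nsmul_eq_mul] at h2
    have h3 : (N : ℝ) * (64 * C / N ^ 2) = 64 * C / N := by field_simp
    have h4 : 9 * (64 * C / N) ≤ ε := by
      rw [div_lt_iff₀ hε] at hN
      rw [← mul_div_assoc, div_le_iff₀ hN0]; linarith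
    linarith
  · have h1 := integral_ind (A := A) (measurable_dd (L := L) hA) hC.le (hmeas L hL l hl0)
    refine (integral_mono_of_nonneg (ae_of_all _ fun p => sq_nonneg _) h1.1
      (ae_of_all _ fun p => ?_)).trans (h1.2.trans hl2)
    simp only [ind]
    split_ifs with hp
    · have := gg_nonneg (N := N) (l := l) (dd A L p)
      have := gg_le_one (N := N) (l := l) (dd A L p)
      nlinarith
    · rw [gg_of_ge (by exact_mod_cast hN0) hl0 (not_lt.1 hp)]; simp

end Vale.Agent.P099
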