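import Mathlib

/-!
Billiard flow in a triangle with vertices `A 0, A 1, A 2` in the Euclidean plane `ℂ`.
A phase point is a position and a direction `θ ∈ ℝ/ℤ` (velocity `exp (2 π i θ)`).
-/

open MeasureTheory Set
open scoped Real symmDiff

noncomputable section

namespace Vale.Agent.P099

/-- unit velocity vector of the direction `θ` -/
def vel (θ : UnitAddCircle) : ℂ := (AddCircle.toCircle θ : ℂ)

/-- the open side opposite to the vertex `A j` -/
def side (A : Fin 3 → ℂ) (j : Fin 3) : Set ℂ := openSegment ℝ (A (j + 1)) (A (j + 2))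

/-- specular reflection of a direction in the side `j` -/
def reflDir (A : Fin 3 → ℂ) (j : Fin 3) (θ : UnitAddCircle) : UnitAddCircle :=
  ((Complex.arg (A (j + 2) - A (j + 1)) / π : ℝ) : UnitAddCircle) - θ

open Classical in
/-- time of free flight until the boundary is reached (zero at the vertices) -/
def freeTime (A : Fin 3 → ℂ) (p : ℂ × UnitAddCircle) : ℝ :=
  if p.1 ∈ convexHull ℝ (range A) ∧ p.1 ∉ range A then
    sSup {t : ℝ | 0 ≤ t ∧ p.1 + t * vel p.2 ∈ convexHull ℝ (range A)}
  else 0

open Classical in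
/-- fly to the boundary and reflect (a vertex is a fixed point) -/
def bounce (A : Fin 3 → ℂ) (p : ℂ × UnitAddCircle) : ℂ × UnitAddCircle :=
  (p.1 + freeTime A p * vel p.2,
    if p.1 + freeTime A p * vel p.2 ∈ side A 0 then reflDir A 0 p.2
    else if p.1 + freeTime A p * vel p.2 ∈ side A 1 then reflDir A 1 p.2
    else if p.1 + freeTime A p * vel p.2 ∈ side A 2 then reflDir A 2 p.2
    else p.2)

/-- time of the `k`-th collision with the boundary -/
def hitTime (A : Fin 3 → ℂ) (p : ℂ × UnitAddCircle) (k : ℕ) : ℝ :=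
  ∑ i ∈ Finset.range k, freeTime A ((bounce A)^[i] p)

open Classical in
/-- billiard flow for nonnegative times; a trajectory that has hit a vertex is discarded
to the dummy state `(A 0, 0)` -/
def fwd (A : Fin 3 → ℂ) (t : ℝ) (p : ℂ × UnitAddCircle) : ℂ × UnitAddCircle :=
  if h : ∃ k, t < hitTime A p (k + 1) then
    (((bounce A)^[Nat.find h] p).1
        + (t - hitTime A p (Nat.find h)) * vel ((bounce A)^[Nat.find h] p).2,
      ((bounce A)^[Nat.find h] p).2)
  else (A 0, 0)

/-- reversal of the velocity -/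
def rev (p : ℂ × UnitAddCircle) : ℂ × UnitAddCircle := (p.1, p.2 + ((1 / 2 : ℝ) : UnitAddCircle))

/-- the billiard flow for all real times -/
def flow (A : Fin 3 → ℂ) (t : ℝ) (p : ℂ × UnitAddCircle) : ℂ × UnitAddCircle :=
  if 0 ≤ t then fwd A t p else rev (fwd A (-t) (rev p))

/-- normalized area on the open triangle times the uniform direction -/
def liouville (A : Fin 3 → ℂ) : Measure (ℂ × UnitAddCircle) :=
  (ProbabilityTheory.cond volume (interior (convexHull ℝ (range A)))).prod AddCircle.haarAddCircle

/-- ergodicity of a one-parameter family of maps -/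
def IsErgodicFlow {X : Type} [MeasurableSpace X] (Φ : ℝ → X → X) (μ : Measure X) : Prop :=
  ∀ s : Set X, MeasurableSet s → (∀ t : ℝ, μ ((Φ t ⁻¹' s) ∆ s) = 0) → μ s = 0 ∨ μ s = 1

end Vale.Agent.P099
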