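import Vale.Agent.P099.MeasPres

open MeasureTheory Set Complex Filter Topology AddCircle
open scoped Real ComplexConjugate ENNReal

noncomputable section

namespace Vale.Agent.P099

variable {A : Fin 3 → ℂ}

def Orb (A : Fin 3 → ℂ) (j : Fin 3) (p q : Ph) : Prop := p = q ∨ p = mirP A j q

def Rel (A : Fin 3 → ℂ) (ε : ℝ) (p p' : Ph) : Prop :=
  p.1 ∈ TT A ∧ p'.1 ∈ TT A ∧ ((p.2 = p'.2 ∧ ‖p.1 - p'.1‖ ≤ ε) ∨
    ∃ j, reflDir A j p.2 = p'.2 ∧ ‖mir A j p.1 - p'.1‖ ≤ ε)

lemma rel_of_orb (hA : AffineIndependent ℝ A) {j : Fin 3} {p p' : Ph} {z z' : ℂ}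
    {w : UnitAddCircle} {ε : ℝ} (hp : p.1 ∈ TT A) (hp' : p'.1 ∈ TT A) (h : Orb A j p (z, w))
    (h' : Orb A j p' (z', w)) (hz : ‖z - z'‖ ≤ ε) : Rel A ε p p' := by
  refine ⟨hp, hp', ?_⟩
  rcases h with rfl | rfl <;> rcases h' with rfl | rfl
  · exact Or.inl ⟨rfl, hz⟩
  · exact Or.inr ⟨j, rfl, by simpa [mirP, norm_mir_sub hA] using hz⟩
  · exact Or.inr ⟨j, by simp [mirP, reflDir_reflDir], by simpa [mirP, mir_mir hA] using hz⟩
  · exact Or.inl ⟨rfl, by simpa [mirP, norm_mir_sub hA] using hz⟩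

lemma Rel.norm_le (hA : AffineIndependent ℝ A) {ε : ℝ} {p p' : Ph} (h : Rel A ε p p') :
    ‖p.1 - p'.1‖ ≤ ε := by
  rcases h with ⟨hp, hp', h | ⟨j, -, h⟩⟩
  · exact h.2
  · exact (norm_sub_le_mir hA j (mul_nonneg ((mem_TT hA).1 hp j) ((mem_TT hA).1 hp' j))).trans h

lemma Rel.symm (hA : AffineIndependent ℝ A) {ε : ℝ} {p p' : Ph} (h : Rel A ε p p') :
    Rel A ε p' p := by
  rcases h with ⟨hp, hp', h | ⟨j, h1, h⟩⟩
  · exact ⟨hp', hp, Or.inl ⟨h.1.symm, by rw [norm_sub_rev]; exact h.2⟩⟩
  · refine ⟨hp', hp, Or.inr ⟨j, by rw [← h1, reflDir_reflDir], ?_⟩⟩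
    rw [← norm_mir_sub hA j, mir_mir hA, norm_sub_rev]; exact h

lemma Rel.rev {ε : ℝ} {p p' : Ph} (h : Rel A ε p p') : Rel A ε (rev p) (rev p') := by
  rcases h with ⟨hp, hp', h | ⟨j, h1, h⟩⟩
  · exact ⟨hp, hp', Or.inl ⟨by simp [P099.rev, h.1], h.2⟩⟩
  · refine ⟨hp, hp', Or.inr ⟨j, ?_, h⟩⟩
    have := congrArg Prod.snd (rev_mirP (A := A) j p)
    simp only [P099.rev, mirP] at this ⊢
    rw [← this, h1]

lemma Orb.rev {j : Fin 3} {p q : Ph} (h : Orb A j p q) : Orb A j (rev p) (rev q) := by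
  rcases h with rfl | rfl
  · exact Or.inl rfl
  · exact Or.inr (rev_mirP j q)

lemma orb_fwd (hA : AffineIndependent ℝ A) {j : Fin 3} {p q : Ph} (hp : p.1 ∈ TT A)
    (h : Orb A j p q) {r u : ℝ} (hr : ∀ i, i ≠ j → r ≤ ell A i p.1) (hu : 0 ≤ u) (hur : u < r) :
    Orb A j (fwd A u p) (q.1 + u * vel q.2, q.2) := by
  have h1 := fwd_local hA hp hr hu hur
  rcases h with rfl | rfl
  · rcases h1 with h1 | h1
    · exact Or.inl h1.1
    · exact Or.inr h1.1
  · have e : ((mirP A j q).1 + u * vel (mirP A j q).2, (mirP A j q).2)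
        = mirP A j (q.1 + u * vel q.2, q.2) := by simp [mirP, mir_line hA]
    rw [e] at h1
    rcases h1 with h1 | h1
    · exact Or.inr h1.1
    · exact Or.inl (by rw [h1.1, mirP_mirP hA])

lemma norm_fwd_sub (hA : AffineIndependent ℝ A) {j : Fin 3} {p : Ph} (hp : p.1 ∈ TT A)
    {r u : ℝ} (hr : ∀ i, i ≠ j → r ≤ ell A i p.1) (hu : 0 ≤ u) (hur : u < r) :
    ‖(fwd A u p).1 - p.1‖ ≤ u := by
  have hn : ‖p.1 + u * vel p.2 - p.1‖ = u := by
    rw [add_sub_cancel_left, norm_mul, norm_vel, mul_one, Complex.norm_real,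
      Real.norm_of_nonneg hu]
  exact (rel_of_orb hA (fwd_mem hA hu p) hp (orb_fwd hA hp (Or.inl rfl) hr hu hur)
    (Or.inl rfl) hn.le).norm_le hA

lemma rel_step (hA : AffineIndependent ℝ A) {ε u : ℝ} {p p' : Ph} (h : Rel A ε p p')
    (hε : 0 < ε) (hd : 3 * ε ≤ del A p'.1) (hu : 0 ≤ u) (hu' : u ≤ ε) :
    Rel A ε (fwd A u p) (fwd A u p') := by
  obtain ⟨j, hj⟩ := exists_chart hd
  have hn := h.norm_le hA
  have hjp : ∀ i, i ≠ j → 2 * ε ≤ ell A i p.1 := fun i hi => by
    have := ell_le_add hA i p'.1 p.1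
    rw [norm_sub_rev] at this
    linarith [hj i hi]
  obtain ⟨z, hz1, hz2⟩ : ∃ z, Orb A j p (z, p'.2) ∧ ‖z - p'.1‖ ≤ ε := by
    rcases h with ⟨hp, hp', h | ⟨k, h1, h⟩⟩
    · exact ⟨p.1, Or.inl (by rw [← h.1]), h.2⟩
    · have hk : k = j := by
        by_contra hk
        have h2 := ell_le_add hA k p'.1 (mir A k p.1)
        rw [ell_mir hA, norm_sub_rev] at h2
        have := (mem_TT hA).1 hp k
        linarith [hj k hk]
      subst hk
      exact ⟨mir A k p.1, Or.inr (by rw [← h1]; exact (mirP_mirP hA k p).symm), h⟩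
  refine rel_of_orb hA (fwd_mem hA hu p) (fwd_mem hA hu p')
    (orb_fwd hA h.1 hz1 hjp hu (by linarith))
    (orb_fwd hA h.2.1 (Or.inl rfl) hj hu (by linarith)) ?_
  simpa using hz2

lemma rel_long (hA : AffineIndependent ℝ A) {ε : ℝ} {p p' : Ph} (h : Rel A ε p p')
    (hε : 0 < ε) {s : ℝ} (hs : 0 ≤ s) :
    (∃ s0, 0 ≤ s0 ∧ s0 ≤ s ∧ del A (fwd A s0 p').1 < 3 * ε) ∨
      Rel A ε (fwd A s p) (fwd A s p') := by
  have key : ∀ n : ℕ, ∀ s, 0 ≤ s → s ≤ n * ε →
      (∃ s0, 0 ≤ s0 ∧ s0 ≤ s ∧ del A (fwd A s0 p').1 < 3 * ε) ∨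
      Rel A ε (fwd A s p) (fwd A s p') := by
    intro n
    induction n with
    | zero =>
      intro s hs hs'
      have : s = 0 := le_antisymm (by simpa using hs') hs
      subst this
      by_cases hd : 3 * ε ≤ del A p'.1
      · exact Or.inr (rel_step hA h hε hd le_rfl hε.le)
      · left
        have := del_fwd_le hA le_rfl h.2.1
        exact ⟨0, le_rfl, le_rfl, by linarith⟩
    | succ n ih =>
      intro s hs hs'
      by_cases hn : s ≤ n * ε
      · exact ih s hs hn
      push Not at hn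
      have hn0 : (0 : ℝ) ≤ n * ε := by positivity
      rcases ih (n * ε) hn0 le_rfl with ⟨s0, h1, h2, h3⟩ | h1
      · exact Or.inl ⟨s0, h1, by linarith, h3⟩
      · by_cases hd : 3 * ε ≤ del A (fwd A (n * ε) p').1
        · right
          have hu : 0 ≤ s - n * ε := by linarith
          have := rel_step hA h1 hε hd hu (by push_cast at hs'; linarith)
          rw [← fwd_add hA hn0 hu, ← fwd_add hA hn0 hu] at this
          simpa using this
        · exact Or.inl ⟨n * ε, hn0, hn.le, by linarith⟩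
  obtain ⟨n, hn⟩ := exists_nat_ge (s / ε)
  exact key n s hs (by rwa [div_le_iff₀ hε] at hn)

def term (A : Fin 3 → ℂ) (L : ℝ) (p : Ph) (s : ℝ) : ℝ := max (s / L) (L * del A (fwd A s p).1)

def dplus (A : Fin 3 → ℂ) (L : ℝ) (p : Ph) : ℝ := ⨅ q : ℚ, term A L p |(q : ℝ)|

def dd (A : Fin 3 → ℂ) (L : ℝ) (p : Ph) : ℝ := min (dplus A L p) (dplus A L (rev p))

variable {L : ℝ}

lemma term_nonneg (hL : 0 < L) (p : Ph) {s : ℝ} (hs : 0 ≤ s) : 0 ≤ term A L p s :=
  le_max_of_le_left (by positivity)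

lemma le_dplus {p : Ph} {c : ℝ} (h : ∀ s, 0 ≤ s → c ≤ term A L p s) : c ≤ dplus A L p :=
  le_ciInf fun _ => h _ (abs_nonneg _)

lemma dplus_le (hA : AffineIndependent ℝ A) (hL : 0 < L) (p : Ph) {s : ℝ} (hs : 0 ≤ s) :
    dplus A L p ≤ term A L p s := by
  refine le_of_forall_pos_le_add fun ε hε => ?_
  have hc : 0 < 1 / L + L := by positivity
  obtain ⟨q, h1, h2⟩ := exists_rat_btwn (show s < s + ε / (1 / L + L) by
    have := div_pos hε hc; linarith)
  have hq : 0 ≤ (q : ℝ) := by linarith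
  have hb : BddBelow (range fun q : ℚ => term A L p |(q : ℝ)|) :=
    ⟨0, by rintro _ ⟨q, rfl⟩; exact term_nonneg hL p (abs_nonneg _)⟩
  refine (ciInf_le hb q).trans ?_
  rw [abs_of_nonneg hq]
  have h3 : (q - s) * (1 / L + L) ≤ ε := by
    rw [← le_div_iff₀ hc]; linarith
  have h4 : del A (fwd A q p).1 ≤ del A (fwd A s p).1 + (q - s) := by
    have := del_fwd_le hA (t := q - s) (by linarith) (fwd_mem hA hs p)
    rw [← fwd_add hA hs (by linarith)] at this
    simpa using this
  have h5 : 0 ≤ (q - s) * (1 / L) := by have : 0 ≤ q - s := by linarith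
                                        positivity
  have h6 : 0 ≤ (q - s) * L := by have : 0 ≤ q - s := by linarith
                                  positivity
  unfold term
  apply max_le
  · have : (q : ℝ) / L = s / L + (q - s) * (1 / L) := by ring
    have := le_max_left (s / L) (L * del A (fwd A s p).1)
    nlinarith
  · have := le_max_right (s / L) (L * del A (fwd A s p).1)
    nlinarith

lemma measurable_dd (hA : AffineIndependent ℝ A) : Measurable (dd A L) := by
  have h : Measurable (dplus A L) := by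
    refine Measurable.iInf fun q => ?_
    unfold term
    exact measurable_const.max (measurable_const.mul (continuous_del.measurable.comp
      (measurable_fst.comp (measurable_fwd hA (abs_nonneg _)))))
  exact h.min (h.comp continuous_rev.measurable)

lemma dplus_rel (hA : AffineIndependent ℝ A) (hL : 0 < L) {ε : ℝ} {p p' : Ph}
    (h : Rel A ε p p') (hε : 0 < ε) : dplus A L p' ≤ dplus A L p + 3 * L * ε := by
  rw [← sub_le_iff_le_add]
  refine le_dplus fun s hs => ?_
  rw [sub_le_iff_le_add]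
  have h0 : 0 < L * ε := by positivity
  have h00 := term_nonneg (A := A) hL p hs
  rcases rel_long hA h hε hs with ⟨s0, h1, h2, h3⟩ | h1
  · refine (dplus_le hA hL p' h1).trans (max_le ?_ ?_)
    · have : s0 / L ≤ s / L := by gcongr
      have := le_max_left (s / L) (L * del A (fwd A s p).1)
      unfold term; linarith
    · nlinarith
  · refine (dplus_le hA hL p' hs).trans (max_le ?_ ?_)
    · have := le_max_left (s / L) (L * del A (fwd A s p).1)
      unfold term; linarith
    · have h2 := del_le_add hA (fwd A s p').1 (fwd A s p).1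
      have h3 := (h1.symm hA).norm_le hA
      have := le_max_right (s / L) (L * del A (fwd A s p).1)
      unfold term; nlinarith

lemma dd_rel (hA : AffineIndependent ℝ A) (hL : 0 < L) {ε : ℝ} {p p' : Ph}
    (h : Rel A ε p p') (hε : 0 < ε) : |dd A L p - dd A L p'| ≤ 3 * L * ε := by
  have h1 := dplus_rel hA hL h hε
  have h2 := dplus_rel hA hL (h.symm hA) hε
  have h3 := dplus_rel hA hL h.rev hε
  have h4 := dplus_rel hA hL (h.symm hA).rev hε
  unfold dd
  rw [abs_le]
  constructor
  · have : min (dplus A L p') (dplus A L (rev p'))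
        ≤ min (dplus A L p) (dplus A L (rev p)) + 3 * L * ε := by
      rw [← min_add_add_right]; gcongr
    linarith
  · have : min (dplus A L p) (dplus A L (rev p))
        ≤ min (dplus A L p') (dplus A L (rev p')) + 3 * L * ε := by
      rw [← min_add_add_right]; gcongr
    linarith

lemma dplus_orb (hA : AffineIndependent ℝ A) (hL : 0 < L) {j : Fin 3} {p p' q : Ph}
    (hp : p.1 ∈ TT A) (hp' : p'.1 ∈ TT A) (h : Orb A j p q) (h' : Orb A j p' q) :
    dplus A L p' ≤ dplus A L p := by
  refine le_of_forall_pos_le_add fun ε hε => ?_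
  have := dplus_rel hA hL (rel_of_orb hA (ε := ε / (3 * L)) hp hp' h h'
    (by simp only [sub_self, norm_zero]; positivity)) (by positivity)
  rwa [mul_div_cancel₀ _ (by positivity)] at this

lemma dd_orb (hA : AffineIndependent ℝ A) (hL : 0 < L) {j : Fin 3} {p p' q : Ph}
    (hp : p.1 ∈ TT A) (hp' : p'.1 ∈ TT A) (h : Orb A j p q) (h' : Orb A j p' q) :
    dd A L p' = dd A L p := by
  unfold dd
  rw [le_antisymm (dplus_orb hA hL hp hp' h h') (dplus_orb hA hL hp' hp h' h),
    le_antisymm (dplus_orb hA hL (p := rev p) (p' := rev p') hp hp' h.rev h'.rev)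
      (dplus_orb hA hL (p := rev p') (p' := rev p) hp' hp h'.rev h.rev)]

lemma dd_rev (p : Ph) : dd A L (rev p) = dd A L p := by
  unfold dd; rw [rev_rev, min_comm]

lemma dd_fwd_le (hA : AffineIndependent ℝ A) (hL : 0 < L) {j : Fin 3} {p : Ph}
    (hp : p.1 ∈ TT A) {r u : ℝ} (hr : ∀ i, i ≠ j → r ≤ ell A i p.1) (hu : 0 ≤ u)
    (hur : 2 * u < r) : dd A L p ≤ dd A L (fwd A u p) + u / L := by
  set q := fwd A u p with hq
  have hqT : q.1 ∈ TT A := fwd_mem hA hu p
  have hqr : ∀ i, i ≠ j → r - u ≤ ell A i (rev q).1 := fun i hi => by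
    have h1 := norm_fwd_sub hA hp hr hu (by linarith)
    have h2 := ell_le_add hA i p.1 q.1
    rw [norm_sub_rev] at h2
    have := hr i hi
    simp only [rev]; linarith
  have horb : Orb A j (rev q) (rev (p.1 + u * vel p.2, p.2)) :=
    (orb_fwd hA hp (Or.inl rfl) hr hu (by linarith)).rev
  have hback : ∀ s, 0 ≤ s → s ≤ u →
      Orb A j (fwd A s (rev q)) (rev (p.1 + ((u - s : ℝ) : ℂ) * vel p.2, p.2)) := by
    intro s hs hsu
    have := orb_fwd hA (p := rev q) hqT horb hqr hs (by linarith)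
    rw [vel_rev] at this
    convert this using 1
    simp only [rev, Prod.mk.injEq, and_true]
    push_cast; ring
  have huL : 0 ≤ u / L := by positivity
  unfold dd
  rw [← min_add_add_right]
  apply le_min
  · refine (min_le_left _ _).trans ?_
    rw [← sub_le_iff_le_add]
    refine le_dplus fun s hs => ?_
    rw [sub_le_iff_le_add]
    refine (dplus_le hA hL p (add_nonneg hu hs)).trans ?_
    unfold term
    rw [fwd_add hA hu hs, ← max_add_add_right]
    gcongr
    · rw [add_div, add_comm]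
    · linarith
  · rw [← sub_le_iff_le_add]
    refine le_dplus fun s hs => ?_
    rw [sub_le_iff_le_add]
    rcases le_total u s with hus | hus
    · refine (min_le_right _ _).trans ?_
      have h1 : dplus A L (rev p) ≤ dplus A L (fwd A u (rev q)) := by
        refine dplus_orb hA hL (j := j) (fwd_mem hA hu _) hp (hback u hu le_rfl) (Or.inl ?_)
        simp
      refine h1.trans ((dplus_le hA hL _ (show 0 ≤ s - u by linarith)).trans ?_)
      unfold term
      rw [← fwd_add hA hu (by linarith), add_sub_cancel, ← max_add_add_right]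
      gcongr
      · rw [sub_div]; linarith
      · linarith
    · refine (min_le_left _ _).trans ((dplus_le hA hL _ (show 0 ≤ u - s by linarith)).trans ?_)
      have h1 : Orb A j (rev (fwd A (u - s) p)) (rev (p.1 + ((u - s : ℝ) : ℂ) * vel p.2, p.2)) :=
        (orb_fwd hA hp (Or.inl rfl) hr (show 0 ≤ u - s by linarith) (by linarith)).rev
      have h2 := (rel_of_orb hA (ε := 0) (p := rev (fwd A (u - s) p))
        (fwd_mem hA (by linarith) p) (fwd_mem hA hs _) h1 (hback s hs hus) (by simp)).norm_le hA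
      have h3 : (fwd A (u - s) p).1 = (fwd A s (rev q)).1 := by
        simpa [rev, sub_eq_zero] using h2
      unfold term
      rw [h3, ← max_add_add_right]
      have : 0 ≤ s / L := by positivity
      gcongr
      · rw [sub_div]; linarith
      · linarith

lemma dd_fwd (hA : AffineIndependent ℝ A) (hL : 0 < L) {j : Fin 3} {p : Ph}
    (hp : p.1 ∈ TT A) {r u : ℝ} (hr : ∀ i, i ≠ j → r ≤ ell A i p.1) (hu : 0 ≤ u)
    (hur : 3 * u < r) : |dd A L (fwd A u p) - dd A L p| ≤ u / L := by
  have h1 := dd_fwd_le hA hL hp hr hu (by linarith)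
  set q := fwd A u p with hq
  have hqT : q.1 ∈ TT A := fwd_mem hA hu p
  have hqr : ∀ i, i ≠ j → r - u ≤ ell A i (rev q).1 := fun i hi => by
    have h1 := norm_fwd_sub hA hp hr hu (by linarith)
    have h2 := ell_le_add hA i p.1 q.1
    rw [norm_sub_rev] at h2
    have := hr i hi
    simp only [rev]; linarith
  have h2 := dd_fwd_le hA hL (p := rev q) hqT hqr hu (by linarith)
  have horb : Orb A j (rev q) (rev (p.1 + u * vel p.2, p.2)) :=
    (orb_fwd hA hp (Or.inl rfl) hr hu (by linarith)).rev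
  have h3 := orb_fwd hA (p := rev q) hqT horb hqr hu (by linarith)
  rw [vel_rev] at h3
  have h4 : dd A L (fwd A u (rev q)) = dd A L (rev p) := by
    refine dd_orb hA hL (j := j) (p := rev p) hp (fwd_mem hA hu _) (Or.inl ?_) h3
    simp [rev]
  rw [h4, dd_rev, dd_rev] at h2
  rw [abs_le]; constructor <;> linarith

lemma dd_le_del (hA : AffineIndependent ℝ A) (hL : 0 < L) {p : Ph} (hp : p.1 ∈ TT A) :
    dd A L p ≤ L * del A p.1 := by
  refine (min_le_left _ _).trans ((dplus_le hA hL p le_rfl).trans (max_le ?_ ?_))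
  · have := del_nonneg hA hp
    rw [zero_div]; positivity
  · have := del_fwd_le hA le_rfl hp
    rw [add_zero] at this
    gcongr

lemma exists_dd_measure (hA : AffineIndependent ℝ A) :
    ∃ C : ℝ, 0 < C ∧ ∀ L, 1 ≤ L → ∀ r, 0 < r →
      mu0 A {p | dd A L p < r} ≤ ENNReal.ofReal (C * r ^ 2) := by
  obtain ⟨C, hC, h⟩ := exists_del_measure hA
  refine ⟨24 * C, by positivity, fun L hL r hr => ?_⟩
  have hL0 : 0 < L := by linarith
  have hm : MeasurableSet {p : Ph | del A p.1 < 2 * (r / L)} :=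
    measurableSet_lt (continuous_del.comp continuous_fst).measurable measurable_const
  have h1 : mu0 A {p | dplus A L p < r} ≤ ENNReal.ofReal (12 * C * r ^ 2) := by
    set N := ⌈L ^ 2⌉₊ with hN
    have hsub : {p | dplus A L p < r} ⊆ ⋃ k ∈ Finset.range (N + 1),
        fwd A (k * (r / L)) ⁻¹' {p | del A p.1 < 2 * (r / L)} := by
      intro p hp
      obtain ⟨q, hq⟩ := exists_lt_of_ciInf_lt (f := fun q : ℚ => term A L p |(q : ℝ)|) (a := r) hp
      set s := |(q : ℝ)| with hs
      have hs0 : 0 ≤ s := abs_nonneg _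
      unfold term at hq
      rw [max_lt_iff] at hq
      have hrL : 0 < r / L := by positivity
      set k := ⌈s / (r / L)⌉₊ with hk
      have hk1 : s ≤ k * (r / L) := by
        have := Nat.le_ceil (s / (r / L)); rwa [div_le_iff₀ hrL] at this
      have hk2 : k * (r / L) < s + r / L := by
        have := Nat.ceil_lt_add_one (show 0 ≤ s / (r / L) by positivity)
        rw [← hk, div_add_one hrL.ne', lt_div_iff₀ hrL] at this
        exact this
      simp only [mem_iUnion, Finset.mem_range, mem_preimage, mem_ofPred_eq]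
      refine ⟨k, Nat.lt_succ_of_le (Nat.ceil_mono ?_), ?_⟩
      · rw [div_le_iff₀ hrL]
        have := (div_lt_iff₀ hL0).1 hq.1
        have e : L ^ 2 * (r / L) = r * L := by field_simp
        linarith
      · have h2 := del_fwd_le hA (t := k * (r / L) - s) (by linarith) (fwd_mem hA hs0 p)
        rw [← fwd_add hA hs0 (by linarith), add_sub_cancel] at h2
        have h3 : del A (fwd A s p).1 < r / L := by
          rw [lt_div_iff₀ hL0]; linarith
        linarith
    refine (measure_mono hsub).trans ((measure_biUnion_finset_le _ _).trans ?_)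
    have : ∀ k ∈ Finset.range (N + 1), mu0 A (fwd A (k * (r / L)) ⁻¹' {p | del A p.1 < 2 * (r / L)})
        ≤ ENNReal.ofReal (C * (2 * (r / L)) ^ 2) := fun k _ =>
      (preimage_le hA (by positivity) hm).trans (h _ (by positivity))
    refine (Finset.sum_le_sum this).trans ?_
    rw [Finset.sum_const, Finset.card_range, nsmul_eq_mul, ← ENNReal.ofReal_natCast,
      ← ENNReal.ofReal_mul (by positivity)]
    apply ENNReal.ofReal_le_ofReal
    have h2 : (N : ℝ) < L ^ 2 + 1 := Nat.ceil_lt_add_one (by positivity)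
    have h3 : 1 ≤ L ^ 2 := one_le_pow₀ hL
    have h4 : ((N + 1 : ℕ) : ℝ) ≤ 3 * L ^ 2 := by push_cast; linarith
    calc ((N + 1 : ℕ) : ℝ) * (C * (2 * (r / L)) ^ 2) ≤ 3 * L ^ 2 * (C * (2 * (r / L)) ^ 2) := by
          gcongr
      _ = 12 * C * r ^ 2 := by field_simp; ring
  have h2 : {p | dd A L p < r} ⊆ {p | dplus A L p < r} ∪ rev ⁻¹' {p | dplus A L p < r} := by
    intro p hp
    simpa [dd] using hp
  have hm2 : MeasurableSet {p | dplus A L p < r} := by
    refine measurableSet_lt (Measurable.iInf fun q => ?_) measurable_const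
    unfold term
    exact measurable_const.max (measurable_const.mul (continuous_del.measurable.comp
      (measurable_fst.comp (measurable_fwd hA (abs_nonneg _)))))
  refine (measure_mono h2).trans ((measure_union_le _ _).trans ?_)
  rw [(measurePreserving_rev _).measure_preimage hm2.nullMeasurableSet]
  refine (add_le_add h1 h1).trans ?_
  rw [← ENNReal.ofReal_add (by positivity) (by positivity)]
  apply le_of_eq; congr 1; ring

end Vale.Agent.P099
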