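import Vale.Agent.P099.Geom

open MeasureTheory Set Complex Filter Topology
open scoped Real ComplexConjugate

noncomputable section

namespace Vale.Agent.P099

variable {A : Fin 3 → ℂ}

def Live (A : Fin 3 → ℂ) (p : Ph) : Prop := p.1 ∈ TT A ∧ p.1 ∉ range A

def SS (A : Fin 3 → ℂ) (p : Ph) : Set ℝ := {t : ℝ | 0 ≤ t ∧ p.1 + t * vel p.2 ∈ TT A}

lemma freeTime_live {p : Ph} (hp : Live A p) : freeTime A p = sSup (SS A p) := by
  unfold freeTime; exact if_pos hp

lemma freeTime_dead {p : Ph} (hp : ¬Live A p) : freeTime A p = 0 := by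
  unfold freeTime; exact if_neg hp

lemma bddAbove_SS (p : Ph) : BddAbove (SS A p) := by
  obtain ⟨R, hR⟩ := (isCompact_TT (A := A)).isBounded.exists_norm_le
  refine ⟨R + ‖p.1‖, fun t ht => ?_⟩
  have h1 := hR _ ht.2
  have h2 : ‖(t : ℂ) * vel p.2‖ = t := by
    rw [norm_mul, norm_vel, mul_one, Complex.norm_real, Real.norm_of_nonneg ht.1]
  have h3 : ‖(t : ℂ) * vel p.2‖ ≤ ‖p.1 + t * vel p.2‖ + ‖p.1‖ := by
    have := norm_sub_le (p.1 + t * vel p.2) p.1
    rwa [add_sub_cancel_left] at this
  linarith

lemma isClosed_SS (p : Ph) : IsClosed (SS A p) :=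
  (isClosed_Ici (a := (0 : ℝ))).inter
    ((isCompact_TT (A := A)).isClosed.preimage (f := fun t : ℝ => p.1 + t * vel p.2) (by fun_prop))

lemma freeTime_mem_SS {p : Ph} (hp : p.1 ∈ TT A) : freeTime A p ∈ SS A p := by
  have h0 : (0 : ℝ) ∈ SS A p := ⟨le_rfl, by simpa using hp⟩
  by_cases h : Live A p
  · rw [freeTime_live h]
    exact (isClosed_SS p).csSup_mem ⟨0, h0⟩ (bddAbove_SS p)
  · rw [freeTime_dead h]; exact h0

lemma freeTime_nonneg (p : Ph) : 0 ≤ freeTime A p := by
  by_cases h : Live A p
  · exact (freeTime_mem_SS h.1).1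
  · rw [freeTime_dead h]

lemma live_of_pos {p : Ph} (h : 0 < freeTime A p) : Live A p := by
  by_contra h'
  rw [freeTime_dead h'] at h
  exact lt_irrefl _ h

lemma le_freeTime {p : Ph} (hp : Live A p) {t : ℝ} (ht : 0 ≤ t)
    (h : p.1 + t * vel p.2 ∈ TT A) : t ≤ freeTime A p := by
  rw [freeTime_live hp]; exact le_csSup (bddAbove_SS p) ⟨ht, h⟩

lemma mem_of_le_freeTime (hA : AffineIndependent ℝ A) {p : Ph} (hp : p.1 ∈ TT A) {t : ℝ}
    (ht : 0 ≤ t) (h : t ≤ freeTime A p) : p.1 + t * vel p.2 ∈ TT A := by
  have h1 := (freeTime_mem_SS hp).2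
  rw [mem_TT hA] at *
  intro j
  have a1 := h1 j
  have a2 := hp j
  rw [ell_line] at *
  rcases le_total 0 (nu A j (vel p.2)) with h3 | h3
  · positivity
  · nlinarith

lemma bounce_fst (p : Ph) : (bounce A p).1 = p.1 + freeTime A p * vel p.2 := rfl

lemma bounce_mem {p : Ph} (hp : p.1 ∈ TT A) : (bounce A p).1 ∈ TT A := (freeTime_mem_SS hp).2

lemma not_mem_side_of_dead (hA : AffineIndependent ℝ A) {p : Ph} (hp : ¬Live A p) (j : Fin 3) :
    p.1 ∉ side A j := by
  intro h
  apply hp
  refine ⟨side_subset_TT hA h, ?_⟩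
  rintro ⟨k, hk⟩
  rw [mem_side hA, ← hk] at h
  by_cases hkj : k = j + 1
  · have := h.2 _ (add_two_ne j)
    rw [hkj, ell_vertex_ne (add_two_ne_add_one j).symm] at this
    exact lt_irrefl _ this
  · have := h.2 _ (add_one_ne j)
    rw [ell_vertex_ne hkj] at this
    exact lt_irrefl _ this

lemma bounce_dead (hA : AffineIndependent ℝ A) {p : Ph} (hp : ¬Live A p) : bounce A p = p := by
  unfold bounce
  simp [freeTime_dead hp, not_mem_side_of_dead hA hp]

lemma bounce_side (hA : AffineIndependent ℝ A) {p : Ph} {j : Fin 3}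
    (h : p.1 + freeTime A p * vel p.2 ∈ side A j) :
    bounce A p = (p.1 + freeTime A p * vel p.2, reflDir A j p.2) := by
  have hne : ∀ i, i ≠ j → p.1 + freeTime A p * vel p.2 ∉ side A i := by
    intro i hi h'
    rw [mem_side hA] at h h'
    have := h.2 i hi
    rw [h'.1] at this
    exact lt_irrefl _ this
  unfold bounce
  rcases fin3_cases j with rfl | rfl | rfl
  · rw [if_pos h]
  · rw [if_neg (hne 0 (by decide)), if_pos h]
  · rw [if_neg (hne 0 (by decide)), if_neg (hne 1 (by decide)), if_pos h]

lemma iterate_mem {p : Ph} (hp : p.1 ∈ TT A) (k : ℕ) : ((bounce A)^[k] p).1 ∈ TT A := by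
  induction k with
  | zero => exact hp
  | succ k ih => rw [Function.iterate_succ_apply']; exact bounce_mem ih

lemma hitTime_zero (p : Ph) : hitTime A p 0 = 0 := by simp [hitTime]

lemma hitTime_succ (p : Ph) (k : ℕ) :
    hitTime A p (k + 1) = hitTime A p k + freeTime A ((bounce A)^[k] p) := by
  simp [hitTime, Finset.sum_range_succ]

lemma hitTime_add (p : Ph) (k m : ℕ) :
    hitTime A p (k + m) = hitTime A p k + hitTime A ((bounce A)^[k] p) m := by
  induction m with
  | zero => simp [hitTime_zero]
  | succ m ih =>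
    rw [← add_assoc, hitTime_succ, hitTime_succ, ih, add_comm k m, Function.iterate_add_apply]
    ring

lemma hitTime_mono (p : Ph) : Monotone (hitTime A p) :=
  monotone_nat_of_le_succ fun k => by
    rw [hitTime_succ]; linarith [freeTime_nonneg (A := A) ((bounce A)^[k] p)]

lemma fwd_eq {p : Ph} {t : ℝ} {k : ℕ} (h1 : hitTime A p k ≤ t) (h2 : t < hitTime A p (k + 1)) :
    fwd A t p = (((bounce A)^[k] p).1 + (t - hitTime A p k) * vel ((bounce A)^[k] p).2,
      ((bounce A)^[k] p).2) := by
  classical
  have h : ∃ k, t < hitTime A p (k + 1) := ⟨k, h2⟩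
  have hk : Nat.find h = k := by
    rw [Nat.find_eq_iff]
    refine ⟨h2, fun m hm h3 => ?_⟩
    have := hitTime_mono (A := A) p (show m + 1 ≤ k from hm)
    linarith
  unfold fwd
  rw [dif_pos h]
  simp only [hk]

lemma fwd_dead {p : Ph} {t : ℝ} (h : ∀ k, hitTime A p k ≤ t) : fwd A t p = (A 0, 0) := by
  unfold fwd
  rw [dif_neg]
  rintro ⟨k, hk⟩
  exact absurd (h (k + 1)) (not_le.2 hk)

lemma fwd_cases (p : Ph) {t : ℝ} (ht : 0 ≤ t) :
    (∃ k, hitTime A p k ≤ t ∧ t < hitTime A p (k + 1)) ∨ ∀ k, hitTime A p k ≤ t := by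
  classical
  by_cases h : ∃ k, t < hitTime A p (k + 1)
  · left
    refine ⟨Nat.find h, ?_, Nat.find_spec h⟩
    rcases hk : Nat.find h with _ | m
    · rw [hitTime_zero]; exact ht
    · have := Nat.find_min h (m := m) (by omega)
      exact not_lt.1 this
  · right
    push Not at h
    intro k
    exact (hitTime_mono p (Nat.le_succ k)).trans (h k)

lemma fwd_free {p : Ph} {t : ℝ} (h0 : 0 ≤ t) (h : t < freeTime A p) :
    fwd A t p = (p.1 + t * vel p.2, p.2) := by
  have := fwd_eq (A := A) (p := p) (t := t) (k := 0) (by rwa [hitTime_zero])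
    (by rwa [hitTime_succ, hitTime_zero, zero_add])
  simpa [hitTime_zero] using this

lemma live_shift (hA : AffineIndependent ℝ A) {p : Ph} {s : ℝ} (h0 : 0 ≤ s)
    (h : s < freeTime A p) : Live A (p.1 + s * vel p.2, p.2) := by
  have hp := live_of_pos (h0.trans_lt h)
  refine ⟨mem_of_le_freeTime hA hp.1 h0 h.le, ?_⟩
  rintro ⟨j, hj⟩
  apply hp.2
  refine ⟨j, (eq_vertex hA fun i hi => ?_).symm⟩
  have h1 := (mem_TT hA).1 (freeTime_mem_SS hp.1).2 i
  have h2 := (mem_TT hA).1 hp.1 i
  have h3 : ell A i (p.1 + s * vel p.2) = 0 := by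
    simp only at hj
    rw [← hj]; exact ell_vertex_ne hi.symm
  rw [ell_line] at h1 h3
  have h4 : 0 ≤ nu A i (vel p.2) := by
    by_contra h5
    push Not at h5
    nlinarith
  have : 0 ≤ s * nu A i (vel p.2) := by positivity
  linarith

lemma freeTime_shift (hA : AffineIndependent ℝ A) {p : Ph} {s : ℝ} (h0 : 0 ≤ s)
    (h : s < freeTime A p) : freeTime A (p.1 + s * vel p.2, p.2) = freeTime A p - s := by
  have hp := live_of_pos (h0.trans_lt h)
  have hq := live_shift hA h0 h
  apply le_antisymm
  · have h1 := freeTime_mem_SS hq.1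
    have := le_freeTime hp (t := s + freeTime A (p.1 + s * vel p.2, p.2)) (add_nonneg h0 h1.1)
      (by have := h1.2; simp only at this; convert this using 1; push_cast; ring)
    linarith
  · apply le_freeTime hq (by linarith)
    have := (freeTime_mem_SS hp.1).2
    convert this using 1; push_cast; ring

lemma bounce_shift (hA : AffineIndependent ℝ A) {p : Ph} {s : ℝ} (h0 : 0 ≤ s)
    (h : s < freeTime A p) : bounce A (p.1 + s * vel p.2, p.2) = bounce A p := by
  have h1 : p.1 + s * vel p.2 + freeTime A (p.1 + s * vel p.2, p.2) * vel p.2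
      = p.1 + freeTime A p * vel p.2 := by
    rw [freeTime_shift hA h0 h]; push_cast; ring
  unfold bounce
  dsimp only
  rw [h1]

lemma hitTime_dead (hA : AffineIndependent ℝ A) {p : Ph} (hp : ¬Live A p) (k : ℕ) :
    hitTime A p k = 0 := by
  unfold hitTime
  refine Finset.sum_eq_zero fun i _ => ?_
  rw [Function.iterate_fixed (bounce_dead hA hp), freeTime_dead hp]

lemma not_live_J : ¬Live A (A 0, 0) := fun h => h.2 ⟨0, rfl⟩

lemma fwd_add (hA : AffineIndependent ℝ A) {s t : ℝ} (hs : 0 ≤ s) (ht : 0 ≤ t) (p : Ph) :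
    fwd A (s + t) p = fwd A t (fwd A s p) := by
  rcases fwd_cases (A := A) p hs with ⟨k, h1, h2⟩ | h
  · set r := (bounce A)^[k] p with hr
    have hσ0 : 0 ≤ s - hitTime A p k := by linarith
    have hσ : s - hitTime A p k < freeTime A r := by rw [hitTime_succ] at h2; linarith
    have hq : fwd A s p = (r.1 + ((s - hitTime A p k : ℝ) : ℂ) * vel r.2, r.2) := by
      rw [fwd_eq h1 h2]; push_cast; rfl
    set q := fwd A s p
    have hbq : bounce A q = (bounce A)^[k + 1] p := by
      rw [hq, bounce_shift hA hσ0 hσ, Function.iterate_succ_apply']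
    have hhit : ∀ m, hitTime A q (m + 1) = hitTime A p (k + 1 + m) - s := by
      intro m
      rw [add_comm m 1, hitTime_add q 1 m, hitTime_add p (k + 1) m, Function.iterate_one, hbq,
        hitTime_succ, hitTime_zero, hitTime_succ, Function.iterate_zero_apply, hq,
        freeTime_shift hA hσ0 hσ]
      ring
    rcases fwd_cases (A := A) q ht with ⟨m, h3, h4⟩ | h'
    · rcases m with _ | m
      · rw [fwd_eq h3 h4, hitTime_zero, Function.iterate_zero_apply]
        rw [hhit] at h4
        rw [fwd_eq (k := k) (by linarith) (by simpa using by linarith), hq, ← hr]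
        simp only [Prod.mk.injEq, and_true]
        push_cast; ring
      · rw [fwd_eq h3 h4]
        rw [hhit] at h3 h4
        rw [fwd_eq (k := k + 1 + m) (by linarith) (by rw [add_assoc (k + 1)]; linarith), hhit,
          Function.iterate_succ_apply, hbq, ← Function.iterate_add_apply, add_comm m (k + 1)]
        simp only [Prod.mk.injEq, and_true]
        push_cast; ring
    · rw [fwd_dead h', fwd_dead]
      intro m
      have h5 := h' (m + 1)
      rw [hhit] at h5
      have := hitTime_mono (A := A) p (show m ≤ k + 1 + m by omega)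
      linarith
  · rw [fwd_dead h, fwd_dead (fun k => (h k).trans (by linarith)),
      fwd_dead (fun k => by rw [hitTime_dead hA not_live_J]; exact ht)]

lemma fwd_mem (hA : AffineIndependent ℝ A) {t : ℝ} (ht : 0 ≤ t) (p : Ph) :
    (fwd A t p).1 ∈ TT A := by
  rcases fwd_cases (A := A) p ht with ⟨k, h1, h2⟩ | h
  · rw [fwd_eq h1 h2]
    have hσ0 : 0 ≤ t - hitTime A p k := by linarith
    have hσ : t - hitTime A p k < freeTime A ((bounce A)^[k] p) := by
      rw [hitTime_succ] at h2; linarith
    have := (live_shift hA hσ0 hσ).1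
    simpa using this
  · rw [fwd_dead h]; exact vertex_mem_TT 0

lemma norm_iterate_sub (p : Ph) (k : ℕ) : ‖((bounce A)^[k] p).1 - p.1‖ ≤ hitTime A p k := by
  induction k with
  | zero => simp [hitTime_zero]
  | succ k ih =>
    rw [Function.iterate_succ_apply', bounce_fst, hitTime_succ, add_sub_right_comm]
    refine (norm_add_le _ _).trans (add_le_add ih (le_of_eq ?_))
    rw [norm_mul, norm_vel, mul_one, Complex.norm_real, Real.norm_of_nonneg (freeTime_nonneg _)]

lemma del_fwd_le (hA : AffineIndependent ℝ A) {t : ℝ} (ht : 0 ≤ t) {p : Ph} (hp : p.1 ∈ TT A) :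
    del A (fwd A t p).1 ≤ del A p.1 + t := by
  rcases fwd_cases (A := A) p ht with ⟨k, h1, h2⟩ | h
  · refine (del_le_add hA _ p.1).trans (add_le_add le_rfl ?_)
    rw [fwd_eq h1 h2, add_sub_right_comm]
    refine (norm_add_le _ _).trans ?_
    have h3 : ‖((t : ℂ) - hitTime A p k) * vel ((bounce A)^[k] p).2‖ = t - hitTime A p k := by
      rw [norm_mul, norm_vel, mul_one, ← Complex.ofReal_sub, Complex.norm_real,
        Real.norm_of_nonneg (by linarith)]
    have := norm_iterate_sub (A := A) p k
    linarith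
  · rw [fwd_dead h]
    have := del_vertex_le (A := A) 0
    have := del_nonneg hA hp
    simp only
    linarith

lemma ell_line_ge (hA : AffineIndependent ℝ A) (i : Fin 3) (x : ℂ) {t : ℝ} (ht : 0 ≤ t)
    (θ : UnitAddCircle) : ell A i x - t ≤ ell A i (x + t * vel θ) := by
  rw [ell_line]
  have h1 := abs_nu_le hA i (vel θ)
  rw [norm_vel, abs_le] at h1
  nlinarith [h1.1]

lemma live_of_chart {x : ℂ} (hx : x ∈ TT A) {j : Fin 3} (h : ∀ i, i ≠ j → 0 < ell A i x)
    (θ : UnitAddCircle) : Live A (x, θ) := by
  refine ⟨hx, ?_⟩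
  rintro ⟨k, hk⟩
  simp only at hk
  by_cases hkj : k = j + 1
  · have := h _ (add_two_ne j)
    rw [← hk, hkj, ell_vertex_ne (add_two_ne_add_one j).symm] at this
    exact lt_irrefl _ this
  · have := h _ (add_one_ne j)
    rw [← hk, ell_vertex_ne hkj] at this
    exact lt_irrefl _ this

/-- local description of the flow away from the vertices -/
lemma fwd_local (hA : AffineIndependent ℝ A) {p : Ph} (hp : p.1 ∈ TT A) {j : Fin 3} {r u : ℝ}
    (hr : ∀ i, i ≠ j → r ≤ ell A i p.1) (hu : 0 ≤ u) (hur : u < r) :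
    (fwd A u p = (p.1 + u * vel p.2, p.2) ∧ 0 ≤ ell A j (p.1 + u * vel p.2)) ∨
    (fwd A u p = mirP A j (p.1 + u * vel p.2, p.2) ∧ ell A j (p.1 + u * vel p.2) ≤ 0) := by
  have hlive : Live A p := live_of_chart hp (fun i hi => by linarith [hr i hi]) p.2
  by_cases h : u < freeTime A p
  · left
    exact ⟨fwd_free hu h, (mem_TT hA).1 (mem_of_le_freeTime hA hp hu h.le) j⟩
  · right
    push Not at h
    set τ := freeTime A p with hτ
    have hτ0 : 0 ≤ τ := freeTime_nonneg p
    set y := p.1 + τ * vel p.2 with hy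
    have hyT : y ∈ TT A := (freeTime_mem_SS hp).2
    have hyi : ∀ i, i ≠ j → r - τ ≤ ell A i y := fun i hi => by
      have := ell_line_ge hA i p.1 hτ0 p.2
      linarith [hr i hi]
    have hmax : ∀ ε : ℝ, 0 < ε → ε ≤ r - τ → ell A j (y + ε * vel p.2) < 0 := by
      intro ε hε hε'
      by_contra hc
      push Not at hc
      have : y + ε * vel p.2 ∈ TT A := by
        rw [mem_TT hA]
        intro i
        by_cases hi : i = j
        · rwa [hi]
        · have := ell_line_ge hA i y hε.le p.2
          linarith [hyi i hi]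
      have := le_freeTime hlive (t := τ + ε) (by linarith)
        (by convert this using 1; rw [hy]; push_cast; ring)
      linarith
    have hyj0 := (mem_TT hA).1 hyT j
    have hyj : ell A j y = 0 := by
      by_contra hc
      have hpos : 0 < ell A j y := lt_of_le_of_ne hyj0 (Ne.symm hc)
      have h1 := hmax (min (ell A j y) (r - τ)) (lt_min hpos (by linarith)) (min_le_right _ _)
      have h2 := ell_line_ge hA j y (lt_min hpos (show 0 < r - τ by linarith)).le p.2
      have h3 := min_le_left (ell A j y) (r - τ)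
      linarith
    have hnu : nu A j (vel p.2) < 0 := by
      have h1 := hmax (r - τ) (by linarith) le_rfl
      rw [ell_line, hyj, zero_add] at h1
      by_contra hc
      push Not at hc
      have : 0 ≤ (r - τ) * nu A j (vel p.2) := mul_nonneg (by linarith) hc
      linarith
    have hside : y ∈ side A j := (mem_side hA).2 ⟨hyj, fun i hi => by linarith [hyi i hi]⟩
    have hb : bounce A p = (y, reflDir A j p.2) := bounce_side hA hside
    have hlive' : Live A (y, reflDir A j p.2) :=
      live_of_chart hyT (fun i hi => by linarith [hyi i hi]) _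
    have hfree : r - τ ≤ freeTime A (y, reflDir A j p.2) := by
      apply le_freeTime hlive' (by linarith)
      rw [mem_TT hA]
      intro i
      by_cases hi : i = j
      · rw [hi, ell_line, hyj, nu_vel_reflDir hA]
        have : 0 ≤ (r - τ) * -nu A j (vel p.2) := mul_nonneg (by linarith) (by linarith)
        linarith
      · have := ell_line_ge hA i y (show 0 ≤ r - τ by linarith) (reflDir A j p.2)
        linarith [hyi i hi]
    have h1 : hitTime A p 1 = τ := by rw [hitTime_succ, hitTime_zero, zero_add]; rfl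
    have hxu : p.1 + u * vel p.2 = y + ((u - τ : ℝ) : ℂ) * vel p.2 := by
      rw [hy]; push_cast; ring
    constructor
    · rw [fwd_eq (k := 1) (by rwa [h1])
        (by rw [hitTime_succ, h1, Function.iterate_one, hb]; linarith), h1, Function.iterate_one,
        hb, mirP, hxu, mir_line hA, mir_of_ell_zero hyj]
      push_cast; rfl
    · rw [hxu, ell_line, hyj, zero_add]
      exact mul_nonpos_of_nonneg_of_nonpos (by linarith) hnu.le

lemma freeTime_pos (hA : AffineIndependent ℝ A) {p : Ph} (hp : p.1 ∈ QQ A) :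
    0 < freeTime A p := by
  have h := (mem_QQ hA).1 hp
  have hl : Live A p := live_of_chart (interior_subset hp) (j := 0) (fun i _ => h i) p.2
  have h0 : 0 < min (ell A 0 p.1) (min (ell A 1 p.1) (ell A 2 p.1)) :=
    lt_min (h 0) (lt_min (h 1) (h 2))
  refine h0.trans_le (le_freeTime hl h0.le ?_)
  rw [mem_TT hA]
  intro i
  have := ell_line_ge hA i p.1 h0.le p.2
  have h1 := min_le_left (ell A 0 p.1) (min (ell A 1 p.1) (ell A 2 p.1))
  have h2 := min_le_right (ell A 0 p.1) (min (ell A 1 p.1) (ell A 2 p.1))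
  have h3 := min_le_left (ell A 1 p.1) (ell A 2 p.1)
  have h4 := min_le_right (ell A 1 p.1) (ell A 2 p.1)
  rcases fin3_cases i with rfl | rfl | rfl <;> linarith

lemma tendsto_fwd (hA : AffineIndependent ℝ A) {p : Ph} (hp : p.1 ∈ QQ A) :
    Tendsto (fun u => fwd A u p) (𝓝[≥] 0) (𝓝 p) := by
  have h1 : Tendsto (fun u : ℝ => ((p.1 + u * vel p.2, p.2) : Ph)) (𝓝[≥] 0) (𝓝 p) := by
    have : Continuous (fun u : ℝ => ((p.1 + u * vel p.2, p.2) : Ph)) := by fun_prop
    have h := this.tendsto 0
    simp only [ofReal_zero, zero_mul, add_zero, Prod.mk.eta] at h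
    exact h.mono_left nhdsWithin_le_nhds
  refine h1.congr' ?_
  filter_upwards [Ico_mem_nhdsGE (freeTime_pos hA hp)] with u hu
  exact (fwd_free hu.1 hu.2).symm

/-! ### measurability -/

lemma measurableSet_live : MeasurableSet {p : Ph | Live A p} :=
  (measurableSet_TT.preimage measurable_fst).inter
    ((finite_range A).measurableSet.preimage measurable_fst).compl

lemma measurable_freeTime (hA : AffineIndependent ℝ A) : Measurable (freeTime A) := by
  refine measurable_of_Ioi fun a => ?_
  rcases lt_or_ge a 0 with ha | ha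
  · have : freeTime A ⁻¹' Ioi a = univ :=
      eq_univ_of_forall fun p => ha.trans_le (freeTime_nonneg p)
    rw [this]; exact MeasurableSet.univ
  · have : freeTime A ⁻¹' Ioi a = {p : Ph | Live A p} ∩
        ⋃ q : ℚ, {p : Ph | a < q ∧ p.1 + ((q : ℝ) : ℂ) * vel p.2 ∈ TT A} := by
      ext p
      simp only [mem_preimage, mem_Ioi, mem_inter_iff, mem_ofPred_eq, mem_iUnion]
      constructor
      · intro h
        have hl := live_of_pos (ha.trans_lt h)
        obtain ⟨q, h1, h2⟩ := exists_rat_btwn h
        exact ⟨hl, q, h1, mem_of_le_freeTime hA hl.1 (by linarith) h2.le⟩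
      · rintro ⟨hl, q, h1, h2⟩
        exact h1.trans_le (le_freeTime hl (by linarith) h2)
    rw [this]
    refine measurableSet_live.inter (MeasurableSet.iUnion fun q => ?_)
    refine (MeasurableSet.const _).inter (measurableSet_TT.preimage ?_)
    have := continuous_vel
    fun_prop

lemma measurableSet_side (hA : AffineIndependent ℝ A) (j : Fin 3) : MeasurableSet (side A j) := by
  have : side A j = {x | ell A j x = 0} ∩ ⋂ i, {x | i ≠ j → 0 < ell A i x} := by
    ext x; simp [mem_side hA]
  rw [this]
  refine (measurableSet_eq_fun (continuous_ell j).measurable measurable_const).inter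
    (MeasurableSet.iInter fun i => ?_)
  by_cases h : i = j
  · simp [h]
  · simp only [ne_eq, h, not_false_eq_true, forall_const]
    exact measurableSet_lt measurable_const (continuous_ell i).measurable

lemma measurable_vel : Measurable vel := continuous_vel.measurable

lemma measurable_bounce (hA : AffineIndependent ℝ A) : Measurable (bounce A) := by
  have h1 : Measurable fun p : Ph => p.1 + freeTime A p * vel p.2 := by
    have := measurable_freeTime hA
    have := measurable_vel
    fun_prop
  have h2 : ∀ j, Measurable fun p : Ph => reflDir A j p.2 := fun j =>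
    (continuous_reflDir j).measurable.comp measurable_snd
  unfold bounce
  refine h1.prodMk ?_
  refine Measurable.ite ((measurableSet_side hA 0).preimage h1) (h2 0) ?_
  refine Measurable.ite ((measurableSet_side hA 1).preimage h1) (h2 1) ?_
  exact Measurable.ite ((measurableSet_side hA 2).preimage h1) (h2 2) measurable_snd

lemma measurable_hitTime (hA : AffineIndependent ℝ A) (k : ℕ) :
    Measurable fun p => hitTime A p k := by
  unfold hitTime
  exact Finset.measurable_sum _ fun i _ =>
    (measurable_freeTime hA).comp ((measurable_bounce hA).iterate i)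

lemma measurable_fwd (hA : AffineIndependent ℝ A) {t : ℝ} (ht : 0 ≤ t) :
    Measurable (fwd A t) := by
  intro B hB
  let g : ℕ → Ph → Ph := fun k p =>
    (((bounce A)^[k] p).1 + (t - hitTime A p k) * vel ((bounce A)^[k] p).2, ((bounce A)^[k] p).2)
  have hg : ∀ k, Measurable (g k) := by
    intro k
    have h1 := (measurable_bounce hA).iterate k
    have h2 := measurable_hitTime hA k
    have := measurable_vel
    fun_prop
  have : fwd A t ⁻¹' B = (⋃ k, {p | hitTime A p k ≤ t} ∩ {p | t < hitTime A p (k + 1)} ∩ g k ⁻¹' B)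
      ∪ ((⋂ k, {p | hitTime A p k ≤ t}) ∩ (fun _ => ((A 0, 0) : Ph)) ⁻¹' B) := by
    ext p
    simp only [mem_preimage, mem_union, mem_iUnion, mem_inter_iff, mem_ofPred_eq, mem_iInter]
    constructor
    · intro h
      rcases fwd_cases (A := A) p ht with ⟨k, h1, h2⟩ | h1
      · left; rw [fwd_eq h1 h2] at h; exact ⟨k, ⟨h1, h2⟩, h⟩
      · right; rw [fwd_dead h1] at h; exact ⟨h1, h⟩
    · rintro (⟨k, ⟨h1, h2⟩, h⟩ | ⟨h1, h⟩)
      · rw [fwd_eq h1 h2]; exact h
      · rw [fwd_dead h1]; exact h
  rw [this]
  refine (MeasurableSet.iUnion fun k => ?_).union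
    ((MeasurableSet.iInter fun k => ?_).inter (measurable_const hB))
  · exact ((measurableSet_le (measurable_hitTime hA k) measurable_const).inter
      (measurableSet_lt measurable_const (measurable_hitTime hA (k + 1)))).inter (hg k hB)
  · exact measurableSet_le (measurable_hitTime hA k) measurable_const

end Vale.Agent.P099
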