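import Vale.Agent.P099.Geom

open MeasureTheory Set Complex Filter Topology
open scoped Real ComplexConjugate InnerProductSpace

noncomputable section

namespace Vale.Agent.P099

/-- a contraction family `V` with a smoothing operator `W` and `W' = d/du W V u` at `0` -/
structure Gen (H : Type) [NormedAddCommGroup H] [InnerProductSpace ℂ H] where
  V : ℝ → H →L[ℂ] H
  W : H →L[ℂ] H
  W' : H →L[ℂ] H
  norm_V : ∀ u, 0 < u → ∀ a, ‖V u a‖ ≤ ‖a‖
  cont : ∀ a, Tendsto (fun u => V u a) (𝓝[>] 0) (𝓝 a)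
  deriv : ∀ a, Tendsto (fun u : ℝ => (u⁻¹ : ℝ) • (W (V u a) - W a)) (𝓝[>] 0) (𝓝 (W' a))
  skew : ∀ a b, ⟪W' a, W b⟫_ℂ + ⟪W a, W' b⟫_ℂ = 0

/-- every bounded equivariant Hilbert valued function is constant after smoothing -/
def Rigid {X : Type} [MeasurableSpace X] (Φ : ℝ → X → X) (μ : Measure X) : Prop :=
  ∀ (H : Type) [NormedAddCommGroup H] [InnerProductSpace ℂ H] [CompleteSpace H]
    [SecondCountableTopology H] (G : Gen H) (f : X → H), StronglyMeasurable f →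
    (∀ p, ‖f p‖ ≤ 1) → (∀ u, 0 < u → ∀ᵐ p ∂μ, f p = G.V u (f (Φ u p))) →
    ∃ c, ∀ᵐ p ∂μ, G.W (f p) = c

end Vale.Agent.P099
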