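import Vale.Agent.P099.Defs

open MeasureTheory Set Complex
open scoped Real ComplexConjugate

noncomputable section

namespace Vale.Agent.P099

abbrev Ph := ℂ × UnitAddCircle

/-- closed triangle -/
abbrev TT (A : Fin 3 → ℂ) : Set ℂ := convexHull ℝ (range A)

/-- open triangle -/
abbrev QQ (A : Fin 3 → ℂ) : Set ℂ := interior (convexHull ℝ (range A))

def edge (A : Fin 3 → ℂ) (j : Fin 3) : ℂ := A (j + 2) - A (j + 1)

def udir (A : Fin 3 → ℂ) (j : Fin 3) : ℂ := edge A j / ‖edge A j‖

/-- inward unit normal of side `j` -/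
def nrm (A : Fin 3 → ℂ) (j : Fin 3) : ℂ :=
  if 0 < ((A j - A (j + 1)) * conj (I * udir A j)).re then I * udir A j else -(I * udir A j)

/-- normal component of a vector -/
def nu (A : Fin 3 → ℂ) (j : Fin 3) (v : ℂ) : ℝ := (v * conj (nrm A j)).re

/-- signed distance to the line of side `j`, positive inside -/
def ell (A : Fin 3 → ℂ) (j : Fin 3) (x : ℂ) : ℝ := nu A j (x - A (j + 1))

/-- mirror reflection in the line of side `j` -/
def mir (A : Fin 3 → ℂ) (j : Fin 3) (x : ℂ) : ℂ := x - 2 * (ell A j x : ℂ) * nrm A j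

/-- reflection of phase points -/
def mirP (A : Fin 3 → ℂ) (j : Fin 3) (p : Ph) : Ph := (mir A j p.1, reflDir A j p.2)

/-- the unimodular constant of side `j` -/
def cc (A : Fin 3 → ℂ) (j : Fin 3) : ℂ := -(nrm A j) ^ 2

variable {A : Fin 3 → ℂ}

lemma fin3_cases (j : Fin 3) : j = 0 ∨ j = 1 ∨ j = 2 := by
  fin_cases j <;> simp

lemma ne_cases {i j : Fin 3} (h : i ≠ j) : i = j + 1 ∨ i = j + 2 := by
  revert i j; decide

lemma add_one_ne (j : Fin 3) : j + 1 ≠ j := by revert j; decide
lemma add_two_ne (j : Fin 3) : j + 2 ≠ j := by revert j; decide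
lemma add_two_ne_add_one (j : Fin 3) : j + 2 ≠ j + 1 := by revert j; decide

lemma norm_vel (θ : UnitAddCircle) : ‖vel θ‖ = 1 := Circle.norm_coe _

lemma vel_eq_fourier (θ : UnitAddCircle) : vel θ = fourier 1 θ := by
  rw [fourier_one]; rfl

lemma continuous_vel : Continuous vel := by
  unfold vel
  exact continuous_subtype_val.comp AddCircle.continuous_toCircle

lemma vel_add (a b : UnitAddCircle) : vel (a + b) = vel a * vel b := by
  simp [vel, AddCircle.toCircle_add]

lemma vel_neg (a : UnitAddCircle) : vel (-a) = conj (vel a) := by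
  rw [vel_eq_fourier, vel_eq_fourier, ← fourier_neg]
  simp

lemma vel_coe (x : ℝ) : vel (x : UnitAddCircle) = Complex.exp (2 * π * x * I) := by
  simp [vel, AddCircle.toCircle_apply_mk, Circle.coe_exp]

lemma vel_half : vel ((1 / 2 : ℝ) : UnitAddCircle) = -1 := by
  rw [vel_coe]
  have : (2 * π * ((1 / 2 : ℝ) : ℂ) * I : ℂ) = π * I := by push_cast; ring
  rw [this, Complex.exp_pi_mul_I]

lemma vel_rev (p : Ph) : vel (rev p).2 = -vel p.2 := by
  simp only [rev, vel_add, vel_half]; ring

lemma half_add_half : ((1 / 2 : ℝ) : UnitAddCircle) + ((1 / 2 : ℝ) : UnitAddCircle) = 0 := by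
  rw [← AddCircle.coe_add]
  norm_num

lemma rev_rev (p : Ph) : rev (rev p) = p := by
  simp only [rev, add_assoc, half_add_half, add_zero]

lemma edge_ne_zero (hA : AffineIndependent ℝ A) (j : Fin 3) : edge A j ≠ 0 := by
  intro h
  exact add_two_ne_add_one j (hA.injective (sub_eq_zero.1 h))

lemma norm_udir (hA : AffineIndependent ℝ A) (j : Fin 3) : ‖udir A j‖ = 1 := by
  have := edge_ne_zero hA j
  simp [udir, this]

lemma norm_nrm (hA : AffineIndependent ℝ A) (j : Fin 3) : ‖nrm A j‖ = 1 := by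
  unfold nrm
  split_ifs <;> simp [norm_udir hA j]

lemma nrm_mul_conj (hA : AffineIndependent ℝ A) (j : Fin 3) : nrm A j * conj (nrm A j) = 1 := by
  rw [Complex.mul_conj, Complex.normSq_eq_norm_sq, norm_nrm hA]; simp

lemma cc_eq_udir (j : Fin 3) : cc A j = udir A j ^ 2 := by
  unfold cc nrm
  split_ifs <;> simp [mul_pow]

lemma norm_cc (hA : AffineIndependent ℝ A) (j : Fin 3) : ‖cc A j‖ = 1 := by
  simp [cc, norm_nrm hA]

lemma nu_add (j : Fin 3) (v w : ℂ) : nu A j (v + w) = nu A j v + nu A j w := by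
  simp [nu, add_mul]

lemma nu_sub (j : Fin 3) (v w : ℂ) : nu A j (v - w) = nu A j v - nu A j w := by
  simp [nu, sub_mul]

lemma nu_neg (j : Fin 3) (v : ℂ) : nu A j (-v) = -nu A j v := by
  simp [nu]

lemma nu_smul (j : Fin 3) (t : ℝ) (v : ℂ) : nu A j (t * v) = t * nu A j v := by
  simp only [nu, mul_assoc, re_ofReal_mul]

lemma nu_nrm (hA : AffineIndependent ℝ A) (j : Fin 3) : nu A j (nrm A j) = 1 := by
  simp [nu, nrm_mul_conj hA]

lemma nu_eq (j : Fin 3) (v : ℂ) : nu A j v = v.re * (nrm A j).re + v.im * (nrm A j).im := by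
  simp [nu]

lemma abs_nu_le (hA : AffineIndependent ℝ A) (j : Fin 3) (v : ℂ) : |nu A j v| ≤ ‖v‖ := by
  refine (Complex.abs_re_le_norm _).trans ?_
  simp [norm_nrm hA]

lemma nu_edge (j : Fin 3) : nu A j (edge A j) = 0 := by
  have h : (edge A j * conj (I * udir A j)).re = 0 := by
    simp only [udir, map_mul, conj_I, map_div₀, conj_ofReal]
    have : edge A j * (-I * (conj (edge A j) / (‖edge A j‖ : ℂ)))
        = -I * ((normSq (edge A j) / ‖edge A j‖ : ℝ) : ℂ) := by
      push_cast; rw [← Complex.mul_conj]; ring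
    rw [this]; simp only [neg_mul, neg_re, mul_re, I_re, ofReal_re, I_im, ofReal_im]; ring
  unfold nu nrm
  split_ifs
  · exact h
  · rw [map_neg, mul_neg, neg_re, h, neg_zero]

lemma ell_add (j : Fin 3) (x v : ℂ) : ell A j (x + v) = ell A j x + nu A j v := by
  unfold ell; rw [← nu_add]; congr 1; ring

lemma ell_line (j : Fin 3) (x v : ℂ) (t : ℝ) :
    ell A j (x + t * v) = ell A j x + t * nu A j v := by
  rw [ell_add, nu_smul]

lemma ell_sub (j : Fin 3) (x y : ℂ) : ell A j x - ell A j y = nu A j (x - y) := by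
  have := ell_add (A := A) j y (x - y)
  rw [add_sub_cancel] at this
  linarith

lemma abs_ell_sub_le (hA : AffineIndependent ℝ A) (j : Fin 3) (x y : ℂ) :
    |ell A j x - ell A j y| ≤ ‖x - y‖ := by
  rw [ell_sub]; exact abs_nu_le hA j _

lemma ell_le_add (hA : AffineIndependent ℝ A) (j : Fin 3) (x y : ℂ) :
    ell A j x ≤ ell A j y + ‖x - y‖ := by
  have := abs_ell_sub_le hA j x y
  have := le_abs_self (ell A j x - ell A j y)
  linarith

lemma continuous_nu (j : Fin 3) : Continuous (nu A j) := by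
  unfold nu; fun_prop

lemma continuous_ell (j : Fin 3) : Continuous (ell A j) := by
  unfold ell; exact (continuous_nu j).comp (by fun_prop)

lemma ell_vertex_ne {i j : Fin 3} (h : i ≠ j) : ell A j (A i) = 0 := by
  rcases ne_cases h with rfl | rfl
  · simp [ell, nu]
  · exact nu_edge j

lemma ell_comb (j : Fin 3) (c : Fin 3 → ℝ) (hc : ∑ i, c i = 1) :
    ell A j (∑ i, c i • A i) = c j * ell A j (A j) := by
  have h1 : ∑ i, c i • A i - A (j + 1) = ∑ i, (c i : ℂ) * (A i - A (j + 1)) := by
    simp only [mul_sub, Finset.sum_sub_distrib, ← Finset.sum_mul, real_smul]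
    rw [← Complex.ofReal_sum, hc]; simp
  have h2 : ∀ i, nu A j ((c i : ℂ) * (A i - A (j + 1))) = c i * ell A j (A i) := fun i =>
    nu_smul j _ _
  rw [ell, h1, Fin.sum_univ_three, nu_add, nu_add, h2, h2, h2]
  rcases fin3_cases j with rfl | rfl | rfl <;> simp [ell_vertex_ne]

/-- the affine basis given by the vertices -/
def abasis (hA : AffineIndependent ℝ A) : AffineBasis (Fin 3) ℝ ℂ :=
  ⟨A, hA, (hA.affineSpan_eq_top_iff_card_eq_finrank_add_one).2 (by simp)⟩

lemma ell_eq_coord (hA : AffineIndependent ℝ A) (j : Fin 3) (x : ℂ) :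
    ell A j x = (abasis hA).coord j x * ell A j (A j) := by
  have h := (abasis hA).linear_combination_coord_eq_self x
  have h2 := ell_comb (A := A) j (fun i => (abasis hA).coord i x)
    ((abasis hA).sum_coord_apply_eq_one x)
  have h3 : ∑ i, (abasis hA).coord i x • A i = x := h
  rwa [h3] at h2

lemma ell_self_pos (hA : AffineIndependent ℝ A) (j : Fin 3) : 0 < ell A j (A j) := by
  have hne : ell A j (A j) ≠ 0 := by
    intro h
    have h1 := ell_eq_coord hA j (A (j + 1) + nrm A j)
    rw [h, mul_zero, ell_add, ell_vertex_ne (add_one_ne j), nu_nrm hA] at h1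
    norm_num at h1
  unfold ell nu nrm at *
  split_ifs at * with h
  · exact h
  · rw [map_neg, mul_neg, neg_re] at *
    push Not at h
    rcases h.lt_or_eq with h | h
    · linarith
    · exact absurd (by rw [h]; simp) hne

lemma mem_TT (hA : AffineIndependent ℝ A) {x : ℂ} : x ∈ TT A ↔ ∀ j, 0 ≤ ell A j x := by
  have h := (abasis hA).convexHull_eq_nonneg_coord
  have h' : TT A = {x | ∀ i, 0 ≤ (abasis hA).coord i x} := h
  rw [h', mem_ofPred_eq]
  refine forall_congr' fun j => ?_
  rw [ell_eq_coord hA j x, mul_nonneg_iff_of_pos_right (ell_self_pos hA j)]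

lemma mem_QQ (hA : AffineIndependent ℝ A) {x : ℂ} : x ∈ QQ A ↔ ∀ j, 0 < ell A j x := by
  have h := (abasis hA).interior_convexHull
  have h' : QQ A = {x | ∀ i, 0 < (abasis hA).coord i x} := h
  rw [h', mem_ofPred_eq]
  refine forall_congr' fun j => ?_
  rw [ell_eq_coord hA j x, mul_pos_iff_of_pos_right (ell_self_pos hA j)]

lemma bary (hA : AffineIndependent ℝ A) (j : Fin 3) (x : ℂ) :
    x - A j = (ell A (j + 1) x / ell A (j + 1) (A (j + 1)) : ℝ) * (A (j + 1) - A j)
      + (ell A (j + 2) x / ell A (j + 2) (A (j + 2)) : ℝ) * (A (j + 2) - A j) := by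
  have h := (abasis hA).linear_combination_coord_eq_self x
  have h3 : ∑ i, (abasis hA).coord i x • A i = x := h
  have h4 := (abasis hA).sum_coord_apply_eq_one x
  have h5 : ∀ i, ell A i x / ell A i (A i) = (abasis hA).coord i x := fun i => by
    rw [ell_eq_coord hA i x, mul_div_assoc, div_self (ell_self_pos hA i).ne', mul_one]
  rw [h5, h5]
  simp only [Fin.sum_univ_three, real_smul] at h3 h4
  have h6 := congrArg (fun r : ℝ => (r : ℂ)) h4
  simp only [ofReal_add, ofReal_one] at h6
  rcases fin3_cases j with rfl | rfl | rfl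
  · simp only [Fin.isValue, zero_add]
    linear_combination -h3 + A 0 * h6
  · have e1 : (1 : Fin 3) + 1 = 2 := rfl
    have e2 : (1 : Fin 3) + 2 = 0 := rfl
    rw [e1, e2]
    linear_combination -h3 + A 1 * h6
  · have e1 : (2 : Fin 3) + 1 = 0 := rfl
    have e2 : (2 : Fin 3) + 2 = 1 := rfl
    rw [e1, e2]
    linear_combination -h3 + A 2 * h6

lemma sum_bary (hA : AffineIndependent ℝ A) (j : Fin 3) (x : ℂ) :
    ell A j x / ell A j (A j) + ell A (j + 1) x / ell A (j + 1) (A (j + 1))
      + ell A (j + 2) x / ell A (j + 2) (A (j + 2)) = 1 := by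
  have h4 := (abasis hA).sum_coord_apply_eq_one x
  have h5 : ∀ i, ell A i x / ell A i (A i) = (abasis hA).coord i x := fun i => by
    rw [ell_eq_coord hA i x, mul_div_assoc, div_self (ell_self_pos hA i).ne', mul_one]
  rw [h5, h5, h5]
  simp only [Fin.sum_univ_three] at h4
  rcases fin3_cases j with rfl | rfl | rfl
  · simpa using h4
  · have e1 : (1 : Fin 3) + 1 = 2 := rfl
    have e2 : (1 : Fin 3) + 2 = 0 := rfl
    rw [e1, e2]; linarith
  · have e1 : (2 : Fin 3) + 1 = 0 := rfl
    have e2 : (2 : Fin 3) + 2 = 1 := rfl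
    rw [e1, e2]; linarith

lemma eq_vertex (hA : AffineIndependent ℝ A) {j : Fin 3} {x : ℂ}
    (h : ∀ i, i ≠ j → ell A i x = 0) : x = A j := by
  have := bary hA j x
  rw [h _ (add_one_ne j), h _ (add_two_ne j)] at this
  simpa [sub_eq_zero] using this

lemma vertex_mem_TT (j : Fin 3) : A j ∈ TT A := subset_convexHull _ _ (mem_range_self j)

lemma mem_side (hA : AffineIndependent ℝ A) {j : Fin 3} {x : ℂ} :
    x ∈ side A j ↔ ell A j x = 0 ∧ ∀ i, i ≠ j → 0 < ell A i x := by
  have hp1 := ell_self_pos hA (j + 1)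
  have hp2 := ell_self_pos hA (j + 2)
  have e1 : ell A (j + 1) (A (j + 2)) = 0 := ell_vertex_ne (add_two_ne_add_one j)
  have e2 : ell A (j + 2) (A (j + 1)) = 0 := ell_vertex_ne (add_two_ne_add_one j).symm
  constructor
  · rintro ⟨a, b, ha, hb, hab, rfl⟩
    have key : ∀ i, ell A i (a • A (j + 1) + b • A (j + 2))
        = a * ell A i (A (j + 1)) + b * ell A i (A (j + 2)) := by
      intro i
      have : a • A (j + 1) + b • A (j + 2) = A (j + 1) + b * (A (j + 2) - A (j + 1)) := by
        have : a = 1 - b := by linarith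
        subst this; simp only [real_smul]; push_cast; ring
      rw [this, ell_line, ← ell_sub]
      have : a = 1 - b := by linarith
      subst this; ring
    refine ⟨?_, fun i hi => ?_⟩
    · rw [key, ell_vertex_ne (add_one_ne j), ell_vertex_ne (add_two_ne j)]; simp
    · rcases ne_cases hi with rfl | rfl
      · rw [key, e1]; positivity
      · rw [key, e2]; positivity
  · rintro ⟨h0, h⟩
    have hb := bary hA j x
    have hs := sum_bary hA j x
    rw [h0, zero_div, zero_add] at hs
    refine ⟨_, _, div_pos (h _ (add_one_ne j)) hp1, div_pos (h _ (add_two_ne j)) hp2, hs, ?_⟩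
    have hs' := congrArg (fun r : ℝ => (r : ℂ)) hs
    simp only [ofReal_add, ofReal_one] at hs'
    simp only [real_smul]
    linear_combination -hb + A j * hs'

lemma side_subset_TT (hA : AffineIndependent ℝ A) {j : Fin 3} {x : ℂ} (hx : x ∈ side A j) :
    x ∈ TT A := by
  rw [mem_side hA] at hx
  rw [mem_TT hA]
  intro i
  by_cases h : i = j
  · subst h; exact hx.1.ge
  · exact (hx.2 i h).le

lemma isCompact_TT : IsCompact (TT A) := (finite_range A).isCompact_convexHull ℝ

lemma measurableSet_TT : MeasurableSet (TT A) := isCompact_TT.measurableSet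

lemma measurableSet_QQ : MeasurableSet (QQ A) := isOpen_interior.measurableSet

lemma convex_TT : Convex ℝ (TT A) := convex_convexHull _ _

lemma QQ_ae_eq_TT : (QQ A : Set ℂ) =ᵐ[volume] TT A :=
  interior_ae_eq_of_null_frontier (convex_TT.addHaar_frontier volume)

lemma QQ_nonempty (hA : AffineIndependent ℝ A) : (QQ A).Nonempty :=
  ⟨_, (abasis hA).centroid_mem_interior_convexHull⟩

lemma vol_QQ_pos (hA : AffineIndependent ℝ A) : 0 < volume (QQ A) :=
  isOpen_interior.measure_pos _ (QQ_nonempty hA)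

lemma vol_QQ_lt_top : volume (QQ A) < ⊤ :=
  (measure_mono interior_subset).trans_lt isCompact_TT.measure_lt_top

/-! ### reflections -/

lemma ell_mir (hA : AffineIndependent ℝ A) (j : Fin 3) (x : ℂ) :
    ell A j (mir A j x) = -ell A j x := by
  have : mir A j x = x + ((-2 * ell A j x : ℝ) : ℂ) * nrm A j := by
    unfold mir; push_cast; ring
  rw [this, ell_line, nu_nrm hA]; ring

lemma mir_mir (hA : AffineIndependent ℝ A) (j : Fin 3) (x : ℂ) : mir A j (mir A j x) = x := by
  rw [mir, ell_mir hA]; unfold mir; push_cast; ring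

lemma mir_of_ell_zero {j : Fin 3} {x : ℂ} (h : ell A j x = 0) : mir A j x = x := by
  simp [mir, h]

lemma norm_mir_sub_self (hA : AffineIndependent ℝ A) (j : Fin 3) (x : ℂ) :
    ‖mir A j x - x‖ = 2 * |ell A j x| := by
  simp [mir, norm_nrm hA]

lemma refl_vec (hA : AffineIndependent ℝ A) (j : Fin 3) (v : ℂ) :
    v - 2 * (nu A j v : ℂ) * nrm A j = cc A j * conj v := by
  have h := nrm_mul_conj hA j
  have h2 : (2 * (nu A j v : ℂ)) = v * conj (nrm A j) + conj v * nrm A j := by
    rw [nu, Complex.re_eq_add_conj]; simp; ring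
  rw [h2, cc]
  linear_combination -v * h

lemma mir_add (hA : AffineIndependent ℝ A) (j : Fin 3) (x v : ℂ) :
    mir A j (x + v) = mir A j x + cc A j * conj v := by
  rw [← refl_vec hA, mir, mir, ell_add]; push_cast; ring

lemma mir_sub (hA : AffineIndependent ℝ A) (j : Fin 3) (x y : ℂ) :
    mir A j x - mir A j y = cc A j * conj (x - y) := by
  have := mir_add hA j y (x - y)
  rw [add_sub_cancel] at this
  rw [this]; ring

lemma norm_mir_sub (hA : AffineIndependent ℝ A) (j : Fin 3) (x y : ℂ) :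
    ‖mir A j x - mir A j y‖ = ‖x - y‖ := by
  rw [mir_sub hA, norm_mul, norm_cc hA, one_mul, Complex.norm_conj]

lemma vel_reflDir (hA : AffineIndependent ℝ A) (j : Fin 3) (θ : UnitAddCircle) :
    vel (reflDir A j θ) = cc A j * conj (vel θ) := by
  rw [reflDir, sub_eq_add_neg, vel_add, vel_neg, vel_coe, cc_eq_udir]
  congr 1
  have hne := edge_ne_zero hA j
  have h1 : udir A j = Complex.exp (arg (edge A j) * I) := by
    have := Complex.norm_mul_exp_arg_mul_I (edge A j)
    have hn : ((‖edge A j‖ : ℝ) : ℂ) ≠ 0 := by simpa using hne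
    rw [udir, div_eq_iff hn, mul_comm]; exact this.symm
  rw [h1, ← Complex.exp_nat_mul]
  congr 1
  have hpi : (π : ℂ) ≠ 0 := by simp
  rw [edge]; push_cast; field_simp

lemma reflDir_reflDir (j : Fin 3) (θ : UnitAddCircle) : reflDir A j (reflDir A j θ) = θ := by
  simp [reflDir]

lemma mirP_mirP (hA : AffineIndependent ℝ A) (j : Fin 3) (p : Ph) :
    mirP A j (mirP A j p) = p := by
  simp [mirP, mir_mir hA, reflDir_reflDir]

lemma mir_line (hA : AffineIndependent ℝ A) (j : Fin 3) (x : ℂ) (t : ℝ) (θ : UnitAddCircle) :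
    mir A j (x + t * vel θ) = mir A j x + t * vel (reflDir A j θ) := by
  rw [mir_add hA, vel_reflDir hA]; simp; ring

lemma nu_vel_reflDir (hA : AffineIndependent ℝ A) (j : Fin 3) (θ : UnitAddCircle) :
    nu A j (vel (reflDir A j θ)) = -nu A j (vel θ) := by
  have h1 := ell_mir hA j (0 + (1 : ℝ) * vel θ)
  rw [mir_line hA, ell_line, ell_line, ell_mir hA] at h1
  linarith

lemma rev_mirP (j : Fin 3) (p : Ph) : rev (mirP A j p) = mirP A j (rev p) := by
  simp only [rev, mirP, reflDir, Prod.mk.injEq, true_and]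
  have := half_add_half
  have h2 : ((1 / 2 : ℝ) : UnitAddCircle) = -((1 / 2 : ℝ) : UnitAddCircle) :=
    eq_neg_of_add_eq_zero_left this
  nth_rewrite 1 [h2]
  abel

/-- points on the same side of the mirror are closer than the mirror image -/
lemma norm_sub_le_mir (hA : AffineIndependent ℝ A) (j : Fin 3) {x y : ℂ}
    (h : 0 ≤ ell A j x * ell A j y) : ‖x - y‖ ≤ ‖mir A j x - y‖ := by
  have h1 : mir A j x - y = (x - y) - ((2 * ell A j x : ℝ) : ℂ) * nrm A j := by
    unfold mir; push_cast; ring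
  have hn : (nrm A j).re ^ 2 + (nrm A j).im ^ 2 = 1 := by
    have := norm_nrm hA j
    rw [Complex.norm_eq_sqrt_sq_add_sq, Real.sqrt_eq_one] at this
    exact this
  have h2 := ell_sub (A := A) j x y
  rw [nu_eq] at h2
  rw [h1, Complex.norm_eq_sqrt_sq_add_sq, Complex.norm_eq_sqrt_sq_add_sq]
  apply Real.sqrt_le_sqrt
  simp only [sub_re, sub_im, mul_re, mul_im, ofReal_re, ofReal_im] at *
  set a := x.re - y.re
  set b := x.im - y.im
  set l := ell A j x
  have : (a - (2 * l * (nrm A j).re - 0 * (nrm A j).im)) ^ 2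
      + (b - (2 * l * (nrm A j).im + 0 * (nrm A j).re)) ^ 2
      = a ^ 2 + b ^ 2 + 4 * (l * ell A j y) := by
    linear_combination (4 * l ^ 2) * hn + (4 * l) * h2
  rw [this]; linarith

lemma fourier_reflDir (hA : AffineIndependent ℝ A) (j : Fin 3) (n : ℤ) (θ : UnitAddCircle) :
    fourier n (reflDir A j θ) = cc A j ^ n * fourier (-n) θ := by
  have h : ∀ (m : ℤ) (x : UnitAddCircle), fourier m x = vel x ^ m := by
    intro m x
    rw [fourier_apply, AddCircle.toCircle_zsmul]; simp [vel]
  rw [h, h, vel_reflDir hA, mul_zpow, zpow_neg, ← inv_zpow]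
  congr 2
  rw [Complex.inv_def, Complex.normSq_eq_norm_sq, norm_vel]; simp

lemma continuous_mir (j : Fin 3) : Continuous (mir A j) := by
  unfold mir
  have := continuous_ell (A := A) j
  fun_prop

lemma continuous_reflDir (j : Fin 3) : Continuous (reflDir A j) := by
  unfold reflDir; fun_prop

lemma continuous_mirP (j : Fin 3) : Continuous (mirP A j) := by
  unfold mirP
  exact ((continuous_mir j).comp continuous_fst).prodMk ((continuous_reflDir j).comp continuous_snd)

lemma measurePreserving_reflDir (j : Fin 3) :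
    MeasurePreserving (reflDir A j) AddCircle.haarAddCircle AddCircle.haarAddCircle :=
  Measure.measurePreserving_sub_left _ _

lemma measurePreserving_mir (hA : AffineIndependent ℝ A) (j : Fin 3) :
    MeasurePreserving (mir A j) volume volume := by
  have h1 : mir A j = fun x => mir A j 0 + cc A j * conj x := by
    ext x; rw [← mir_add hA]; simp
  rw [h1]
  have hc : MeasurePreserving (fun x : ℂ => conj x) volume volume :=
    Complex.conjLIE.measurePreserving
  have hm : MeasurePreserving (fun x : ℂ => cc A j * x) volume volume := by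
    let z : Circle := ⟨cc A j, by simp [Submonoid.unitSphere, norm_cc hA]⟩
    exact (rotation z).measurePreserving
  exact (measurePreserving_add_left volume (mir A j 0)).comp (hm.comp hc)

/-- distance-like function to the vertex set: second smallest of the `ell`s -/
def del (A : Fin 3 → ℂ) (x : ℂ) : ℝ :=
  min (max (ell A 1 x) (ell A 2 x)) (min (max (ell A 0 x) (ell A 2 x)) (max (ell A 0 x) (ell A 1 x)))

lemma continuous_del : Continuous (del A) := by
  unfold del
  have := continuous_ell (A := A)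
  fun_prop

lemma exists_chart {x : ℂ} {r : ℝ} (h : r ≤ del A x) : ∃ j, ∀ i, i ≠ j → r ≤ ell A i x := by
  simp only [del, le_min_iff, le_max_iff] at h
  by_cases h0 : r ≤ ell A 0 x
  · by_cases h1 : r ≤ ell A 1 x
    · refine ⟨2, fun i hi => ?_⟩
      rcases fin3_cases i with rfl | rfl | rfl <;> simp_all
    · refine ⟨1, fun i hi => ?_⟩
      rcases fin3_cases i with rfl | rfl | rfl <;> simp_all
  · refine ⟨0, fun i hi => ?_⟩
    rcases fin3_cases i with rfl | rfl | rfl <;> simp_all

lemma exists_of_del_lt {x : ℂ} {r : ℝ} (h : del A x < r) : ∃ j, ∀ i, i ≠ j → ell A i x < r := by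
  simp only [del, min_lt_iff, max_lt_iff] at h
  rcases h with h | h | h
  · refine ⟨0, fun i hi => ?_⟩
    rcases fin3_cases i with rfl | rfl | rfl <;> simp_all
  · refine ⟨1, fun i hi => ?_⟩
    rcases fin3_cases i with rfl | rfl | rfl <;> simp_all
  · refine ⟨2, fun i hi => ?_⟩
    rcases fin3_cases i with rfl | rfl | rfl <;> simp_all

lemma del_le_add (hA : AffineIndependent ℝ A) (x y : ℂ) : del A x ≤ del A y + ‖x - y‖ := by
  have h0 := ell_le_add hA 0 x y
  have h1 := ell_le_add hA 1 x y
  have h2 := ell_le_add hA 2 x y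
  unfold del
  rw [← min_add_add_right, ← min_add_add_right, ← max_add_add_right, ← max_add_add_right,
    ← max_add_add_right]
  gcongr

lemma del_nonneg (hA : AffineIndependent ℝ A) {x : ℂ} (hx : x ∈ TT A) : 0 ≤ del A x := by
  rw [mem_TT hA] at hx
  simp only [del, le_min_iff, le_max_iff]
  exact ⟨Or.inl (hx 1), Or.inl (hx 0), Or.inl (hx 0)⟩

lemma del_vertex_le (j : Fin 3) : del A (A j) ≤ 0 := by
  simp only [del, min_le_iff, max_le_iff]
  rcases fin3_cases j with rfl | rfl | rfl <;> simp [ell_vertex_ne]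

lemma exists_vertex_const (hA : AffineIndependent ℝ A) :
    ∃ C : ℝ, 0 < C ∧ ∀ x ∈ TT A, ∀ r, del A x < r → ∃ j, ‖x - A j‖ ≤ C * r := by
  let c : Fin 3 → ℝ := fun j => ‖A (j + 1) - A j‖ / ell A (j + 1) (A (j + 1))
    + ‖A (j + 2) - A j‖ / ell A (j + 2) (A (j + 2))
  have hc : ∀ j, 0 ≤ c j := fun j => by
    have := ell_self_pos hA (j + 1)
    have := ell_self_pos hA (j + 2)
    positivity
  refine ⟨1 + ∑ j, c j, by have := Finset.sum_nonneg (fun j (_ : j ∈ Finset.univ) => hc j); linarith,
    fun x hx r hr => ?_⟩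
  obtain ⟨j, hj⟩ := exists_of_del_lt hr
  have hr0 : 0 ≤ r := ((del_nonneg hA hx).trans_lt hr).le
  rw [mem_TT hA] at hx
  refine ⟨j, ?_⟩
  have hp1 := ell_self_pos hA (j + 1)
  have hp2 := ell_self_pos hA (j + 2)
  have h1 := hj _ (add_one_ne j)
  have h2 := hj _ (add_two_ne j)
  have hle : c j ≤ 1 + ∑ j, c j := by
    have := Finset.single_le_sum (fun j (_ : j ∈ Finset.univ) => hc j) (Finset.mem_univ j)
    linarith
  calc ‖x - A j‖ ≤ ell A (j + 1) x / ell A (j + 1) (A (j + 1)) * ‖A (j + 1) - A j‖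
        + ell A (j + 2) x / ell A (j + 2) (A (j + 2)) * ‖A (j + 2) - A j‖ := by
        rw [bary hA j x]
        refine (norm_add_le _ _).trans (le_of_eq ?_)
        rw [norm_mul, norm_mul, Complex.norm_real, Complex.norm_real, Real.norm_of_nonneg,
          Real.norm_of_nonneg]
        · exact div_nonneg (hx _) hp2.le
        · exact div_nonneg (hx _) hp1.le
    _ ≤ r / ell A (j + 1) (A (j + 1)) * ‖A (j + 1) - A j‖
        + r / ell A (j + 2) (A (j + 2)) * ‖A (j + 2) - A j‖ := by gcongr
    _ = c j * r := by simp only [c]; ring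
    _ ≤ _ := by gcongr

end Vale.Agent.P099
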