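import Vale.Agent.P099.Geom

open MeasureTheory Set Complex
open scoped Real ComplexConjugate

noncomputable section

namespace Vale.Agent.P099

variable {A : Fin 3 → ℂ}

/-- the standard triangle -/
def stdT : Set (ℝ × ℝ) := {p | 0 ≤ p.1 ∧ 0 ≤ p.2 ∧ p.1 + p.2 ≤ 1}

lemma isClosed_stdT : IsClosed stdT :=
  (isClosed_le continuous_const continuous_fst).inter
    ((isClosed_le continuous_const continuous_snd).inter
      (isClosed_le (continuous_fst.add continuous_snd) continuous_const))

lemma isCompact_stdT : IsCompact stdT := by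
  refine ((isCompact_Icc (a := (0 : ℝ)) (b := 1)).prod
    (isCompact_Icc (a := (0 : ℝ)) (b := 1))).of_isClosed_subset isClosed_stdT ?_
  rintro p ⟨h1, h2, h3⟩
  exact ⟨⟨h1, by linarith⟩, ⟨h2, by linarith⟩⟩

lemma stdT_int (f : ℝ × ℝ → ℝ) (hf : Continuous f) :
    ∫ p in stdT, f p = ∫ s in (0 : ℝ)..1, ∫ t in (0 : ℝ)..(1 - s), f (s, t) := by
  have hm := isClosed_stdT.measurableSet
  have hi : Integrable (stdT.indicator f) (volume.prod volume) :=
    (integrable_indicator_iff hm).2 (hf.continuousOn.integrableOn_compact isCompact_stdT)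
  rw [← integral_indicator hm, Measure.volume_eq_prod, integral_prod _ hi,
    intervalIntegral.integral_of_le zero_le_one, ← integral_Icc_eq_integral_Ioc,
    ← integral_indicator measurableSet_Icc]
  refine integral_congr_ae (ae_of_all _ fun s => ?_)
  by_cases hs : s ∈ Icc (0 : ℝ) 1
  · simp only [indicator_of_mem hs]
    rw [intervalIntegral.integral_of_le (by linarith [hs.2]), ← integral_Icc_eq_integral_Ioc,
      ← integral_indicator measurableSet_Icc]
    refine integral_congr_ae (ae_of_all _ fun t => ?_)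
    by_cases ht : t ∈ Icc (0 : ℝ) (1 - s)
    · have : (s, t) ∈ stdT := ⟨hs.1, ht.1, by linarith [ht.2]⟩
      simp only [indicator_of_mem ht, indicator_of_mem this]
    · have : (s, t) ∉ stdT := fun h => ht ⟨h.2.1, by linarith [h.2.2]⟩
      simp only [indicator_of_notMem ht, indicator_of_notMem this]
  · simp only [indicator_of_notMem hs]
    have : ∀ t, (s, t) ∉ stdT := fun t h => hs ⟨h.1, by linarith [h.2.1, h.2.2]⟩
    simp only [indicator_of_notMem (this _), integral_zero]

lemma stdT_swap (f : ℝ × ℝ → ℝ) : ∫ p in stdT, f p = ∫ p in stdT, f p.swap := by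
  have hm := isClosed_stdT.measurableSet
  rw [← integral_indicator hm, ← integral_indicator hm, Measure.volume_eq_prod,
    ← integral_prod_swap]
  refine integral_congr_ae (ae_of_all _ fun p => ?_)
  by_cases hp : p ∈ stdT
  · have : p.swap ∈ stdT := ⟨hp.2.1, hp.1, by simpa [add_comm] using hp.2.2⟩
    simp only [indicator_of_mem hp, indicator_of_mem this]
  · have : p.swap ∉ stdT := fun h => hp ⟨h.2.1, h.1, by simpa [add_comm] using h.2.2⟩
    simp only [indicator_of_notMem hp, indicator_of_notMem this]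

lemma stdT_ftc (b b' : ℝ × ℝ → ℝ) (hb' : Continuous b')
    (db : ∀ s t, HasDerivAt (fun t => b (s, t)) (b' (s, t)) t)
    (h2 : ∀ s ∈ Ioo (0 : ℝ) 1, b (s, 0) = 0) :
    ∫ p in stdT, b' p = ∫ s in (0 : ℝ)..1, b (s, 1 - s) := by
  rw [stdT_int b' hb']
  refine intervalIntegral.integral_congr_ae ?_
  have : ∀ᵐ s : ℝ, s ≠ 1 := by simp [ae_iff]
  filter_upwards [this] with s hs1 hs
  rw [uIoc_of_le zero_le_one] at hs
  rw [intervalIntegral.integral_eq_sub_of_hasDerivAt (fun t _ => db s t)
    ((hb'.comp (Continuous.prodMk_right s)).intervalIntegrable _ _),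
    h2 s ⟨hs.1, lt_of_le_of_ne hs.2 hs1⟩, sub_zero]

lemma stdT_green (a b a' b' : ℝ × ℝ → ℝ) (ha : Continuous a) (hb : Continuous b)
    (ha' : Continuous a') (hb' : Continuous b')
    (da : ∀ s t, HasDerivAt (fun s => a (s, t)) (a' (s, t)) s)
    (db : ∀ s t, HasDerivAt (fun t => b (s, t)) (b' (s, t)) t)
    (h1 : ∀ t ∈ Ioo (0 : ℝ) 1, a (0, t) = 0) (h2 : ∀ s ∈ Ioo (0 : ℝ) 1, b (s, 0) = 0)
    (h3 : ∀ s ∈ Ioo (0 : ℝ) 1, a (s, 1 - s) + b (s, 1 - s) = 0) :
    ∫ p in stdT, (a' p + b' p) = 0 := by
  rw [integral_add (ha'.continuousOn.integrableOn_compact isCompact_stdT)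
    (hb'.continuousOn.integrableOn_compact isCompact_stdT), stdT_swap a',
    stdT_ftc b b' hb' db h2,
    stdT_ftc (fun p => a p.swap) (fun p => a' p.swap) (ha'.comp continuous_swap)
      (fun s t => da t s) h1]
  have e : ∫ s in (0 : ℝ)..1, a (s, 1 - s).swap = ∫ s in (0 : ℝ)..1, a (s, 1 - s) := by
    have := intervalIntegral.integral_comp_sub_left (a := 0) (b := 1)
      (fun s : ℝ => a (s, 1 - s)) 1
    simpa using this
  rw [e, ← intervalIntegral.integral_add
    ((by fun_prop : Continuous fun s : ℝ => a (s, 1 - s)).intervalIntegrable _ _)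
    ((by fun_prop : Continuous fun s : ℝ => b (s, 1 - s)).intervalIntegrable _ _)]
  refine (intervalIntegral.integral_congr_ae (g := fun _ => (0 : ℝ)) ?_).trans
    intervalIntegral.integral_zero
  have : ∀ᵐ s : ℝ, s ≠ 1 := by simp [ae_iff]
  filter_upwards [this] with s hs1 hs
  rw [uIoc_of_le zero_le_one] at hs
  exact h3 s ⟨hs.1, lt_of_le_of_ne hs.2 hs1⟩

/-- affine chart of the triangle -/
def chart (A : Fin 3 → ℂ) (p : ℝ × ℝ) : ℂ := A 0 + p.1 * (A 1 - A 0) + p.2 * (A 2 - A 0)

lemma ell_chart (j : Fin 3) (p : ℝ × ℝ) : ell A j (chart A p)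
    = (1 - p.1 - p.2) * ell A j (A 0) + p.1 * ell A j (A 1) + p.2 * ell A j (A 2) := by
  rw [chart, ell_line, ell_line, ← ell_sub, ← ell_sub]; ring

lemma ell_chart0 (p : ℝ × ℝ) : ell A 0 (chart A p) = (1 - p.1 - p.2) * ell A 0 (A 0) := by
  rw [ell_chart, ell_vertex_ne (i := 1) (by decide), ell_vertex_ne (i := 2) (by decide)]; ring

lemma ell_chart1 (p : ℝ × ℝ) : ell A 1 (chart A p) = p.1 * ell A 1 (A 1) := by
  rw [ell_chart, ell_vertex_ne (i := 0) (by decide), ell_vertex_ne (i := 2) (by decide)]; ring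

lemma ell_chart2 (p : ℝ × ℝ) : ell A 2 (chart A p) = p.2 * ell A 2 (A 2) := by
  rw [ell_chart, ell_vertex_ne (i := 0) (by decide), ell_vertex_ne (i := 1) (by decide)]; ring

lemma chart_preimage (hA : AffineIndependent ℝ A) : chart A ⁻¹' TT A = stdT := by
  ext p
  have h0 := ell_self_pos hA 0
  have h1 := ell_self_pos hA 1
  have h2 := ell_self_pos hA 2
  rw [mem_preimage, mem_TT hA, Fin.forall_fin_succ, Fin.forall_fin_two]
  change 0 ≤ ell A 0 _ ∧ 0 ≤ ell A 1 _ ∧ 0 ≤ ell A 2 _ ↔ _
  rw [ell_chart0, ell_chart1, ell_chart2, mul_nonneg_iff_of_pos_right h0,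
    mul_nonneg_iff_of_pos_right h1, mul_nonneg_iff_of_pos_right h2]
  constructor
  · rintro ⟨a, b, c⟩; exact ⟨b, c, by linarith⟩
  · rintro ⟨a, b, c⟩; exact ⟨by linarith, a, b⟩

lemma decomp (hA : AffineIndependent ℝ A) (v : ℂ) :
    v = (nu A 1 v / ell A 1 (A 1) : ℝ) * (A 1 - A 0)
      + (nu A 2 v / ell A 2 (A 2) : ℝ) * (A 2 - A 0) := by
  have h := bary hA 0 (A 0 + v)
  simp only [zero_add, ell_add, add_sub_cancel_left] at h
  rw [ell_vertex_ne (i := 0) (by decide), ell_vertex_ne (i := 0) (by decide), zero_add,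
    zero_add] at h
  exact h

lemma nu_rel (hA : AffineIndependent ℝ A) (v : ℂ) :
    nu A 0 v / ell A 0 (A 0) + nu A 1 v / ell A 1 (A 1) + nu A 2 v / ell A 2 (A 2) = 0 := by
  have h := sum_bary hA 0 (A 0 + v)
  have h' := sum_bary hA 0 (A 0)
  simp only [zero_add, ell_add, add_div] at h h'
  linarith

/-- the linear part of the chart -/
def chartL (hA : AffineIndependent ℝ A) : (ℝ × ℝ) ≃L[ℝ] ℂ :=
  LinearEquiv.toContinuousLinearEquiv
    { toFun := fun p => p.1 * (A 1 - A 0) + p.2 * (A 2 - A 0)
      map_add' := fun p q => by simp only [Prod.fst_add, Prod.snd_add, ofReal_add]; ring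
      map_smul' := fun c p => by
        simp only [Prod.smul_fst, Prod.smul_snd, smul_eq_mul, ofReal_mul, RingHom.id_apply,
          real_smul]; ring
      invFun := fun v => (nu A 1 v / ell A 1 (A 1), nu A 2 v / ell A 2 (A 2))
      left_inv := fun p => by
        have h1 := ell_chart1 (A := A) p
        have h2 := ell_chart2 (A := A) p
        rw [chart, add_assoc, ell_add, ell_vertex_ne (i := 0) (by decide), zero_add] at h1 h2
        simp only
        rw [h1, h2, mul_div_assoc, mul_div_assoc, div_self (ell_self_pos hA 1).ne',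
          div_self (ell_self_pos hA 2).ne', mul_one, mul_one]
      right_inv := fun v => (decomp hA v).symm }

lemma integral_TT_chart (hA : AffineIndependent ℝ A) : ∃ c : ℝ, ∀ f : ℂ → ℝ,
    ∫ x in TT A, f x = c * ∫ p in stdT, f (chart A p) := by
  let e : (ℝ × ℝ) ≃ᵐ ℂ :=
    ((chartL hA).toHomeomorph.trans (Homeomorph.addLeft (A 0))).toMeasurableEquiv
  have he : (e : ℝ × ℝ → ℂ) = chart A := by
    ext p
    change A 0 + (p.1 * (A 1 - A 0) + p.2 * (A 2 - A 0)) = chart A p
    rw [chart, add_assoc]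
  have h1 : (volume : Measure ℂ) = Measure.addHaarScalarFactor (volume : Measure ℂ)
      (Measure.map (chartL hA) volume) • Measure.map (chartL hA) volume :=
    Measure.isAddLeftInvariant_eq_smul _ _
  have h2 : Measure.map e volume = Measure.map (chartL hA) volume := by
    have : (e : ℝ × ℝ → ℂ) = (fun x => A 0 + x) ∘ chartL hA := rfl
    rw [this, ← Measure.map_map (measurable_const_add _) (chartL hA).continuous.measurable,
      map_add_left_eq_self]
  generalize Measure.addHaarScalarFactor (volume : Measure ℂ)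
      (Measure.map (chartL hA) volume) = c at h1
  refine ⟨c, fun f => ?_⟩
  conv_lhs => rw [h1]
  rw [← h2, Measure.restrict_smul, integral_smul_nnreal_measure, setIntegral_map_equiv, he,
    chart_preimage hA]
  rfl

/-- divergence theorem on the triangle for a field tangent to the open sides -/
theorem green (hA : AffineIndependent ℝ A) (P R : ℂ → ℝ) (hP : ContDiff ℝ 1 P)
    (hR : ContDiff ℝ 1 R)
    (hb : ∀ j, ∀ x ∈ side A j, P x * (nrm A j).re + R x * (nrm A j).im = 0) :
    ∫ x in TT A, (fderiv ℝ P x 1 + fderiv ℝ R x I) = 0 := by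
  obtain ⟨c, hc⟩ := integral_TT_chart hA
  have h0 := ell_self_pos hA 0
  have h1 := ell_self_pos hA 1
  have h2 := ell_self_pos hA 2
  have hch : Continuous (chart A) := by unfold chart; fun_prop
  have cP := hP.continuous
  have cR := hR.continuous
  have cP' := hP.continuous_fderiv one_ne_zero
  have cR' := hR.continuous_fderiv one_ne_zero
  have dP : ∀ x, HasFDerivAt P (fderiv ℝ P x) x := fun x =>
    (hP.differentiable one_ne_zero x).hasFDerivAt
  have dR : ∀ x, HasFDerivAt R (fderiv ℝ R x) x := fun x =>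
    (hR.differentiable one_ne_zero x).hasFDerivAt
  have d1 : ∀ s t : ℝ, HasDerivAt (fun s : ℝ => chart A (s, t)) (A 1 - A 0) s := by
    intro s t
    have := (((hasDerivAt_id s).ofReal_comp.mul_const (A 1 - A 0)).const_add (A 0)).add_const
      (t * (A 2 - A 0))
    simpa [chart] using this
  have d2 : ∀ s t : ℝ, HasDerivAt (fun t : ℝ => chart A (s, t)) (A 2 - A 0) t := by
    intro s t
    have := ((hasDerivAt_id t).ofReal_comp.mul_const (A 2 - A 0)).const_add
      (A 0 + s * (A 1 - A 0))
    simpa [chart] using this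
  have key := stdT_green
    (fun p => (P (chart A p) * (nrm A 1).re + R (chart A p) * (nrm A 1).im) / ell A 1 (A 1))
    (fun p => (P (chart A p) * (nrm A 2).re + R (chart A p) * (nrm A 2).im) / ell A 2 (A 2))
    (fun p => (fderiv ℝ P (chart A p) (A 1 - A 0) * (nrm A 1).re
      + fderiv ℝ R (chart A p) (A 1 - A 0) * (nrm A 1).im) / ell A 1 (A 1))
    (fun p => (fderiv ℝ P (chart A p) (A 2 - A 0) * (nrm A 2).re
      + fderiv ℝ R (chart A p) (A 2 - A 0) * (nrm A 2).im) / ell A 2 (A 2))
    (by fun_prop) (by fun_prop) (by fun_prop) (by fun_prop)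
    (fun s t => (((((dP _).comp_hasDerivAt s (d1 s t)).mul_const _).add
      (((dR _).comp_hasDerivAt s (d1 s t)).mul_const _)).div_const _))
    (fun s t => (((((dP _).comp_hasDerivAt t (d2 s t)).mul_const _).add
      (((dR _).comp_hasDerivAt t (d2 s t)).mul_const _)).div_const _))
    (fun t ht => by
      have : chart A (0, t) ∈ side A 1 := by
        rw [mem_side hA]
        refine ⟨by rw [ell_chart1]; simp, fun i hi => ?_⟩
        rcases fin3_cases i with rfl | rfl | rfl
        · rw [ell_chart0]; exact mul_pos (by simpa using ht.2) h0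
        · exact absurd rfl hi
        · rw [ell_chart2]; exact mul_pos ht.1 h2
      simp only [hb 1 _ this, zero_div])
    (fun s hs => by
      have : chart A (s, 0) ∈ side A 2 := by
        rw [mem_side hA]
        refine ⟨by rw [ell_chart2]; simp, fun i hi => ?_⟩
        rcases fin3_cases i with rfl | rfl | rfl
        · rw [ell_chart0]; exact mul_pos (by simpa using hs.2) h0
        · rw [ell_chart1]; exact mul_pos hs.1 h1
        · exact absurd rfl hi
      simp only [hb 2 _ this, zero_div])
    (fun s hs => by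
      have : chart A (s, 1 - s) ∈ side A 0 := by
        rw [mem_side hA]
        refine ⟨by rw [ell_chart0]; simp, fun i hi => ?_⟩
        rcases fin3_cases i with rfl | rfl | rfl
        · exact absurd rfl hi
        · rw [ell_chart1]; exact mul_pos hs.1 h1
        · rw [ell_chart2]; exact mul_pos (by simpa using hs.2) h2
      have h3 := hb 0 _ this
      have h4 := nu_rel hA (⟨P (chart A (s, 1 - s)), R (chart A (s, 1 - s))⟩ : ℂ)
      simp only [nu_eq] at h4
      rw [h3, zero_div, zero_add] at h4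
      exact h4)
  rw [hc, ← mul_zero c, ← key]
  congr 1
  refine integral_congr_ae (ae_of_all _ fun p => ?_)
  have e1 := congrArg (fderiv ℝ P (chart A p)) (decomp hA 1)
  have e2 := congrArg (fderiv ℝ R (chart A p)) (decomp hA I)
  simp only [← real_smul, map_add, map_smul, nu_eq, one_re, one_im, I_re, I_im, smul_eq_mul]
    at e1 e2
  simp only
  rw [e1, e2]
  ring

end Vale.Agent.P099
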