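import Vale.Agent.P099.Gen

open MeasureTheory Set Complex Filter Topology
open scoped Real ComplexConjugate InnerProductSpace symmDiff ENNReal

noncomputable section

namespace Vale.Agent.P099

section Abstract

variable {H : Type} [NormedAddCommGroup H] [InnerProductSpace ℂ H] [CompleteSpace H]

omit [CompleteSpace H] in
lemma cont_of_semi (V : ℝ → H →ₗᵢ[ℂ] H) (hneg : ∀ u a, V u a = V (max u 0) a)
    (hsemi : ∀ s t, 0 ≤ s → 0 ≤ t → ∀ a, V (s + t) a = V s (V t a))
    (hc : ∀ a, Tendsto (fun u => V u a) (𝓝[≥] 0) (𝓝 a)) (a : H) :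
    Continuous fun u => V u a := by
  have key : ∀ s t, 0 ≤ s → 0 ≤ t → ‖V t a - V s a‖ = ‖V |t - s| a - a‖ := by
    have h1 : ∀ s t, 0 ≤ s → s ≤ t → ‖V t a - V s a‖ = ‖V (t - s) a - a‖ := by
      intro s t hs hst
      have e : V t a = V s (V (t - s) a) := by
        rw [← hsemi s (t - s) hs (sub_nonneg.2 hst)]; congr 2; ring
      rw [e, ← map_sub, LinearIsometry.norm_map]
    intro s t hs ht
    rcases le_total s t with h | h
    · rw [abs_of_nonneg (sub_nonneg.2 h), h1 s t hs h]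
    · rw [abs_sub_comm, abs_of_nonneg (sub_nonneg.2 h), norm_sub_rev, h1 t s ht h]
  refine continuous_iff_continuousAt.2 fun t₀ => ?_
  rw [ContinuousAt, tendsto_iff_norm_sub_tendsto_zero]
  have h2 : Tendsto (fun t : ℝ => |max t 0 - max t₀ 0|) (𝓝 t₀) (𝓝[≥] 0) := by
    refine tendsto_nhdsWithin_iff.2 ⟨?_, Eventually.of_forall fun t => mem_Ici.2 (abs_nonneg _)⟩
    have : Continuous fun t : ℝ => |max t 0 - max t₀ 0| := by fun_prop
    simpa using this.tendsto t₀
  have h3 := (tendsto_iff_norm_sub_tendsto_zero.1 (hc a)).comp h2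
  refine h3.congr fun t => ?_
  simp only [Function.comp]
  rw [hneg t, hneg t₀, key _ _ (le_max_right _ _) (le_max_right _ _)]

/-- time average of the family `V` over `[0, τ]` -/
def avgOp (V : ℝ → H →ₗᵢ[ℂ] H) (hV : ∀ a, Continuous fun u => V u a) (τ : ℝ) : H →L[ℂ] H :=
  LinearMap.mkContinuous
    { toFun := fun a => (τ⁻¹ : ℝ) • ∫ s in (0 : ℝ)..τ, V s a
      map_add' := fun a b => by
        simp only [map_add]
        rw [intervalIntegral.integral_add ((hV a).intervalIntegrable _ _)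
          ((hV b).intervalIntegrable _ _), smul_add]
      map_smul' := fun c a => by
        simp only [map_smul, RingHom.id_apply]
        rw [intervalIntegral.integral_smul, smul_comm] }
    (|τ⁻¹| * |τ|) (fun a => by
      simp only [LinearMap.coe_mk, AddHom.coe_mk]
      rw [norm_smul, Real.norm_eq_abs, mul_assoc]
      refine mul_le_mul_of_nonneg_left ?_ (abs_nonneg _)
      have := intervalIntegral.norm_integral_le_of_norm_le_const (a := 0) (b := τ) (C := ‖a‖)
        (f := fun s => V s a) fun s _ => (LinearIsometry.norm_map _ _).le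
      simpa [mul_comm] using this)

omit [CompleteSpace H] in
lemma avgOp_apply (V : ℝ → H →ₗᵢ[ℂ] H) (hV : ∀ a, Continuous fun u => V u a) (τ : ℝ) (a : H) :
    avgOp V hV τ a = (τ⁻¹ : ℝ) • ∫ s in (0 : ℝ)..τ, V s a := rfl

lemma hasDerivAt_prim (V : ℝ → H →ₗᵢ[ℂ] H) (hV : ∀ a, Continuous fun u => V u a) (a : H) (t : ℝ) :
    HasDerivAt (fun t => ∫ s in (0 : ℝ)..t, V s a) (V t a) t :=
  ((hV a).integral_hasStrictDerivAt 0 t).hasDerivAt

lemma exists_gen (V : ℝ → H →ₗᵢ[ℂ] H) (hV : ∀ a, Continuous fun u => V u a)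
    (h0 : ∀ a, V 0 a = a)
    (hsemi : ∀ s t, 0 ≤ s → 0 ≤ t → ∀ a, V (s + t) a = V s (V t a)) (τ : ℝ) (hτ : 0 ≤ τ) :
    ∃ G : Gen H, (∀ u a, G.V u a = V u a) ∧ G.W = avgOp V hV τ := by
  let g : H → ℝ → H := fun a u =>
    (τ⁻¹ : ℝ) • ((∫ s in (0 : ℝ)..(τ + u), V s a) - ∫ s in (0 : ℝ)..u, V s a)
  let W' : H →L[ℂ] H := ((τ⁻¹ : ℝ) : ℂ) • ((V τ).toContinuousLinearMap - 1)
  have hW' : ∀ a, W' a = (τ⁻¹ : ℝ) • (V τ a - a) := fun a => by
    simp only [W', smul_apply, sub_apply, one_apply_eq_self, LinearIsometry.coe_toContinuousLinearMap, Complex.coe_smul]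
  have hg : ∀ a, HasDerivAt (g a) (W' a) 0 := by
    intro a
    have h1 : HasDerivAt (fun u : ℝ => ∫ s in (0 : ℝ)..(τ + u), V s a) (V τ a) 0 := by
      have := hasDerivAt_prim V hV a (τ + 0)
      simpa using this.comp_const_add τ 0
    have h2 := hasDerivAt_prim V hV a 0
    rw [h0] at h2
    rw [hW']
    exact (h1.sub h2).const_smul (τ⁻¹ : ℝ)
  have hg1 : ∀ a u, 0 ≤ u → g a u = avgOp V hV τ (V u a) := by
    intro a u hu
    rw [avgOp_apply]
    simp only [g]
    congr 1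
    rw [intervalIntegral.integral_interval_sub_left ((hV a).intervalIntegrable _ _)
      ((hV a).intervalIntegrable _ _)]
    have e := intervalIntegral.integral_comp_add_right (a := 0) (b := τ) (fun s => V s a) u
    rw [zero_add] at e
    rw [← e]
    refine intervalIntegral.integral_congr fun s hs => ?_
    rw [uIcc_of_le hτ] at hs
    exact hsemi s u hs.1 hu a
  have hg2 : ∀ a u, 0 ≤ u → avgOp V hV τ (V u a) = V u (avgOp V hV τ a) := by
    intro a u hu
    rw [avgOp_apply, avgOp_apply, ← Complex.coe_smul, ← Complex.coe_smul, map_smul]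
    congr 1
    rw [← (V u).intervalIntegral_comp_comm]
    refine intervalIntegral.integral_congr fun s hs => ?_
    rw [uIcc_of_le hτ] at hs
    rw [← hsemi s u hs.1 hu, ← hsemi u s hu hs.1, add_comm]
  have hg0 : ∀ a, g a 0 = avgOp V hV τ a := fun a => by rw [hg1 a 0 le_rfl, h0]
  refine ⟨⟨fun u => (V u).toContinuousLinearMap, avgOp V hV τ, W', fun u _ a => ?_, fun a => ?_,
    fun a => ?_, fun a b => ?_⟩, fun u a => rfl, rfl⟩
  · exact (LinearIsometry.norm_map _ _).le
  · have := ((hV a).tendsto 0).mono_left (nhdsWithin_le_nhds (s := Ioi 0))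
    rw [h0] at this
    exact this
  · refine (hg a).tendsto_slope_zero_right.congr' ?_
    refine eventually_nhdsWithin_of_forall fun u hu => ?_
    simp only [zero_add]
    rw [hg0, hg1 a u (le_of_lt hu)]
    rfl
  · have h1 := ((hg a).inner ℂ (hg b)).hasDerivWithinAt (s := Ici 0)
    have h2 : HasDerivWithinAt (fun u => ⟪g a u, g b u⟫_ℂ) 0 (Ici 0) 0 := by
      refine (hasDerivWithinAt_const (0 : ℝ) (Ici 0)
        ⟪avgOp V hV τ a, avgOp V hV τ b⟫_ℂ).congr (fun u hu => ?_) ?_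
      · rw [hg1 a u hu, hg1 b u hu, hg2 a u hu, hg2 b u hu, LinearIsometry.inner_map_map]
      · rw [hg0, hg0]
    have h3 := (uniqueDiffWithinAt_Ici (0 : ℝ)).eq_deriv _ h1 h2
    rw [hg0, hg0, add_comm] at h3
    exact h3

lemma tendsto_avgOp (V : ℝ → H →ₗᵢ[ℂ] H) (hV : ∀ a, Continuous fun u => V u a)
    (h0 : ∀ a, V 0 a = a) (a : H) :
    Tendsto (fun m : ℕ => avgOp V hV (1 / ((m : ℝ) + 1)) a) atTop (𝓝 a) := by
  have h1 := (hasDerivAt_prim V hV a 0).tendsto_slope_zero_right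
  rw [h0] at h1
  have h2 : Tendsto (fun m : ℕ => 1 / ((m : ℝ) + 1)) atTop (𝓝[>] 0) :=
    tendsto_nhdsWithin_iff.2 ⟨tendsto_one_div_add_atTop_nhds_zero_nat,
      Eventually.of_forall fun m => mem_Ioi.2 Nat.one_div_pos_of_nat⟩
  refine (h1.comp h2).congr fun m => ?_
  simp [avgOp_apply]

end Abstract

variable {X : Type} [MetricSpace X] [SecondCountableTopology X] [MeasurableSpace X]
  [BorelSpace X] {μ : Measure X} [IsProbabilityMeasure μ]

omit [MetricSpace X] [SecondCountableTopology X] [BorelSpace X] in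
lemma erg_aux (Φ : ℝ → X → X) (hR : Rigid Φ μ) (s : Set X) (hs : MeasurableSet s)
    (h : ∀ t, 0 < t → ∀ᵐ p ∂μ, Φ t p ∈ s ↔ p ∈ s) : μ s = 0 ∨ μ s = 1 := by
  let G : Gen ℂ := ⟨fun _ => 1, 1, 0, fun _ _ a => by simp, fun a => by simp, fun a => by simp,
    fun a b => by simp⟩
  obtain ⟨c, hc⟩ := hR ℂ G (s.indicator fun _ => (1 : ℂ)) (stronglyMeasurable_const.indicator hs)
    (fun p => by by_cases hp : p ∈ s <;> simp [hp]) (fun u hu => by
      filter_upwards [h u hu] with p hp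
      by_cases hps : p ∈ s
      · simp [G, hps, hp.2 hps]
      · have : Φ u p ∉ s := fun h' => hps (hp.1 h')
        simp [G, hps, this])
  by_cases hc1 : c = 1
  · right
    rw [← prob_compl_eq_zero_iff hs]
    refine measure_eq_zero_iff_ae_notMem.2 ?_
    filter_upwards [hc] with p hp hps
    simp [G, hc1, notMem_of_mem_compl hps] at hp
  · left
    refine measure_eq_zero_iff_ae_notMem.2 ?_
    filter_upwards [hc] with p hp hps
    simp [G, hps] at hp
    exact hc1 hp.symm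

omit [MetricSpace X] [SecondCountableTopology X] [BorelSpace X] [IsProbabilityMeasure μ] in
lemma ae_iff_of_symmDiff {Y : Type} [MeasurableSpace Y] {ν : Measure Y} {s t : Set Y}
    (h : ν (s ∆ t) = 0) : ∀ᵐ p ∂ν, p ∈ s ↔ p ∈ t := by
  filter_upwards [measure_eq_zero_iff_ae_notMem.1 h] with p hp
  rw [mem_symmDiff] at hp
  tauto

omit [MetricSpace X] [SecondCountableTopology X] [BorelSpace X] in
theorem ergodic_of_rigid (Φ Ψ : ℝ → X → X) (hΨ : ∀ t, 0 < t → Ψ t = Φ t) (hR : Rigid Φ μ) :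
    IsErgodicFlow Ψ μ := by
  intro s hs h
  refine erg_aux Φ hR s hs fun t ht => ?_
  have := ae_iff_of_symmDiff (h t)
  rw [hΨ t ht] at this
  exact this

omit [MetricSpace X] [SecondCountableTopology X] [BorelSpace X] [IsProbabilityMeasure μ] in
lemma L2_norm_sq (a : Lp ℂ 2 μ) : ‖a‖ ^ 2 = ∫ x, ‖a x‖ ^ 2 ∂μ := by
  rw [@norm_sq_eq_re_inner ℂ, L2.inner_def, ← integral_re (L2.integrable_inner a a)]
  refine integral_congr_ae (Eventually.of_forall fun x => ?_)
  simp only
  rw [← @norm_sq_eq_re_inner ℂ]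

omit [SecondCountableTopology X] in
lemma koopman_tendsto (Φ : ℝ → X → X) (hmp : ∀ t, MeasurePreserving (Φ t) μ μ)
    (hcont : ∀ᵐ p ∂μ, Tendsto (fun u => Φ u p) (𝓝[≥] 0) (𝓝 p)) (a : Lp ℂ 2 μ) :
    Tendsto (fun u => Lp.compMeasurePreserving (Φ u) (hmp u) a) (𝓝[≥] 0) (𝓝 a) := by
  have hb : ∀ g : BoundedContinuousFunction X ℂ,
      Tendsto (fun u => Lp.compMeasurePreserving (Φ u) (hmp u) (g.toLp 2 μ ℂ)) (𝓝[≥] 0)
        (𝓝 (g.toLp 2 μ ℂ)) := by
    intro g
    rw [tendsto_iff_norm_sub_tendsto_zero]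
    have e : ∀ u, ‖Lp.compMeasurePreserving (Φ u) (hmp u) (g.toLp 2 μ ℂ) - g.toLp 2 μ ℂ‖
        = √(∫ x, ‖g (Φ u x) - g x‖ ^ 2 ∂μ) := by
      intro u
      rw [← Real.sqrt_sq (norm_nonneg _), L2_norm_sq]
      congr 1
      refine integral_congr_ae ?_
      have h1 := g.coeFn_toLp 2 μ ℂ
      filter_upwards [Lp.coeFn_sub (Lp.compMeasurePreserving (Φ u) (hmp u) (g.toLp 2 μ ℂ))
        (g.toLp 2 μ ℂ), Lp.coeFn_compMeasurePreserving (g.toLp 2 μ ℂ) (hmp u), h1,
        (hmp u).quasiMeasurePreserving.ae h1] with x h2 h3 h4 h5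
      rw [h2, Pi.sub_apply, h3, Function.comp_apply, h4, h5]
    simp only [e]
    have h2 : Tendsto (fun u => ∫ x, ‖g (Φ u x) - g x‖ ^ 2 ∂μ) (𝓝[≥] 0) (𝓝 (∫ _x, (0 : ℝ) ∂μ)) := by
      refine tendsto_integral_filter_of_dominated_convergence (fun _ => (‖g‖ + ‖g‖) ^ 2)
        (Eventually.of_forall fun u => ?_) (Eventually.of_forall fun u => ?_)
        (integrable_const _) ?_
      · exact ((((g.continuous.measurable.comp (hmp u).measurable).sub
          g.continuous.measurable).norm).pow_const 2).aestronglyMeasurable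
      · refine Eventually.of_forall fun x => ?_
        rw [Real.norm_eq_abs, abs_of_nonneg (by positivity)]
        exact pow_le_pow_left₀ (norm_nonneg _)
          ((norm_sub_le _ _).trans (add_le_add (g.norm_coe_le_norm _) (g.norm_coe_le_norm _))) 2
      · filter_upwards [hcont] with x hx
        have h3 := ((((g.continuous.tendsto x).comp hx).sub_const (g x)).norm).pow 2
        simpa using h3
    simpa using h2.sqrt
  rw [Metric.tendsto_nhds]
  intro ε hε
  obtain ⟨g, hg⟩ := (BoundedContinuousFunction.toLp_denseRange ℂ μ ℂ (p := 2)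
    (by simp)).exists_dist_lt a (show 0 < ε / 3 by positivity)
  filter_upwards [Metric.tendsto_nhds.1 (hb g) (ε / 3) (by positivity)] with u hu
  have h1 := (Lp.isometry_compMeasurePreserving (E := ℂ) (p := 2) (hmp u)).dist_eq a (g.toLp 2 μ ℂ)
  have h2 := dist_triangle4 (Lp.compMeasurePreserving (Φ u) (hmp u) a)
    (Lp.compMeasurePreserving (Φ u) (hmp u) (g.toLp 2 μ ℂ)) (g.toLp 2 μ ℂ) a
  rw [dist_comm (g.toLp 2 μ ℂ) a] at h2
  linarith

lemma stronglyMeasurable_of_dist {Y E : Type} [MeasurableSpace Y] [MetricSpace E]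
    [SecondCountableTopology E] (f : Y → E) (h : ∀ c, Measurable fun y => dist (f y) c) :
    StronglyMeasurable f := by
  borelize E
  refine Measurable.stronglyMeasurable ?_
  have hB : TopologicalSpace.IsTopologicalBasis {U : Set E | ∃ c r, U = Metric.ball c r} := by
    refine TopologicalSpace.isTopologicalBasis_of_isOpen_of_nhds ?_ ?_
    · rintro _ ⟨c, r, rfl⟩
      exact Metric.isOpen_ball
    · intro c U hc hU
      obtain ⟨r, hr, hrU⟩ := Metric.isOpen_iff.1 hU c hc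
      exact ⟨_, ⟨c, r, rfl⟩, Metric.mem_ball_self hr, hrU⟩
  have e := hB.borel_eq_generateFrom
  have : @Measurable Y E _ (MeasurableSpace.generateFrom {U : Set E | ∃ c r, U = Metric.ball c r})
      f := by
    refine measurable_generateFrom ?_
    rintro _ ⟨c, r, rfl⟩
    exact measurableSet_lt (h c) measurable_const
  rw [← e] at this
  exact this

theorem weakMixing_of_rigid (Φ Ψ : ℝ → X → X) (hΨ : ∀ t, 0 < t → Ψ t = Φ t)
    (hmp : ∀ t, 0 ≤ t → MeasurePreserving (Φ t) μ μ)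
    (hsemi : ∀ s t, 0 ≤ s → 0 ≤ t → ∀ p, Φ (s + t) p = Φ t (Φ s p))
    (hcont : ∀ᵐ p ∂μ, Tendsto (fun u => Φ u p) (𝓝[≥] 0) (𝓝 p))
    (hR : Rigid Φ μ) :
    IsErgodicFlow (fun t (z : X × X) => (Ψ t z.1, Ψ t z.2)) (μ.prod μ) := by
  intro s hs h
  have : Fact ((2 : ℝ≥0∞) ≠ ⊤) := ⟨by simp⟩
  have hmp' : ∀ t, MeasurePreserving (Φ (max t 0)) μ μ := fun t => hmp _ (le_max_right _ _)
  let V : ℝ → Lp ℂ 2 μ →ₗᵢ[ℂ] Lp ℂ 2 μ := fun t =>
    Lp.compMeasurePreservingₗᵢ ℂ (Φ (max t 0)) (hmp' t)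
  have hVa : ∀ t, 0 ≤ t → ∀ a : Lp ℂ 2 μ, V t a =ᵐ[μ] fun q => a (Φ t q) := by
    intro t ht a
    have := Lp.coeFn_compMeasurePreserving a (hmp' t)
    conv at this => rhs; rw [max_eq_left ht]
    exact this
  have hneg : ∀ u a, V u a = V (max u 0) a := by
    intro u a
    refine Lp.ext ?_
    exact (Lp.coeFn_compMeasurePreserving a (hmp' u)).trans (hVa _ (le_max_right _ _) a).symm
  have hVsemi : ∀ s t, 0 ≤ s → 0 ≤ t → ∀ a, V (s + t) a = V s (V t a) := by
    intro s t hs ht a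
    refine Lp.ext ?_
    filter_upwards [hVa (s + t) (add_nonneg hs ht) a, hVa s hs (V t a),
      (hmp s hs).quasiMeasurePreserving.ae (hVa t ht a)] with q h1 h2 h3
    rw [h1, h2, h3, hsemi s t hs ht]
  have hc : ∀ a, Tendsto (fun u => V u a) (𝓝[≥] 0) (𝓝 a) := by
    intro a
    refine koopman_tendsto (fun t => Φ (max t 0)) hmp' ?_ a
    filter_upwards [hcont] with p hp
    refine hp.congr' (eventually_nhdsWithin_of_forall fun u hu => ?_)
    simp only [max_eq_left (show (0 : ℝ) ≤ u from hu)]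
  have hV := cont_of_semi V hneg hVsemi hc
  have h0 : ∀ a, V 0 a = a := fun a =>
    tendsto_nhds_unique (((hV a).tendsto 0).mono_left nhdsWithin_le_nhds) (hc a)
  have hsec : ∀ p : X, MeasurableSet (Prod.mk p ⁻¹' s) := fun p => measurable_prodMk_left hs
  let f : X → Lp ℂ 2 μ := fun p => indicatorConstLp 2 (hsec p) (measure_ne_top _ _) (1 : ℂ)
  have hf : ∀ p, f p =ᵐ[μ] fun q => s.indicator (fun _ => (1 : ℂ)) (p, q) := fun p =>
    indicatorConstLp_coeFn
  have hfm : StronglyMeasurable f := by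
    refine stronglyMeasurable_of_dist f fun c => ?_
    have e : ∀ p, dist (f p) c = √(∫ q, ‖s.indicator (fun _ => (1 : ℂ)) (p, q) - c q‖ ^ 2 ∂μ) := by
      intro p
      rw [dist_eq_norm, ← Real.sqrt_sq (norm_nonneg _), L2_norm_sq]
      congr 1
      refine integral_congr_ae ?_
      filter_upwards [Lp.coeFn_sub (f p) c, hf p] with q h1 h2
      rw [h1, Pi.sub_apply, h2]
    simp only [e]
    refine Measurable.sqrt (StronglyMeasurable.measurable ?_)
    refine StronglyMeasurable.integral_prod_right'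
      (f := fun z : X × X => ‖s.indicator (fun _ => (1 : ℂ)) z - c z.2‖ ^ 2) ?_
    exact ((stronglyMeasurable_const.indicator hs).sub
      ((Lp.stronglyMeasurable c).comp_measurable measurable_snd)).norm.pow 2
  have hf1 : ∀ p, ‖f p‖ ≤ 1 := fun p => by
    refine norm_indicatorConstLp_le.trans ?_
    rw [norm_one, one_mul]
    exact Real.rpow_le_one measureReal_nonneg measureReal_le_one (by positivity)
  have hinv : ∀ u, 0 < u → ∀ᵐ p ∂μ, f p = V u (f (Φ u p)) := by
    intro u hu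
    have h1 := Measure.ae_ae_of_ae_prod (ae_iff_of_symmDiff (h u))
    simp only [hΨ u hu] at h1
    filter_upwards [h1] with p hp
    refine Lp.ext ?_
    filter_upwards [hp, hf p, hVa u hu.le (f (Φ u p)),
      (hmp u hu.le).quasiMeasurePreserving.ae (hf (Φ u p))] with q h2 h3 h4 h5
    rw [h3, h4, h5]
    simp only [mem_preimage] at h2
    by_cases hq : (p, q) ∈ s
    · rw [indicator_of_mem hq, indicator_of_mem (h2.2 hq)]
    · rw [indicator_of_notMem hq, indicator_of_notMem fun h' => hq (h2.1 h')]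
  have hW : ∀ m : ℕ, ∃ c, ∀ᵐ p ∂μ, avgOp V hV (1 / ((m : ℝ) + 1)) (f p) = c := by
    intro m
    obtain ⟨G, hG1, hG2⟩ := exists_gen V hV h0 hVsemi (1 / ((m : ℝ) + 1)) Nat.one_div_pos_of_nat.le
    rw [← hG2]
    refine hR _ G f hfm hf1 fun u hu => ?_
    simpa only [hG1] using hinv u hu
  choose c hc' using hW
  have hall := ae_all_iff.2 hc'
  obtain ⟨p₀, hp₀⟩ := hall.exists
  have hconst : ∀ᵐ p ∂μ, f p = f p₀ := by
    filter_upwards [hall] with p hp
    refine tendsto_nhds_unique (tendsto_avgOp V hV h0 (f p)) ?_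
    refine (tendsto_avgOp V hV h0 (f p₀)).congr fun m => ?_
    rw [hp m, hp₀ m]
  have hind : ∀ {p q p' q' : X}, s.indicator (fun _ => (1 : ℂ)) (p, q)
      = s.indicator (fun _ => (1 : ℂ)) (p', q') → ((p, q) ∈ s ↔ (p', q') ∈ s) := by
    intro p q p' q' hh
    by_cases h1 : (p, q) ∈ s <;> by_cases h2 : (p', q') ∈ s <;> simp_all
  have hB : μ (Prod.mk p₀ ⁻¹' s) = 0 ∨ μ (Prod.mk p₀ ⁻¹' s) = 1 := by
    refine erg_aux Φ hR _ (hsec p₀) fun t ht => ?_
    obtain ⟨p, h1, h2, h3⟩ := ((hinv t ht).and (hconst.and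
      ((hmp t ht.le).quasiMeasurePreserving.ae hconst))).exists
    rw [h2, h3] at h1
    filter_upwards [hf p₀, hVa t ht.le (f p₀),
      (hmp t ht.le).quasiMeasurePreserving.ae (hf p₀)] with q h4 h5 h6
    rw [← h1, h4, h6] at h5
    exact (hind h5).symm
  have hfin : (μ.prod μ) s = μ (Prod.mk p₀ ⁻¹' s) := by
    rw [Measure.prod_apply hs]
    have : ∀ᵐ p ∂μ, μ (Prod.mk p ⁻¹' s) = μ (Prod.mk p₀ ⁻¹' s) := by
      filter_upwards [hconst] with p hp
      refine measure_congr ?_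
      filter_upwards [hf p, hf p₀] with q h1 h2
      rw [hp, h2] at h1
      exact propext (hind h1).symm
    rw [lintegral_congr_ae this]
    simp
  rw [hfin]
  exact hB

end Vale.Agent.P099
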