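import Vale.Agent.P099.Green

open MeasureTheory Set Complex
open scoped Real ComplexConjugate InnerProductSpace ENNReal

noncomputable section

namespace Vale.Agent.P099

variable {A : Fin 3 → ℂ}
variable {H : Type} [NormedAddCommGroup H] [InnerProductSpace ℂ H] [CompleteSpace H]

lemma lint_le_of_sq {f F : ℂ → ℝ} {δ K : ℝ} (hδ : 0 < δ) (hK : 0 ≤ K) (hF0 : ∀ x, 0 ≤ F x)
    (hF : IntegrableOn F (TT A)) (hle : ∀ x, f x ≤ K * δ + F x / δ)
    (hint : ∫ x in TT A, F x ≤ δ ^ 2) :
    ∫⁻ x in TT A, ENNReal.ofReal (f x) ≤ ENNReal.ofReal δ * (ENNReal.ofReal K * volume (TT A) + 1) := by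
  have h1 : ∫⁻ x in TT A, ENNReal.ofReal (F x / δ) ≤ ENNReal.ofReal δ := by
    rw [← ofReal_integral_eq_lintegral_ofReal (hF.div_const δ)
      (Filter.Eventually.of_forall fun x => div_nonneg (hF0 x) hδ.le), integral_div]
    refine ENNReal.ofReal_le_ofReal ?_
    rw [div_le_iff₀ hδ]; nlinarith
  calc ∫⁻ x in TT A, ENNReal.ofReal (f x)
      ≤ ∫⁻ x in TT A, (ENNReal.ofReal (K * δ) + ENNReal.ofReal (F x / δ)) := by
        refine lintegral_mono fun x => ?_
        exact (ENNReal.ofReal_le_ofReal (hle x)).trans ENNReal.ofReal_add_le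
    _ = ENNReal.ofReal (K * δ) * volume (TT A) + ∫⁻ x in TT A, ENNReal.ofReal (F x / δ) := by
        rw [lintegral_add_left measurable_const, setLIntegral_const]
    _ ≤ ENNReal.ofReal (K * δ) * volume (TT A) + ENNReal.ofReal δ := by gcongr
    _ = _ := by rw [ENNReal.ofReal_mul hK]; ring

lemma lint_shift_le (f : ℂ → ℝ≥0∞) (S : Set ℂ) (hS : MeasurableSet S) (v : ℂ)
    (h : ∀ x ∈ S, x + v ∈ TT A) : ∫⁻ x in S, f (x + v) ≤ ∫⁻ x in TT A, f x := by
  rw [← lintegral_indicator hS, ← lintegral_indicator measurableSet_TT,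
    ← lintegral_add_right_eq_self ((TT A).indicator f) v]
  refine lintegral_mono fun x => ?_
  by_cases hx : x ∈ S
  · rw [indicator_of_mem hx, indicator_of_mem (h x hx)]
  · rw [indicator_of_notMem hx]; exact zero_le

omit [CompleteSpace H] in
lemma norm_fderiv_le_two (L : ℂ →L[ℝ] H) : ‖L‖ ≤ ‖L 1‖ + ‖L I‖ := by
  refine L.opNorm_le_bound (by positivity) fun z => ?_
  have e : L z = z.re • L 1 + z.im • L I := by
    rw [← map_smul, ← map_smul, ← map_add]
    congr 1
    simp
  rw [e]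
  refine (norm_add_le _ _).trans ?_
  rw [norm_smul, norm_smul, Real.norm_eq_abs, Real.norm_eq_abs]
  have h1 := mul_le_mul_of_nonneg_right (abs_re_le_norm z) (norm_nonneg (L 1))
  have h2 := mul_le_mul_of_nonneg_right (abs_im_le_norm z) (norm_nonneg (L I))
  linarith

lemma enorm_sub_le_lint {w : ℂ → H} (hw : ContDiff ℝ 1 w) (x z : ℂ) :
    ‖w (x + z) - w x‖ₑ ≤
      ∫⁻ t in Ioc (0 : ℝ) 1, ‖z‖ₑ * ENNReal.ofReal ‖fderiv ℝ w (x + t • z)‖ := by
  have hc : Continuous (fderiv ℝ w) := hw.continuous_fderiv one_ne_zero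
  have hd : ∀ t : ℝ, HasDerivAt (fun t : ℝ => w (x + t • z)) (fderiv ℝ w (x + t • z) z) t := by
    intro t
    have h1 : HasDerivAt (fun t : ℝ => x + t • z) z t := by
      simpa using ((hasDerivAt_id t).smul_const z).const_add x
    exact (hw.differentiable one_ne_zero (x + t • z)).hasFDerivAt.comp_hasDerivAt t h1
  have hi : IntervalIntegrable (fun t : ℝ => fderiv ℝ w (x + t • z) z) volume 0 1 :=
    Continuous.intervalIntegrable (by fun_prop) 0 1
  have h := intervalIntegral.integral_eq_sub_of_hasDerivAt (fun t _ => hd t) hi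
  simp only [one_smul, zero_smul, add_zero] at h
  rw [← h, intervalIntegral.integral_of_le zero_le_one]
  refine (enorm_integral_le_lintegral_enorm _).trans (lintegral_mono fun t => ?_)
  rw [← ofReal_norm, ← ofReal_norm, ← ENNReal.ofReal_mul (norm_nonneg _)]
  refine ENNReal.ofReal_le_ofReal ?_
  rw [mul_comm]
  exact ContinuousLinearMap.le_opNorm _ _

lemma lint_diff_le {w : ℂ → H} (hw : ContDiff ℝ 1 w) (z : ℂ) (S : Set ℂ) (hS : MeasurableSet S)
    (h0 : ∀ x ∈ S, x ∈ TT A) (h1 : ∀ x ∈ S, x + z ∈ TT A) :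
    ∫⁻ x in S, ‖w (x + z) - w x‖ₑ ≤ ‖z‖ₑ * ∫⁻ x in TT A, ENNReal.ofReal ‖fderiv ℝ w x‖ := by
  have hc : Continuous (fderiv ℝ w) := hw.continuous_fderiv one_ne_zero
  have hm : Measurable (Function.uncurry fun (x : ℂ) (t : ℝ) =>
      ‖z‖ₑ * ENNReal.ofReal ‖fderiv ℝ w (x + t • z)‖) := by
    refine Measurable.const_mul (ENNReal.measurable_ofReal.comp (Continuous.measurable ?_)) _
    fun_prop
  calc ∫⁻ x in S, ‖w (x + z) - w x‖ₑ
      ≤ ∫⁻ x in S, ∫⁻ t in Ioc (0 : ℝ) 1, ‖z‖ₑ * ENNReal.ofReal ‖fderiv ℝ w (x + t • z)‖ :=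
        lintegral_mono fun x => enorm_sub_le_lint hw x z
    _ = ∫⁻ t in Ioc (0 : ℝ) 1, ∫⁻ x in S, ‖z‖ₑ * ENNReal.ofReal ‖fderiv ℝ w (x + t • z)‖ :=
        lintegral_lintegral_swap hm.aemeasurable
    _ ≤ ∫⁻ _t in Ioc (0 : ℝ) 1, ‖z‖ₑ * ∫⁻ x in TT A, ENNReal.ofReal ‖fderiv ℝ w x‖ := by
        refine setLIntegral_mono measurable_const fun t ht => ?_
        rw [lintegral_const_mul' _ _ enorm_ne_top]
        have := lint_shift_le (A := A) (fun x => ENNReal.ofReal ‖fderiv ℝ w x‖) S hS (t • z)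
          fun x hx => convex_TT.add_smul_mem (h0 x hx) (h1 x hx) ⟨ht.1.le, ht.2⟩
        exact mul_le_mul_right this _
    _ = _ := by simp

/-- an `L²` limit of functions with small gradient is constant -/
theorem ae_const_of_approx (hA : AffineIndependent ℝ A) (g : ℂ → H) (hg : StronglyMeasurable g)
    (C : ℝ) (hC : ∀ x, ‖g x‖ ≤ C)
    (h : ∀ ε > 0, ∃ w : ℂ → H, ContDiff ℝ 1 w ∧ ∫ x in TT A, ‖w x - g x‖ ^ 2 ≤ ε ∧
      ∫ x in TT A, (‖fderiv ℝ w x 1‖ ^ 2 + ‖fderiv ℝ w x I‖ ^ 2) ≤ ε) :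
    ∃ c, ∀ᵐ x ∂(volume.restrict (TT A)), g x = c := by
  have hvol : volume (TT A) < ⊤ := isCompact_TT.measure_lt_top
  have key : ∀ z : ℂ, ∀ᵐ x : ℂ, x ∈ TT A → x + z ∈ TT A → g (x + z) = g x := by
    intro z
    set S : Set ℂ := TT A ∩ (fun x => x + z) ⁻¹' TT A with hSdef
    have hS : MeasurableSet S :=
      measurableSet_TT.inter (measurableSet_TT.preimage (measurable_add_const z))
    have hgz : StronglyMeasurable fun x => g (x + z) := hg.comp_measurable (measurable_add_const z)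
    set K : ℝ≥0∞ := (ENNReal.ofReal 1 * volume (TT A) + 1) + (‖z‖ₑ * (ENNReal.ofReal 2 * volume (TT A) + 1)
      + (ENNReal.ofReal 1 * volume (TT A) + 1)) with hK
    have hKt : K ≠ ⊤ := by
      have := hvol.ne
      simp only [hK]
      finiteness
    have hb : ∀ δ : ℝ, 0 < δ → ∫⁻ x in S, ‖g (x + z) - g x‖ₑ ≤ ENNReal.ofReal δ * K := by
      intro δ hδ
      obtain ⟨w, hw, hw1, hw2⟩ := h (δ ^ 2) (pow_pos hδ 2)
      have hc : Continuous (fderiv ℝ w) := hw.continuous_fderiv one_ne_zero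
      have hwc := hw.continuous
      have hi1 : IntegrableOn (fun x => ‖w x - g x‖ ^ 2) (TT A) := by
        obtain ⟨M, hM⟩ := isCompact_TT.exists_bound_of_continuousOn (hwc.continuousOn (s := TT A))
        refine Measure.integrableOn_of_bounded (M := (M + C) ^ 2) hvol.ne
          (((hwc.stronglyMeasurable.sub hg).norm.pow 2).aestronglyMeasurable) ?_
        refine (ae_restrict_mem measurableSet_TT).mono fun x hx => ?_
        rw [Real.norm_eq_abs, abs_of_nonneg (by positivity)]
        exact pow_le_pow_left₀ (norm_nonneg _) ((norm_sub_le _ _).trans (add_le_add (hM x hx) (hC x))) 2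
      have hi2 : IntegrableOn (fun x => ‖fderiv ℝ w x 1‖ ^ 2 + ‖fderiv ℝ w x I‖ ^ 2) (TT A) :=
        ContinuousOn.integrableOn_compact isCompact_TT (Continuous.continuousOn (by fun_prop))
      have young : ∀ a : ℝ, a ≤ δ + a ^ 2 / δ := fun a => by
        rw [← sub_le_iff_le_add', le_div_iff₀ hδ]; nlinarith [sq_nonneg (a - δ), sq_nonneg a]
      have e1 := lint_le_of_sq (A := A) (f := fun x => ‖w x - g x‖) hδ zero_le_one
        (fun x => by positivity) hi1 (fun x => by simpa using young _) hw1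
      have e2 := lint_le_of_sq (A := A) (f := fun x => ‖fderiv ℝ w x‖) hδ zero_le_two
        (fun x => by positivity) hi2 (fun x => by
          have a1 := norm_fderiv_le_two (fderiv ℝ w x)
          have a2 := young ‖fderiv ℝ w x 1‖
          have a3 := young ‖fderiv ℝ w x I‖
          rw [add_div]; linarith) hw2
      have e3 := lint_shift_le (A := A) (fun x => ENNReal.ofReal ‖w x - g x‖) S hS z fun x hx => hx.2
      have e4 := lint_diff_le (A := A) hw z S hS (fun x hx => hx.1) fun x hx => hx.2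
      have e5 : ∫⁻ x in S, ENNReal.ofReal ‖w x - g x‖ ≤ ∫⁻ x in TT A, ENNReal.ofReal ‖w x - g x‖ :=
        lintegral_mono_set inter_subset_left
      have m1 : Measurable fun x => ENNReal.ofReal ‖w (x + z) - g (x + z)‖ :=
        ENNReal.measurable_ofReal.comp
          (((hwc.comp (continuous_add_const z)).stronglyMeasurable.sub hgz).norm.measurable)
      have m2 : Measurable fun x => ‖w (x + z) - w x‖ₑ :=
        ((hwc.comp (continuous_add_const z)).sub hwc).enorm.measurable
      calc ∫⁻ x in S, ‖g (x + z) - g x‖ₑ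
          ≤ ∫⁻ x in S, (ENNReal.ofReal ‖w (x + z) - g (x + z)‖ + (‖w (x + z) - w x‖ₑ
            + ENNReal.ofReal ‖w x - g x‖)) := by
            refine lintegral_mono fun x => ?_
            have e : g (x + z) - g x =
                -(w (x + z) - g (x + z)) + ((w (x + z) - w x) + (w x - g x)) := by abel
            rw [e, ofReal_norm, ofReal_norm]
            refine (enorm_add_le _ _).trans ?_
            rw [enorm_neg]
            gcongr
            exact enorm_add_le _ _
        _ = (∫⁻ x in S, ENNReal.ofReal ‖w (x + z) - g (x + z)‖) + ((∫⁻ x in S, ‖w (x + z) - w x‖ₑ)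
            + ∫⁻ x in S, ENNReal.ofReal ‖w x - g x‖) := by
            rw [lintegral_add_left m1, lintegral_add_left m2]
        _ ≤ ENNReal.ofReal δ * (ENNReal.ofReal 1 * volume (TT A) + 1)
            + (‖z‖ₑ * (ENNReal.ofReal δ * (ENNReal.ofReal 2 * volume (TT A) + 1))
              + ENNReal.ofReal δ * (ENNReal.ofReal 1 * volume (TT A) + 1)) :=
            add_le_add (e3.trans e1) (add_le_add (e4.trans (mul_le_mul_right e2 _)) (e5.trans e1))
        _ = _ := by rw [hK]; ring
    have h0 : ∫⁻ x in S, ‖g (x + z) - g x‖ₑ = 0 := by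
      refine le_antisymm ?_ zero_le
      have ht : Filter.Tendsto (fun δ : ℝ => ENNReal.ofReal δ * K) (nhdsWithin 0 (Ioi 0)) (nhds 0) := by
        have : Filter.Tendsto (fun δ : ℝ => ENNReal.ofReal δ) (nhds 0) (nhds 0) := by
          simpa using ENNReal.continuous_ofReal.tendsto 0
        simpa using ENNReal.Tendsto.mul_const (this.mono_left nhdsWithin_le_nhds) (Or.inr hKt)
      exact ge_of_tendsto ht (eventually_nhdsWithin_of_forall fun δ hδ => hb δ hδ)
    have hm : Measurable fun x => ‖g (x + z) - g x‖ₑ := (hgz.sub hg).enorm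
    rw [lintegral_eq_zero_iff hm] at h0
    have h1 := (ae_restrict_iff' hS).1 h0
    filter_upwards [h1] with x hx hx1 hx2
    have := hx ⟨hx1, hx2⟩
    simpa [sub_eq_zero] using this
  have hms : MeasurableSet {p : ℂ × ℂ | p.2 ∈ TT A → p.2 + p.1 ∈ TT A → g (p.2 + p.1) = g p.2} := by
    have m1 : MeasurableSet {p : ℂ × ℂ | p.2 ∈ TT A} := measurable_snd measurableSet_TT
    have m2 : MeasurableSet {p : ℂ × ℂ | p.2 + p.1 ∈ TT A} :=
      (measurable_snd.add measurable_fst) measurableSet_TT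
    have m3 : MeasurableSet {p : ℂ × ℂ | g (p.2 + p.1) = g p.2} :=
      (hg.comp_measurable (measurable_snd.add measurable_fst)).measurableSet_eq_fun
        (hg.comp_measurable measurable_snd)
    exact m1.imp (m2.imp m3)
  have h2 := (Measure.ae_ae_comm (μ := (volume : Measure ℂ)) (ν := (volume : Measure ℂ))
    (p := fun z x => x ∈ TT A → x + z ∈ TT A → g (x + z) = g x) hms).1
    (Filter.Eventually.of_forall key)
  have hpos : volume (TT A) ≠ 0 :=
    ((vol_QQ_pos hA).trans_le (measure_mono interior_subset)).ne'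
  obtain ⟨x₀, hx₀, h3⟩ : ∃ x₀ ∈ TT A, ∀ᵐ z : ℂ, x₀ ∈ TT A → x₀ + z ∈ TT A → g (x₀ + z) = g x₀ :=
    Measure.exists_mem_of_measure_ne_zero_of_ae hpos (ae_restrict_of_ae h2)
  refine ⟨g x₀, (ae_restrict_iff' measurableSet_TT).2 ?_⟩
  have h4 := (measurePreserving_add_left (volume : Measure ℂ) (-x₀)).quasiMeasurePreserving.ae h3
  filter_upwards [h4] with y hy hyT
  simp only [add_neg_cancel_left] at hy
  exact hy hx₀ hyT

omit [CompleteSpace H] in
/-- a constant approximated by functions with small gradient vanishing on a side is zero -/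
theorem trace_zero (hA : AffineIndependent ℝ A) (j : Fin 3) (c : H)
    (h : ∀ ε > 0, ∃ w : ℂ → H, ContDiff ℝ 1 w ∧ (∀ x ∈ side A j, w x = 0) ∧
      ∫ x in TT A, ‖w x - c‖ ^ 2 ≤ ε ∧
      ∫ x in TT A, (‖fderiv ℝ w x 1‖ ^ 2 + ‖fderiv ℝ w x I‖ ^ 2) ≤ ε) :
    c = 0 := by
  obtain ⟨M, hM⟩ := isCompact_TT.exists_bound_of_continuousOn
    (f := fun x : ℂ => x - A j) (s := TT A) (by fun_prop)
  have hvol : volume (TT A) < ⊤ := isCompact_TT.measure_lt_top
  have hpos : 0 < volume.real (TT A) := ENNReal.toReal_pos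
    ((vol_QQ_pos hA).trans_le (measure_mono interior_subset)).ne' hvol.ne
  let L : H →L[ℝ] ℝ := Complex.reCLM.comp ((innerSL ℂ c).restrictScalars ℝ)
  have hL : ∀ u, |L u| ≤ ‖c‖ * ‖u‖ := fun u =>
    (abs_re_le_norm _).trans (norm_inner_le_norm (𝕜 := ℂ) c u)
  have hLc : L c = ‖c‖ ^ 2 := by
    have := inner_self_eq_norm_sq (𝕜 := ℂ) c
    simpa [L] using this
  have main : ∀ ε > 0, ‖c‖ ^ 2 * volume.real (TT A) ≤ (3 + M ^ 2) * ε := by
    intro ε hε
    obtain ⟨w, hw, hw0, hw1, hw2⟩ := h ε hε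
    have hc : Continuous (fderiv ℝ w) := hw.continuous_fderiv one_ne_zero
    have hwc := hw.continuous
    have hφ : ContDiff ℝ 1 fun x => L (w x) := L.contDiff.comp hw
    have hre : ContDiff ℝ 1 fun x : ℂ => (x - A j).re :=
      Complex.reCLM.contDiff.comp (contDiff_id.sub contDiff_const)
    have him : ContDiff ℝ 1 fun x : ℂ => (x - A j).im :=
      Complex.imCLM.contDiff.comp (contDiff_id.sub contDiff_const)
    have hg := green hA (fun x => L (w x) * (x - A j).re) (fun x => L (w x) * (x - A j).im)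
      (hφ.mul hre) (hφ.mul him) (by
        intro i x hx
        have e : L (w x) * (x - A j).re * (nrm A i).re + L (w x) * (x - A j).im * (nrm A i).im
            = L (w x) * nu A i (x - A j) := by rw [nu_eq]; ring
        rw [e]
        by_cases hij : i = j
        · subst hij; rw [hw0 x hx]; simp
        · rw [← ell_sub, ((mem_side hA).1 hx).1, ell_vertex_ne (Ne.symm hij)]; simp)
    have hdiv : ∀ x, fderiv ℝ (fun x => L (w x) * (x - A j).re) x 1
        + fderiv ℝ (fun x => L (w x) * (x - A j).im) x I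
        = 2 * L (w x) + (x - A j).re * L (fderiv ℝ w x 1) + (x - A j).im * L (fderiv ℝ w x I) := by
      intro x
      have d0 := L.hasFDerivAt.comp x (hw.differentiable one_ne_zero x).hasFDerivAt
      have d1 : HasFDerivAt (fun x : ℂ => (x - A j).re) Complex.reCLM x := by
        have := Complex.reCLM.hasFDerivAt.comp x ((hasFDerivAt_id x).sub_const (A j))
        rw [ContinuousLinearMap.comp_id] at this
        exact this
      have d2 : HasFDerivAt (fun x : ℂ => (x - A j).im) Complex.imCLM x := by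
        have := Complex.imCLM.hasFDerivAt.comp x ((hasFDerivAt_id x).sub_const (A j))
        rw [ContinuousLinearMap.comp_id] at this
        exact this
      have d3 := (d0.mul d1).fderiv
      have d4 := (d0.mul d2).fderiv
      have e3 : fderiv ℝ (fun x => L (w x) * (x - A j).re) x = _ := d3
      have e4 : fderiv ℝ (fun x => L (w x) * (x - A j).im) x = _ := d4
      rw [e3, e4]
      simp
      ring
    simp only [hdiv] at hg
    have hi1 : IntegrableOn (fun x => ‖w x - c‖ ^ 2) (TT A) :=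
      ContinuousOn.integrableOn_compact isCompact_TT (Continuous.continuousOn (by fun_prop))
    have hi2 : IntegrableOn (fun x => ‖fderiv ℝ w x 1‖ ^ 2 + ‖fderiv ℝ w x I‖ ^ 2) (TT A) :=
      ContinuousOn.integrableOn_compact isCompact_TT (Continuous.continuousOn (by fun_prop))
    have hi3 : IntegrableOn (fun x => 2 * L (w x) + (x - A j).re * L (fderiv ℝ w x 1)
        + (x - A j).im * L (fderiv ℝ w x I)) (TT A) :=
      ContinuousOn.integrableOn_compact isCompact_TT (Continuous.continuousOn (by fun_prop))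
    have hi4 : IntegrableOn (fun x => 3 * ‖w x - c‖ ^ 2
          + M ^ 2 * (‖fderiv ℝ w x 1‖ ^ 2 + ‖fderiv ℝ w x I‖ ^ 2)) (TT A) :=
      (hi1.const_mul 3).add (hi2.const_mul _)
    have hi0 : IntegrableOn (fun _ : ℂ => ‖c‖ ^ 2) (TT A) := integrableOn_const hvol.ne
    have hle : ∫ x in TT A, ‖c‖ ^ 2 ≤ ∫ x in TT A, ((2 * L (w x) + (x - A j).re * L (fderiv ℝ w x 1)
        + (x - A j).im * L (fderiv ℝ w x I)) + (3 * ‖w x - c‖ ^ 2
          + M ^ 2 * (‖fderiv ℝ w x 1‖ ^ 2 + ‖fderiv ℝ w x I‖ ^ 2))) := by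
      refine setIntegral_mono_on hi0 (hi3.add hi4)
        measurableSet_TT fun x hx => ?_
      have a0 : L (w x) = ‖c‖ ^ 2 + L (w x - c) := by rw [map_sub, hLc]; ring
      have a1 := (abs_le.1 (hL (w x - c))).1
      have hMx := hM x hx
      have hM0 : 0 ≤ M := (norm_nonneg _).trans hMx
      have b : ∀ (r : ℝ) (u : H), |r| ≤ M → -(M * (‖c‖ * ‖u‖)) ≤ r * L u := fun r u hr => by
        have := mul_le_mul hr (hL u) (abs_nonneg _) hM0
        rw [← abs_mul] at this
        exact (abs_le.1 this).1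
      have a2 := b _ (fderiv ℝ w x 1) ((abs_re_le_norm _).trans hMx)
      have a3 := b _ (fderiv ℝ w x I) ((abs_im_le_norm _).trans hMx)
      rw [a0]
      nlinarith [sq_nonneg (‖c‖ - 3 * ‖w x - c‖), sq_nonneg (‖c‖ - 2 * (M * ‖fderiv ℝ w x 1‖)),
        sq_nonneg (‖c‖ - 2 * (M * ‖fderiv ℝ w x I‖)), sq_nonneg ‖c‖]
    rw [integral_add hi3 hi4, hg,
      integral_add (hi1.const_mul 3) (hi2.const_mul _), integral_const_mul, integral_const_mul,
      setIntegral_const, smul_eq_mul] at hle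
    have := mul_le_mul_of_nonneg_left hw2 (sq_nonneg M)
    nlinarith
  have h0 : ‖c‖ ^ 2 * volume.real (TT A) ≤ 0 := by
    refine le_of_forall_pos_le_add fun θ hθ => ?_
    have hM3 : 0 < 3 + M ^ 2 := by positivity
    have := main (θ / (3 + M ^ 2)) (div_pos hθ hM3)
    rw [mul_div_cancel₀ _ hM3.ne'] at this
    linarith
  have h1 : ‖c‖ ^ 2 ≤ 0 := by
    by_contra hh
    push Not at hh
    have := mul_pos hh hpos
    linarith
  have h2 : ‖c‖ = 0 := by nlinarith [norm_nonneg c]
  exact norm_eq_zero.1 h2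

end Vale.Agent.P099
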