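import Vale.Agent.P099.Mollify
import Vale.Agent.P099.Limit
import Vale.Agent.P099.Koopman

open MeasureTheory Set Complex Filter Topology AddCircle Metric
open scoped Real ComplexConjugate ENNReal

noncomputable section

namespace Vale.Agent.P099

variable {A : Fin 3 → ℂ}

lemma rational_of_cc (hA : AffineIndependent ℝ A) {n : ℤ} (hn : n ≠ 0)
    (h : ∀ i j, cc A i ^ n = cc A j ^ n) (i : Fin 3) :
    ∃ r : ℚ, EuclideanGeometry.angle (A (i + 1)) (A i) (A (i + 2)) = r * π := by
  have e0 : ∀ i : Fin 3, i + 2 + 2 = i + 1 ∧ i + 2 + 1 = i ∧ i + 1 + 2 = i ∧ i + 1 + 1 = i + 2 := by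
    decide
  have e1 : edge A (i + 2) = A (i + 1) - A i := by
    rw [edge, (e0 i).1, (e0 i).2.1]
  have e2 : edge A (i + 1) = -(A (i + 2) - A i) := by
    rw [edge, (e0 i).2.2.1, (e0 i).2.2.2, neg_sub]
  have h1 := edge_ne_zero hA (i + 2)
  have h2 := edge_ne_zero hA (i + 1)
  have h3 := h (i + 2) (i + 1)
  rw [cc_eq_udir, cc_eq_udir, udir, udir] at h3
  rw [e1] at h1 h3
  rw [e2] at h2 h3
  set a := A (i + 1) - A i
  set b := A (i + 2) - A i
  have hb : b ≠ 0 := neg_ne_zero.1 h2
  have ha' : ((‖a‖ : ℝ) : ℂ) ≠ 0 := by simpa using h1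
  have hb' : ((‖b‖ : ℝ) : ℂ) ≠ 0 := by simpa using hb
  have h4 : Complex.exp (arg (a / b) * I) = (a / ‖a‖) / (b / ‖b‖) := by
    have := Complex.norm_mul_exp_arg_mul_I (a / b)
    rw [norm_div] at this
    push_cast at this
    field_simp at this ⊢
    linear_combination this
  have h5 : Complex.exp (n * (2 * (arg (a / b) * I))) = 1 := by
    rw [Complex.exp_int_mul, show (2 : ℂ) = (2 : ℕ) by norm_num, Complex.exp_nat_mul, h4, div_pow,
      div_zpow, h3, norm_neg, neg_div, neg_sq, div_self]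
    exact zpow_ne_zero _ (pow_ne_zero _ (div_ne_zero hb hb'))
  obtain ⟨k, hk⟩ := Complex.exp_eq_one_iff.1 h5
  have h6 : arg (a / b) = (k / n : ℚ) * π := by
    have hn' : (n : ℝ) ≠ 0 := by exact_mod_cast hn
    have := congrArg Complex.im hk
    simp at this
    push_cast
    field_simp
    linarith
  refine ⟨|k / n|, ?_⟩
  rw [EuclideanGeometry.angle, vsub_eq_sub, vsub_eq_sub, Complex.angle_eq_abs_arg h1 hb, h6,
    abs_mul, abs_of_pos Real.pi_pos, Rat.cast_abs]

variable {H : Type} [NormedAddCommGroup H] [InnerProductSpace ℂ H] [CompleteSpace H]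

lemma approx_W (hA : AffineIndependent ℝ A) (G : Gen H) {f : Ph → H} (hf : BM f 1)
    (heq : ∀ u, 0 < u → ∀ᵐ p ∂(mu0 A), f p = G.V u (f (fwd A u p))) {ε : ℝ} (hε : 0 < ε) :
    ∃ w : ℤ → ℂ → H, (∀ n, ContDiff ℝ 1 (w n)) ∧
      (∀ j n, ∀ x ∈ side A j, w (-n) x = cc A j ^ n • w n x) ∧
      (∀ n, ∫ x in TT A, ‖w n x - G.W (fourierCoeff (fun θ => ft A f (x, θ)) n)‖ ^ 2 ≤ ε) ∧
      ∀ n, ∫ x in TT A, (‖fderiv ℝ (w n) x 1‖ ^ 2 + ‖fderiv ℝ (w n) x I‖ ^ 2) ≤ ε := by
  set Γ := ‖G.W'‖ ^ 2 * volume.real (TT A) with hΓ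
  have hΓ0 : 0 ≤ Γ := by positivity
  obtain ⟨K, hK⟩ := exists_nat_gt (200 * Γ / ε)
  have hK0 : 0 < (K : ℝ) := lt_of_le_of_lt (by positivity) hK
  obtain ⟨e, he1, he0⟩ : ∃ e : ℝ, 100 * (K ^ 2 * (e ^ 2 + e * (1 + Γ))) + ‖G.W‖ ^ 2 * e ^ 2 ≤ ε / 2
      ∧ 0 < e := by
    have h1 : Continuous fun e : ℝ => 100 * (K ^ 2 * (e ^ 2 + e * (1 + Γ))) + ‖G.W‖ ^ 2 * e ^ 2 := by
      fun_prop
    have h2 := ((h1.tendsto 0).mono_left (nhdsWithin_le_nhds (s := Ioi 0))).eventually
      (ge_mem_nhds (a := ε / 2) (by simpa using hε))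
    exact (h2.and self_mem_nhdsWithin).exists
  obtain ⟨t, ht, a, ha, hb, hE, hY, hG, hF⟩ := approx hA G hf heq he0
  have hd : ∀ n x v, fderiv ℝ (fun x => G.W (a n x)) x v = G.W (fderiv ℝ (a n) x v) := by
    intro n x v
    have := ((G.W.restrictScalars ℝ).hasFDerivAt.comp x
      ((ha n).differentiable (by norm_num) x).hasFDerivAt).fderiv
    exact congrArg (fun T : ℂ →L[ℝ] H => T v) this
  refine ⟨fun n x => G.W (a n x), fun n => (G.W.restrictScalars ℝ).contDiff.comp
    ((ha n).of_le (by norm_num)), fun j n x hx => by simp only [hb j n x hx, map_smul],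
    fun n => ?_, fun n => ?_⟩
  · have h1 : ∫ x in TT A, ‖G.W (a n x) - G.W (fourierCoeff (fun θ => ft A f (x, θ)) n)‖ ^ 2
        ≤ ∫ x in TT A, ‖G.W‖ ^ 2 * ‖a n x - fourierCoeff (fun θ => ft A f (x, θ)) n‖ ^ 2 := by
      refine integral_mono_of_nonneg (ae_of_all _ fun x => sq_nonneg _) ?_
        (ae_of_all _ fun x => ?_)
      · refine Integrable.const_mul ?_ _
        have h2 : MemLp (a n) 2 (volume.restrict (TT A)) := by
          obtain ⟨B, hB⟩ := (isCompact_TT (A := A)).exists_bound_of_continuousOn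
            (ha n).continuous.continuousOn
          exact MemLp.of_bound (ha n).continuous.aestronglyMeasurable B
            ((ae_restrict_mem measurableSet_TT).mono hB)
        have h3 := (hf.ft (A := A)).coeff n
        exact (h2.sub (MemLp.of_bound h3.m.aestronglyMeasurable 1
          (ae_of_all _ h3.b))).norm.integrable_sq
      · simp only
        rw [← map_sub, ← mul_pow]
        exact pow_le_pow_left₀ (norm_nonneg _) (G.W.le_opNorm _) 2
    rw [integral_const_mul] at h1
    have h2 : 0 ≤ 100 * (K ^ 2 * (e ^ 2 + e * (1 + Γ))) := by positivity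
    have h3 := mul_le_mul_of_nonneg_left (hF n) (sq_nonneg ‖G.W‖)
    linarith
  · simp only [hd]
    refine (chain hA G.W G.W' G.skew a ha hb e t Γ he0 ht hE hY hG K (by exact_mod_cast hK0)
      n).trans ?_
    have h2 : 0 ≤ ‖G.W‖ ^ 2 * e ^ 2 := by positivity
    have h3 : 100 * (Γ / K) ≤ ε / 2 := by
      rw [div_lt_iff₀ hε] at hK
      rw [← mul_div_assoc, div_le_iff₀ hK0]; linarith
    linarith

omit [CompleteSpace H] in
lemma sq_comb (u v : H) {z : ℂ} (hz : ‖z‖ = 1) : ‖u - z • v‖ ^ 2 ≤ 2 * ‖u‖ ^ 2 + 2 * ‖v‖ ^ 2 := by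
  have h := norm_sub_le u (z • v)
  rw [norm_smul, hz, one_mul] at h
  nlinarith [pow_le_pow_left₀ (norm_nonneg _) h 2, sq_nonneg (‖u‖ - ‖v‖)]

lemma intOn {g : ℂ → ℝ} (hg : Continuous g) : Integrable g (volume.restrict (TT A)) :=
  hg.continuousOn.integrableOn_compact isCompact_TT

theorem rigid (hA : AffineIndependent ℝ A)
    (hirr : ¬ ∀ i, ∃ r : ℚ, EuclideanGeometry.angle (A (i + 1)) (A i) (A (i + 2)) = r * π) :
    Rigid (fwd A) (liouville A) := by
  intro H _ _ _ _ G f hfm hf1 heq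
  have hf : BM f 1 := ⟨hfm, hf1⟩
  have hg := hf.ft (A := A)
  have key := fun ε (hε : 0 < ε) =>
    approx_W hA G hf (fun u hu => ae_liouville_iff.1 (heq u hu)) hε
  have h1 : ∀ n, ∃ c, ∀ᵐ x ∂(volume.restrict (TT A)),
      G.W (fourierCoeff (fun θ => ft A f (x, θ)) n) = c := fun n => by
    have h := (hg.coeff n).clm G.W
    refine ae_const_of_approx hA _ h.m _ h.b fun ε hε => ?_
    obtain ⟨w, h1, -, h3, h4⟩ := key ε hε
    exact ⟨w n, h1 n, h3 n, h4 n⟩
  choose c hc using h1
  have h2 : ∀ j n, c (-n) = cc A j ^ n • c n := by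
    intro j n
    have hz : ‖cc A j ^ n‖ = 1 := by rw [norm_zpow, norm_cc hA, one_zpow]
    rw [← sub_eq_zero]
    refine trace_zero hA j _ fun ε hε => ?_
    obtain ⟨w, h1, h2, h3, h4⟩ := key (ε / 4) (by positivity)
    have h3' : ∀ m, ∫ x in TT A, ‖w m x - c m‖ ^ 2 ≤ ε / 4 := fun m => by
      refine le_trans (le_of_eq (integral_congr_ae ?_)) (h3 m)
      filter_upwards [hc m] with x hx
      rw [hx]
    have hcw : ∀ m, Continuous (w m) := fun m => (h1 m).continuous
    have hcd : ∀ m v, Continuous fun x => fderiv ℝ (w m) x v := fun m v =>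
      ((h1 m).continuous_fderiv (by norm_num)).clm_apply continuous_const
    refine ⟨fun x => w (-n) x - cc A j ^ n • w n x, (h1 _).sub ((h1 _).const_smul _),
      fun x hx => sub_eq_zero.2 (h2 j n x hx), ?_, ?_⟩
    · have i1 : ∀ m, Integrable (fun x => 2 * ‖w m x - c m‖ ^ 2) (volume.restrict (TT A)) :=
        fun m => intOn (by have := hcw m; fun_prop)
      refine (integral_mono_of_nonneg (ae_of_all _ fun x => sq_nonneg _) ((i1 (-n)).add (i1 n))
        (ae_of_all _ fun x => ?_)).trans ?_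
      · refine le_trans (le_of_eq ?_) (sq_comb (w (-n) x - c (-n)) (w n x - c n) hz)
        have : w (-n) x - cc A j ^ n • w n x - (c (-n) - cc A j ^ n • c n)
            = w (-n) x - c (-n) - cc A j ^ n • (w n x - c n) := by module
        simp only [this]
      · refine (integral_add (i1 (-n)) (i1 n)).trans_le ?_
        rw [integral_const_mul, integral_const_mul]
        linarith [h3' (-n), h3' n]
    · have i1 : ∀ m, Integrable (fun x => 2 * (‖fderiv ℝ (w m) x 1‖ ^ 2
          + ‖fderiv ℝ (w m) x I‖ ^ 2)) (volume.restrict (TT A)) :=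
        fun m => intOn (by have := hcd m 1; have := hcd m I; fun_prop)
      refine (integral_mono_of_nonneg (ae_of_all _ fun x => by positivity) ((i1 (-n)).add (i1 n))
        (ae_of_all _ fun x => ?_)).trans ?_
      · have hd := (((h1 (-n)).differentiable (by norm_num) x).hasFDerivAt.sub
          (((h1 n).differentiable (by norm_num) x).hasFDerivAt.const_smul (cc A j ^ n))).fderiv
        have hd' : ∀ v, fderiv ℝ (fun x => w (-n) x - cc A j ^ n • w n x) x v
            = fderiv ℝ (w (-n)) x v - cc A j ^ n • fderiv ℝ (w n) x v := fun v =>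
          congrArg (fun T : ℂ →L[ℝ] H => T v) hd
        simp only [hd', Pi.add_apply]
        linarith [sq_comb (fderiv ℝ (w (-n)) x 1) (fderiv ℝ (w n) x 1) hz,
          sq_comb (fderiv ℝ (w (-n)) x I) (fderiv ℝ (w n) x I) hz]
      · refine (integral_add (i1 (-n)) (i1 n)).trans_le ?_
        rw [integral_const_mul, integral_const_mul]
        linarith [h4 (-n), h4 n]
  have h3 : ∀ n, n ≠ 0 → c n = 0 := by
    intro n hn
    by_contra hne
    refine hirr (rational_of_cc hA hn fun i j => ?_)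
    exact smul_left_injective ℂ hne ((h2 i n).symm.trans (h2 j n))
  have h4 : ∀ᵐ p ∂(mu0 A), G.W (ft A f p) = c 0 := by
    rw [Measure.ae_prod_iff_ae_ae
      ((hg.clm G.W).m.measurableSet_eq_fun stronglyMeasurable_const)]
    filter_upwards [ae_all_iff.2 hc] with x hx
    have hb := (hg.clm G.W).right x
    have hk : BM (fun _ : UnitAddCircle => c 0) ‖c 0‖ := ⟨stronglyMeasurable_const, fun _ => le_rfl⟩
    have h5 := hb.comb hk 1 (-1)
    have h6 := fourier_unique _ (MemLp.of_bound h5.m.aestronglyMeasurable _ (ae_of_all _ h5.b))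
      fun n => by
        rw [coeff_comb hb hk, coeff_clm _ (hg.right x), hx n]
        have h7 : fourierCoeff (fun _ : UnitAddCircle => c 0) n
            = (Pi.single 0 (1 : ℂ) : ℤ → ℂ) n • c 0 := by
          rw [← fourierCoeff_fourier (T := 1) 0]
          simp only [fourierCoeff]
          rw [integral_smul_const]
          simp
        rw [h7]
        by_cases hn : n = 0
        · subst hn; simp
        · simp [hn, h3 n hn]
    filter_upwards [h6] with θ hθ
    simpa [add_neg_eq_zero] using hθ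
  refine ⟨c 0, ae_liouville_iff.2 ?_⟩
  filter_upwards [h4, ae_mem_QQ] with p hp hq
  rwa [ft, fold_of_mem hA (interior_subset hq), indicator_of_mem (s := {q : Ph | q.1 ∈ QQ A}) hq]
    at hp

theorem main (hA : AffineIndependent ℝ A)
    (hirr : ¬ ∀ i, ∃ r : ℚ, EuclideanGeometry.angle (A (i + 1)) (A i) (A (i + 2)) = r * π) :
    IsErgodicFlow (flow A) (liouville A) ∧
      IsErgodicFlow (fun t (z : Ph × Ph) => (flow A t z.1, flow A t z.2))
        ((liouville A).prod (liouville A)) := by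
  have := isProb_liouville hA
  have h : ∀ t, 0 < t → flow A t = fwd A t := fun t ht => by ext1 p; simp [flow, ht.le]
  refine ⟨ergodic_of_rigid _ _ h (rigid hA hirr), weakMixing_of_rigid _ _ h
    (fun t ht => measurePreserving_fwd_liouville hA ht) (fun s t hs ht p => fwd_add hA hs ht p)
    (ae_liouville_iff.2 ?_) (rigid hA hirr)⟩
  filter_upwards [ae_mem_QQ] with p hp using tendsto_fwd hA hp

end Vale.Agent.P099
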