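import Vale.Agent.P099.Flow

open MeasureTheory Set Complex Filter Topology AddCircle
open scoped Real ComplexConjugate ENNReal

noncomputable section

namespace Vale.Agent.P099

variable {A : Fin 3 → ℂ}

/-- Lebesgue times Haar -/
abbrev lam : Measure Ph := (volume : Measure ℂ).prod haarAddCircle

/-- unnormalized Liouville measure -/
abbrev mu0 (A : Fin 3 → ℂ) : Measure Ph := (volume.restrict (TT A)).prod haarAddCircle

lemma mu0_eq : mu0 A = lam.restrict (TT A ×ˢ univ) := by
  rw [← Measure.prod_restrict, Measure.restrict_univ]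

lemma restrict_QQ : (volume : Measure ℂ).restrict (QQ A) = volume.restrict (TT A) :=
  Measure.restrict_congr_set QQ_ae_eq_TT

lemma liouville_eq : liouville A = (volume (QQ A))⁻¹ • mu0 A := by
  unfold liouville ProbabilityTheory.cond
  rw [Measure.prod_smul_left, restrict_QQ]

instance : IsFiniteMeasure (volume.restrict (TT A)) :=
  isFiniteMeasure_restrict.2 isCompact_TT.measure_lt_top.ne

lemma isProb_liouville (hA : AffineIndependent ℝ A) : IsProbabilityMeasure (liouville A) := by
  unfold liouville
  have := ProbabilityTheory.cond_isProbabilityMeasure_of_finite (vol_QQ_pos hA).ne'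
    (vol_QQ_lt_top (A := A)).ne
  infer_instance

lemma ae_mem_QQ : ∀ᵐ p ∂(mu0 A), p.1 ∈ QQ A := by
  have h : ∀ᵐ x ∂(volume.restrict (TT A)), x ∈ QQ A := by
    rw [← restrict_QQ]; exact ae_restrict_mem measurableSet_QQ
  exact Measure.quasiMeasurePreserving_fst.ae h

lemma ae_liouville_iff {P : Ph → Prop} :
    (∀ᵐ p ∂(liouville A), P p) ↔ ∀ᵐ p ∂(mu0 A), P p := by
  rw [liouville_eq]
  exact Measure.ae_ennreal_smul_measure_iff (ENNReal.inv_ne_zero.2 vol_QQ_lt_top.ne)

def shift (u : ℝ) (p : Ph) : Ph := (p.1 + u * vel p.2, p.2)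

lemma continuous_shift (u : ℝ) : Continuous (shift u) := by
  unfold shift
  have := continuous_vel
  fun_prop

lemma measurePreserving_shift (u : ℝ) : MeasurePreserving (shift u) lam lam := by
  have h1 : MeasurePreserving (fun q : UnitAddCircle × ℂ => (id q.1, q.2 + u * vel q.1))
      (haarAddCircle.prod volume) (haarAddCircle.prod volume) := by
    refine (MeasurePreserving.id _).skew_product (g := fun θ x => x + u * vel θ) ?_ ?_
    · have := measurable_vel
      unfold Function.uncurry
      fun_prop
    · exact Eventually.of_forall fun θ => map_add_right_eq_self _ _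
  exact Measure.measurePreserving_swap.comp (h1.comp Measure.measurePreserving_swap)

lemma measurePreserving_mirP (hA : AffineIndependent ℝ A) (j : Fin 3) :
    MeasurePreserving (mirP A j) lam lam :=
  (measurePreserving_mir hA j).prod (measurePreserving_reflDir j)

lemma continuous_rev : Continuous rev := by unfold rev; fun_prop

lemma measurePreserving_rev (ν : Measure ℂ) [SFinite ν] :
    MeasurePreserving rev (ν.prod haarAddCircle) (ν.prod haarAddCircle) :=
  (MeasurePreserving.id ν).prod (measurePreserving_add_right haarAddCircle _)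

lemma exists_del_measure (hA : AffineIndependent ℝ A) :
    ∃ C : ℝ, 0 < C ∧ ∀ r, 0 ≤ r → mu0 A {p | del A p.1 < r} ≤ ENNReal.ofReal (C * r ^ 2) := by
  obtain ⟨C, hC, h⟩ := exists_vertex_const hA
  refine ⟨3 * π * C ^ 2, by positivity, fun r hr => ?_⟩
  have h1 : {p : Ph | del A p.1 < r} = {x | del A x < r} ×ˢ univ := by ext; simp
  rw [h1, Measure.prod_prod, measure_univ, mul_one,
    Measure.restrict_apply (measurableSet_lt continuous_del.measurable measurable_const)]
  calc volume ({x | del A x < r} ∩ TT A) ≤ volume (⋃ j, Metric.closedBall (A j) (C * r)) := by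
        apply measure_mono
        rintro x ⟨h1, h2⟩
        obtain ⟨j, hj⟩ := h x h2 r h1
        exact mem_iUnion.2 ⟨j, by rwa [Metric.mem_closedBall, dist_eq_norm]⟩
    _ ≤ ∑ j, volume (Metric.closedBall (A j) (C * r)) := measure_iUnion_fintype_le _ _
    _ = ENNReal.ofReal (3 * π * C ^ 2 * r ^ 2) := by
        simp only [Complex.volume_closedBall, Finset.sum_const, Finset.card_univ,
          Fintype.card_fin, nsmul_eq_mul]
        have : (3 * π * C ^ 2 * r ^ 2) = 3 * ((C * r) ^ 2 * π) := by ring
        rw [this, ENNReal.ofReal_mul (p := 3) (by norm_num),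
          ENNReal.ofReal_mul (p := (C * r) ^ 2) (by positivity),
          ENNReal.ofReal_pow (by positivity), ← NNReal.coe_real_pi, ENNReal.ofReal_coe_nnreal]
        simp

lemma small_step (hA : AffineIndependent ℝ A) {u : ℝ} (hu : 0 < u) {B : Set Ph}
    (hB : MeasurableSet B) :
    mu0 A (fwd A u ⁻¹' B) ≤ mu0 A B + mu0 A {p | del A p.1 < 4 * u} := by
  let E : Option (Fin 3) → Set Ph := fun o => match o with
    | none => {q | ∀ i, 0 < ell A i (shift (-u) q).1}
    | some j => {q | ell A j (shift (-u) q).1 < 0 ∧ ∀ i, i ≠ j → 0 < ell A i (shift (-u) q).1}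
  let m : Option (Fin 3) → Ph → Ph := fun o => match o with
    | none => shift u
    | some j => mirP A j ∘ shift u
  have hm : ∀ o, MeasurePreserving (m o) lam lam := by
    rintro (_ | j)
    · exact measurePreserving_shift u
    · exact (measurePreserving_mirP hA j).comp (measurePreserving_shift u)
  have hc : ∀ i, Measurable fun q : Ph => ell A i (shift (-u) q).1 := fun i =>
    ((continuous_ell i).comp (continuous_fst.comp (continuous_shift _))).measurable
  have hE : ∀ o, MeasurableSet (E o) := by
    rintro (_ | j)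
    · simp only [E, ofPred_forall]
      exact MeasurableSet.iInter fun i => measurableSet_lt measurable_const (hc i)
    · simp only [E, ofPred_and, ofPred_forall]
      exact (measurableSet_lt (hc j) measurable_const).inter
        (MeasurableSet.iInter fun i => MeasurableSet.iInter fun _ =>
          measurableSet_lt measurable_const (hc i))
  have hdisj : Pairwise (Function.onFun Disjoint E) := by
    rintro (_ | i) (_ | j) hij
    · exact absurd rfl hij
    · refine disjoint_left.2 fun q h1 h2 => ?_
      have := h1 j; have := h2.1; linarith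
    · refine disjoint_left.2 fun q h1 h2 => ?_
      have := h2 i; have := h1.1; linarith
    · refine disjoint_left.2 fun q h1 h2 => ?_
      have hne : i ≠ j := fun h => hij (by rw [h])
      have := h2.2 i hne; have := h1.1; linarith
  set D : Set Ph := TT A ×ˢ univ with hD
  have hDm : MeasurableSet D := measurableSet_TT.prod MeasurableSet.univ
  have hsub : ∀ p : Ph, p.1 ∈ QQ A → p ∈ fwd A u ⁻¹' B →
      p ∈ (⋃ o, m o ⁻¹' (B ∩ D ∩ E o)) ∪ {p | del A p.1 < 4 * u} := by
    intro p hp hpB
    by_cases hd : del A p.1 < 4 * u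
    · exact Or.inr hd
    left
    push Not at hd
    obtain ⟨j, hj⟩ := exists_chart hd
    have hmem : fwd A u p ∈ D := ⟨fwd_mem hA hu.le p, mem_univ _⟩
    have hQ := (mem_QQ hA).1 hp
    rcases fwd_local hA (interior_subset hp) hj hu.le (by linarith) with ⟨h1, -⟩ | ⟨h1, h2⟩
    · refine mem_iUnion.2 ⟨none, ?_⟩
      have e : m none p = fwd A u p := h1.symm
      rw [mem_preimage, e]
      refine ⟨⟨hpB, hmem⟩, fun i => ?_⟩
      rw [h1]
      simpa [shift] using hQ i
    · refine mem_iUnion.2 ⟨some j, ?_⟩
      have e : m (some j) p = fwd A u p := h1.symm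
      rw [mem_preimage, e]
      have e2 : (shift (-u) (fwd A u p)).1 = mir A j p.1 := by
        rw [h1]; simp [shift, mirP, mir_line hA]
      refine ⟨⟨hpB, hmem⟩, ?_, fun i hi => ?_⟩
      · rw [e2, ell_mir hA]; linarith [hQ j]
      · rw [e2]
        have h3 := ell_le_add hA i p.1 (mir A j p.1)
        rw [norm_sub_rev, norm_mir_sub_self hA, abs_of_pos (hQ j)] at h3
        have h4 := ell_line_ge hA j p.1 hu.le p.2
        linarith [hj i hi]
  calc mu0 A (fwd A u ⁻¹' B)
      ≤ mu0 A ((⋃ o, m o ⁻¹' (B ∩ D ∩ E o)) ∪ {p | del A p.1 < 4 * u}) := by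
        apply measure_mono_ae
        filter_upwards [ae_mem_QQ (A := A)] with p hp using hsub p hp
    _ ≤ mu0 A (⋃ o, m o ⁻¹' (B ∩ D ∩ E o)) + mu0 A {p | del A p.1 < 4 * u} := measure_union_le _ _
    _ ≤ _ := by
        refine add_le_add ?_ le_rfl
        calc mu0 A (⋃ o, m o ⁻¹' (B ∩ D ∩ E o)) ≤ lam (⋃ o, m o ⁻¹' (B ∩ D ∩ E o)) := by
              rw [mu0_eq]; exact Measure.restrict_apply_le _ _
          _ ≤ ∑' o, lam (m o ⁻¹' (B ∩ D ∩ E o)) := measure_iUnion_le _
          _ = ∑' o, lam (B ∩ D ∩ E o) := by
              congr 1; ext o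
              exact (hm o).measure_preimage ((hB.inter hDm).inter (hE o)).nullMeasurableSet
          _ = lam (⋃ o, B ∩ D ∩ E o) := by
              refine (measure_iUnion ?_ fun o => (hB.inter hDm).inter (hE o)).symm
              exact fun i j hij => (hdisj hij).mono inter_subset_right inter_subset_right
          _ ≤ lam (B ∩ D) := measure_mono (iUnion_subset fun o => inter_subset_left)
          _ = mu0 A B := by rw [mu0_eq, Measure.restrict_apply hB]

lemma fwd_zero_ae (hA : AffineIndependent ℝ A) : ∀ᵐ p ∂(mu0 A), fwd A 0 p = p := by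
  filter_upwards [ae_mem_QQ (A := A)] with p hp
  simpa using fwd_free le_rfl (freeTime_pos hA hp)

lemma steps (hA : AffineIndependent ℝ A) {u : ℝ} (hu : 0 < u) {B : Set Ph}
    (hB : MeasurableSet B) (k : ℕ) :
    mu0 A (fwd A (k * u) ⁻¹' B) ≤ mu0 A B + k * mu0 A {p | del A p.1 < 4 * u} := by
  induction k with
  | zero =>
    simp only [Nat.cast_zero, zero_mul, add_zero]
    apply measure_mono_ae
    filter_upwards [fwd_zero_ae hA] with p hp h
    have h' : fwd A 0 p ∈ B := h
    rwa [hp] at h'
  | succ k ih =>
    have hk : (0 : ℝ) ≤ k * u := by positivity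
    have : fwd A ((k + 1 : ℕ) * u) ⁻¹' B = fwd A u ⁻¹' (fwd A (k * u) ⁻¹' B) := by
      ext p
      simp only [mem_preimage]
      rw [← fwd_add hA hu.le hk]
      push_cast; ring_nf
    rw [this]
    refine (small_step hA hu (measurable_fwd hA hk hB)).trans ?_
    push_cast
    rw [add_mul, one_mul, ← add_assoc]
    gcongr

lemma preimage_le (hA : AffineIndependent ℝ A) {t : ℝ} (ht : 0 ≤ t) {B : Set Ph}
    (hB : MeasurableSet B) : mu0 A (fwd A t ⁻¹' B) ≤ mu0 A B := by
  rcases ht.eq_or_lt with rfl | ht
  · simpa using steps hA one_pos hB 0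
  obtain ⟨C, hC, h⟩ := exists_del_measure hA
  have h1 : ∀ N : ℕ, mu0 A (fwd A t ⁻¹' B)
      ≤ mu0 A B + ENNReal.ofReal (16 * C * t ^ 2 * (1 / ((N : ℝ) + 1))) := by
    intro N
    have hN : (0 : ℝ) < N + 1 := by positivity
    have h2 := steps hA (div_pos ht hN) hB (N + 1)
    have e : ((N + 1 : ℕ) : ℝ) * (t / (N + 1)) = t := by push_cast; field_simp
    rw [e] at h2
    refine h2.trans ?_
    gcongr
    refine (mul_le_mul_right (h _ (by positivity)) _).trans (le_of_eq ?_)
    rw [← ENNReal.ofReal_natCast, ← ENNReal.ofReal_mul (by positivity)]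
    congr 1
    push_cast; field_simp; ring
  have h2 : Tendsto (fun N : ℕ => mu0 A B + ENNReal.ofReal (16 * C * t ^ 2 * (1 / ((N : ℝ) + 1))))
      atTop (𝓝 (mu0 A B + ENNReal.ofReal (16 * C * t ^ 2 * 0))) :=
    tendsto_const_nhds.add (ENNReal.tendsto_ofReal
      (tendsto_one_div_add_atTop_nhds_zero_nat.const_mul _))
  simpa using ge_of_tendsto' h2 h1

lemma measurePreserving_fwd (hA : AffineIndependent ℝ A) {t : ℝ} (ht : 0 ≤ t) :
    MeasurePreserving (fwd A t) (mu0 A) (mu0 A) := by
  refine ⟨measurable_fwd hA ht, ?_⟩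
  ext B hB
  rw [Measure.map_apply (measurable_fwd hA ht) hB]
  apply le_antisymm (preimage_le hA ht hB)
  have h1 := preimage_le hA ht hB.compl
  rw [preimage_compl, measure_compl (measurable_fwd hA ht hB) (measure_ne_top _ _),
    measure_compl hB (measure_ne_top _ _)] at h1
  exact (ENNReal.sub_le_sub_iff_left (measure_mono (subset_univ _)) (measure_ne_top _ _)).1 h1

lemma measurePreserving_fwd_liouville (hA : AffineIndependent ℝ A) {t : ℝ} (ht : 0 ≤ t) :
    MeasurePreserving (fwd A t) (liouville A) (liouville A) := by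
  rw [liouville_eq]; exact (measurePreserving_fwd hA ht).smul_measure _

lemma measurePreserving_flow (hA : AffineIndependent ℝ A) (t : ℝ) :
    MeasurePreserving (flow A t) (liouville A) (liouville A) := by
  by_cases ht : 0 ≤ t
  · have : flow A t = fwd A t := by ext1 p; simp [flow, ht]
    rw [this]; exact measurePreserving_fwd_liouville hA ht
  · have : flow A t = rev ∘ fwd A (-t) ∘ rev := by ext1 p; simp [flow, ht]
    rw [this, liouville_eq]
    exact ((measurePreserving_rev _).comp
      ((measurePreserving_fwd hA (by linarith)).comp (measurePreserving_rev _))).smul_measure _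

end Vale.Agent.P099
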