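import Vale.Agent.P099.Cutoff
import Vale.Agent.P099.Conv
import Vale.Agent.P099.Chain
import Vale.Agent.P099.Gen

open MeasureTheory Set Complex Filter Topology AddCircle Metric
open scoped Real ComplexConjugate ENNReal

noncomputable section

namespace Vale.Agent.P099

variable {A : Fin 3 → ℂ}
variable {H : Type} [NormedAddCommGroup H] [InnerProductSpace ℂ H] [CompleteSpace H]

/-- unfolded function -/
def ft (A : Fin 3 → ℂ) (f : Ph → H) (p : Ph) : H := indicator {q : Ph | q.1 ∈ QQ A} f (fold A p)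

omit [InnerProductSpace ℂ H] [CompleteSpace H] in
lemma BM.ft {f : Ph → H} (hf : BM f 1) : BM (ft A f) 1 :=
  ⟨(hf.m.indicator (measurableSet_QQ.preimage measurable_fst)).comp_measurable measurable_fold,
    fun _ => (norm_indicator_le_norm_self _ _).trans (hf.b _)⟩

variable {ε η L C : ℝ}

/-- cut-off unfolded function -/
def uu (c : Cut A ε η L) (f : Ph → H) (p : Ph) : H := c.χ (fold A p) • ft A f p

omit [CompleteSpace H] in
lemma BM.uu {f : Ph → H} (hf : BM f 1) (c : Cut A ε η L) : BM (uu c f) 1 :=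
  ⟨(c.mχ.comp measurable_fold).stronglyMeasurable.smul hf.ft.m, fun p => by
    rw [P099.uu, norm_smul, Real.norm_of_nonneg (c.χ0 _)]
    exact mul_le_one₀ (c.χ1 _) (norm_nonneg _) (hf.ft.b _)⟩

lemma Orb.of_mirP (hA : AffineIndependent ℝ A) {j : Fin 3} {p q : Ph}
    (h : Orb A j p (mirP A j q)) : Orb A j p q := by
  rcases h with h | h
  · exact Or.inr h
  · exact Or.inl (by rw [h, mirP_mirP hA])

omit [CompleteSpace H] in
lemma uu_mirP (hA : AffineIndependent ℝ A) (hh : 0 < η / L) (c : Cut A ε η L) (f : Ph → H)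
    {j : Fin 3} {x : ℂ} (hx : x ∈ side A j) {y : ℂ} (θ : UnitAddCircle) (hy : ‖y - x‖ ≤ η / L) :
    uu c f (mirP A j (y, θ)) = uu c f (y, θ) := by
  have hxT := side_subset_TT hA hx
  have hx0 := ((mem_side hA).1 hx).1
  have hy' : ‖mir A j y - x‖ ≤ η / L := by
    rw [← mir_of_ell_zero hx0, norm_mir_sub hA]; exact hy
  by_cases hd : 10 * (η / L) ≤ del A x
  · obtain ⟨k, hk⟩ := exists_chart hd
    have hkj : j = k := by
      by_contra h
      linarith [hk j h]
    subst hkj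
    have h1 := fold_chart hA hxT hk (p := (y, θ)) (by simp only; linarith)
    have h2 := fold_chart hA hxT hk (p := mirP A j (y, θ)) (by simp only [mirP]; linarith)
    by_cases hq : (fold A (y, θ)).1 ∈ QQ A
    · simp only [uu, ft, orb_unique hA hq h2.2 h1.1 (h2.1.of_mirP hA)]
    · by_cases hq' : (fold A (mirP A j (y, θ))).1 ∈ QQ A
      · simp only [uu, ft, orb_unique hA hq' h1.2 (h2.1.of_mirP hA) h1.1]
      · simp only [uu, ft]
        rw [indicator_of_notMem (s := {q : Ph | q.1 ∈ QQ A}) hq,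
          indicator_of_notMem (s := {q : Ph | q.1 ∈ QQ A}) hq', smul_zero, smul_zero]
  · have h1 : c.χ (fold A (y, θ)) = 0 := by
      by_contra hne; exact hd (c.m3 x hxT y θ (by linarith) hne)
    have h2 : c.χ (fold A (mirP A j (y, θ))) = 0 := by
      by_contra hne; exact hd (c.m3 x hxT _ _ (by linarith) hne)
    simp only [uu, h1, h2, zero_smul]

omit [CompleteSpace H] in
lemma conv_refl (hA : AffineIndependent ℝ A) (hh : 0 < η / L) (c : Cut A ε η L)
    (k : Ker C (η / L)) (f : Ph → H) {j : Fin 3} {x : ℂ} (hx : x ∈ side A j)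
    (θ : UnitAddCircle) :
    conv k.ψ (fun y => uu c f (y, reflDir A j θ)) x = conv k.ψ (fun y => uu c f (y, θ)) x := by
  have hx0 := ((mem_side hA).1 hx).1
  let e : ℂ ≃ₜ ℂ := ⟨⟨mir A j, mir A j, mir_mir hA j, mir_mir hA j⟩, continuous_mir j,
    continuous_mir j⟩
  have hemb : MeasurableEmbedding (mir A j) := e.measurableEmbedding
  unfold conv
  rw [← (measurePreserving_mir hA j).integral_comp hemb]
  congr 1; ext y
  have hn : ‖x - mir A j y‖ = ‖x - y‖ := by
    rw [← norm_mir_sub hA j x y, mir_of_ell_zero hx0]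
  rw [k.rad _ _ hn]
  by_cases hy : ‖y - x‖ ≤ η / L
  · exact congrArg _ (uu_mirP hA hh c f hx θ hy)
  · rw [k.supp _ (by rw [norm_sub_rev]; exact not_le.1 hy), zero_smul, zero_smul]

omit [CompleteSpace H] in
lemma coeff_refl (hA : AffineIndependent ℝ A) {j : Fin 3} {g : UnitAddCircle → H}
    (hg : ∀ θ, g (reflDir A j θ) = g θ) (n : ℤ) :
    fourierCoeff g (-n) = cc A j ^ n • fourierCoeff g n := by
  unfold fourierCoeff
  rw [neg_neg, ← integral_smul, ← integral_sub_left_eq_self _ haarAddCircle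
    ((Complex.arg (A (j + 2) - A (j + 1)) / π : ℝ) : UnitAddCircle)]
  congr 1; ext θ
  have := fourier_reflDir hA j n θ
  have h2 := hg θ
  unfold reflDir at this h2
  rw [this, h2, mul_smul]

omit [InnerProductSpace ℂ H] [CompleteSpace H] in
lemma ft_equiv (hA : AffineIndependent ℝ A) {f : Ph → H} (V : H → H) {s : ℝ} (hs : 0 ≤ s)
    (hf : ∀ᵐ p ∂(mu0 A), f p = V (f (fwd A s p))) :
    ∀ᵐ θ ∂haarAddCircle, ∀ᵐ y : ℂ, ∀ x ∈ TT A, ∀ h, 0 < h → s ≤ h → ‖y - x‖ ≤ h →
      10 * h ≤ del A x → ft A f (y, θ) = V (ft A f (y + s * vel θ, θ)) := by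
  have h1 : ∀ᵐ p ∂(mu0 A), p.1 ∈ QQ A ∧ (fwd A s p).1 ∈ QQ A ∧ f p = V (f (fwd A s p)) := by
    filter_upwards [ae_mem_QQ, (measurePreserving_fwd hA hs).quasiMeasurePreserving.ae ae_mem_QQ,
      hf] with p h1 h2 h3 using ⟨h1, h2, h3⟩
  rw [mu0_eq, ae_restrict_iff' (measurableSet_TT.prod MeasurableSet.univ)] at h1
  have h2 : ∀ᵐ p ∂lam, ∀ x ∈ TT A, ∀ h, 0 < h → s ≤ h → ‖p.1 - x‖ ≤ h →
      10 * h ≤ del A x → ft A f p = V (ft A f (p.1 + s * vel p.2, p.2)) := by
    filter_upwards [ae_fold hA h1] with p hp x hx h hh hsh hy hd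
    obtain ⟨j, hj⟩ := exists_chart hd
    have hy' : ‖p.1 + s * vel p.2 - x‖ ≤ 2 * h := by
      have : p.1 + s * vel p.2 - x = (p.1 - x) + s * vel p.2 := by ring
      rw [this]
      refine (norm_add_le _ _).trans ?_
      rw [norm_mul, norm_vel, mul_one, Complex.norm_real, Real.norm_of_nonneg hs]
      linarith
    have h1 := fold_chart hA hx hj (p := p) (by linarith)
    have h1' := fold_chart hA hx hj (p := (p.1 + s * vel p.2, p.2)) (by simp only; linarith)
    have h3 : ∀ i, i ≠ j → 9 * h ≤ ell A i (fold A p).1 := fun i hi => by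
      have h4 := ell_le_add hA i x (fold A p).1
      have h5 := norm_fold_le hA hx p
      rw [norm_sub_rev] at h4
      linarith [hj i hi]
    obtain ⟨h4, h5, h6⟩ := hp ⟨h1.2, mem_univ _⟩
    have h7 := orb_unique hA h5 h1'.2 (orb_fwd hA h1.2 h1.1 h3 hs (by linarith)) h1'.1
    simp only [ft]
    rw [h7, indicator_of_mem (s := {q : Ph | q.1 ∈ QQ A}) h4,
      indicator_of_mem (s := {q : Ph | q.1 ∈ QQ A}) h5, h6]
  exact Measure.ae_ae_of_ae_prod
    ((Measure.measurePreserving_swap (μ := haarAddCircle)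
      (ν := (volume : Measure ℂ))).quasiMeasurePreserving.ae h2)

lemma step_bound (hL : 0 < L) (hh : 0 < η / L) (c : Cut A ε η L)
    (k : Ker C (η / L)) {f : Ph → H} (hf : BM f 1) (V : H →L[ℂ] H) (hV : ∀ a, ‖V a‖ ≤ ‖a‖)
    {s : ℝ} (hs : 0 ≤ s) (hsh : s ≤ η / L) {θ : UnitAddCircle}
    (he : ∀ᵐ y : ℂ, ∀ x ∈ TT A, ∀ h, 0 < h → s ≤ h → ‖y - x‖ ≤ h →
      10 * h ≤ del A x → ft A f (y, θ) = V (ft A f (y + s * vel θ, θ)))
    {x : ℂ} (hx : x ∈ TT A) :
    ‖V (conv k.ψ (fun y => uu c f (y, θ)) (x + s * vel θ))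
      - conv k.ψ (fun y => uu c f (y, θ)) x‖ ≤ s / L * c.γ (x, θ) := by
  have hu := (hf.uu c).left θ
  have hu' : BM (fun y => uu c f (y + s * vel θ, θ)) 1 :=
    ⟨hu.m.comp_measurable (measurable_add_const _), fun y => hu.b _⟩
  have hu'' : BM (fun y => V (uu c f (y + s * vel θ, θ))) 1 :=
    ⟨V.continuous.comp_stronglyMeasurable hu'.m, fun y => (hV _).trans (hu.b _)⟩
  have h1 : conv k.ψ (fun y => uu c f (y, θ)) (x + s * vel θ)
      = conv k.ψ (fun y => uu c f (y + s * vel θ, θ)) x := by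
    unfold conv
    rw [← integral_add_right_eq_self _ (s * vel θ)]
    simp only [add_sub_add_right_eq_sub]
  have h2 : V (conv k.ψ (fun y => uu c f (y + s * vel θ, θ)) x)
      - conv k.ψ (fun y => uu c f (y, θ)) x
      = conv k.ψ (fun y => V (uu c f (y + s * vel θ, θ)) - uu c f (y, θ)) x := by
    unfold conv
    rw [← V.integral_comp_comm (integrable_conv k.integrable hu' x)]
    simp_rw [smul_sub, V.map_smul_of_tower]
    rw [integral_sub (integrable_conv k.integrable hu'' x) (integrable_conv k.integrable hu x)]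
  rw [h1, h2]
  apply k.norm_conv_le
  filter_upwards [he] with y hy hyx
  have hg := c.γ0 (x, θ)
  by_cases hd : 10 * (η / L) ≤ del A x
  · simp only [uu]
    rw [V.map_smul_of_tower, ← hy x hx _ hh hsh hyx hd, ← sub_smul, norm_smul, Real.norm_eq_abs]
    exact (mul_le_of_le_one_right (abs_nonneg _) (hf.ft.b _)).trans (c.m2 x hx y θ s hyx hs hsh)
  · have hy' : ‖y + s * vel θ - x‖ ≤ 2 * (η / L) := by
      have : y + s * vel θ - x = (y - x) + s * vel θ := by ring
      rw [this]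
      refine (norm_add_le _ _).trans ?_
      rw [norm_mul, norm_vel, mul_one, Complex.norm_real, Real.norm_of_nonneg hs]
      linarith
    have h1 : c.χ (fold A (y, θ)) = 0 := by
      by_contra hne; exact hd (c.m3 x hx y θ (by linarith) hne)
    have h2 : c.χ (fold A (y + s * vel θ, θ)) = 0 := by
      by_contra hne; exact hd (c.m3 x hx _ _ hy' hne)
    simp only [uu, h1, h2, zero_smul, map_zero, sub_self, norm_zero]
    positivity

omit [CompleteSpace H] in
lemma gen_limit (G : Gen H) {F : ℂ → H} {x v : ℂ} (hF : DifferentiableAt ℝ F x) {b : ℝ}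
    {s : ℕ → ℝ} (hs : Tendsto s atTop (𝓝[>] 0))
    (h : ∀ m, ‖G.V (s m) (F (x + s m * v)) - F x‖ ≤ s m * b) :
    ‖G.W (fderiv ℝ F x v) + G.W' (F x)‖ ≤ ‖G.W‖ * b := by
  set D := fderiv ℝ F x v
  have h1 : HasDerivAt (fun t : ℝ => F (x + t * v)) D 0 := by
    have h2 : HasDerivAt (fun t : ℝ => x + t * v) v 0 := by
      simpa using ((hasDerivAt_id (0 : ℝ)).ofReal_comp.mul_const v).const_add x
    have h3 : HasFDerivAt F (fderiv ℝ F x) (x + (0 : ℝ) * v) := by simpa using hF.hasFDerivAt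
    exact h3.comp_hasDerivAt (0 : ℝ) h2
  have h2 : Tendsto (fun t : ℝ => t⁻¹ • (F (x + t * v) - F x)) (𝓝[>] 0) (𝓝 D) := by
    simpa using h1.tendsto_slope_zero_right
  have h3 : Tendsto (fun t : ℝ => G.V t (t⁻¹ • (F (x + t * v) - F x))) (𝓝[>] 0) (𝓝 D) := by
    have h4 : Tendsto (fun t : ℝ => G.V t (t⁻¹ • (F (x + t * v) - F x) - D)) (𝓝[>] 0) (𝓝 0) := by
      refine squeeze_zero_norm' ?_ (tendsto_iff_norm_sub_tendsto_zero.1 h2)
      filter_upwards [self_mem_nhdsWithin] with t ht using G.norm_V t ht _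
    have := h4.add (G.cont D)
    simpa using this
  have h4 := ((G.W.continuous.tendsto D).comp h3).add (G.deriv (F x))
  refine le_of_tendsto (h4.comp hs).norm ?_
  filter_upwards [hs.eventually self_mem_nhdsWithin] with m hm
  have hm' : 0 < s m := hm
  have e : G.W (G.V (s m) ((s m)⁻¹ • (F (x + s m * v) - F x)))
      + (s m)⁻¹ • (G.W (G.V (s m) (F x)) - G.W (F x))
      = (s m)⁻¹ • G.W (G.V (s m) (F (x + s m * v)) - F x) := by
    simp only [ContinuousLinearMap.map_smul_of_tower, map_sub, smul_sub]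
    abel
  simp only [Function.comp]
  rw [e, norm_smul, Real.norm_of_nonneg (by positivity), inv_mul_le_iff₀ hm']
  calc _ ≤ ‖G.W‖ * (s m * b) := (G.W.le_opNorm _).trans (by gcongr; exact h m)
    _ = _ := by ring

lemma X_bound (hA : AffineIndependent ℝ A) (hL : 0 < L) (hh : 0 < η / L) (c : Cut A ε η L)
    (k : Ker C (η / L)) (G : Gen H) {f : Ph → H} (hf : BM f 1)
    (heq : ∀ u, 0 < u → ∀ᵐ p ∂(mu0 A), f p = G.V u (f (fwd A u p))) :
    ∀ᵐ θ ∂haarAddCircle, ∀ x ∈ TT A,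
      ‖G.W (fderiv ℝ (conv k.ψ fun y => uu c f (y, θ)) x (vel θ))
        + G.W' (conv k.ψ (fun y => uu c f (y, θ)) x)‖ ≤ ‖G.W‖ * (c.γ (x, θ) / L) := by
  let s : ℕ → ℝ := fun m => η / L * (1 / ((m : ℝ) + 1))
  have hs0 : ∀ m, 0 < s m := fun m => by positivity
  have hs1 : ∀ m, s m ≤ η / L := fun m =>
    mul_le_of_le_one_right hh.le ((div_le_one (by positivity)).2 (by simp))
  have hs : Tendsto s atTop (𝓝[>] 0) := by
    refine tendsto_nhdsWithin_iff.2 ⟨?_, Eventually.of_forall hs0⟩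
    simpa [s] using (tendsto_one_div_add_atTop_nhds_zero_nat (𝕜 := ℝ)).const_mul (η / L)
  filter_upwards [ae_all_iff.2 fun m => ft_equiv hA (G.V (s m)) (hs0 m).le (heq _ (hs0 m))]
    with θ hθ x hx
  refine gen_limit G ((k.contDiff_conv ((hf.uu c).left θ)).differentiable (by norm_num) x) hs
    fun m => ?_
  refine (step_bound hL hh c k hf (G.V (s m)) (G.norm_V _ (hs0 m)) (hs0 m).le (hs1 m) (hθ m)
    hx).trans (le_of_eq ?_)
  ring

omit [CompleteSpace H] in
lemma osc_bound (hA : AffineIndependent ℝ A) (hh : 0 < η / L) (c : Cut A ε η L) {f : Ph → H}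
    (hf : BM f 1) {φ : ℂ → ℝ} {D : ℝ} (hD : ∀ z, |φ z| ≤ D) (hs : ∀ z, η / L < ‖z‖ → φ z = 0)
    {x : ℂ} (hx : x ∈ TT A) (θ : UnitAddCircle) :
    ‖conv φ (fun y => uu c f (y, θ) - uu c f (x, θ)) x‖
      ≤ D * (π * (η / L) ^ 2) * (η * c.γ (x, θ) + osc (ft A f) (η / L) (x, θ)) := by
  refine norm_conv_osc (p := (x, θ)) hh hD hs hf.ft fun y hy => ?_
  have e : uu c f (y, θ) - uu c f (x, θ) = (c.χ (fold A (y, θ)) - c.χ (x, θ)) • ft A f (y, θ)
      + c.χ (x, θ) • (ft A f (y, θ) - ft A f (x, θ)) := by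
    simp only [uu, fold_of_mem hA (p := (x, θ)) hx, sub_smul, smul_sub]; abel
  rw [e]
  refine (norm_add_le _ _).trans (add_le_add ?_ ?_)
  · rw [norm_smul, Real.norm_eq_abs]
    exact (mul_le_of_le_one_right (abs_nonneg _) (hf.ft.b _)).trans (c.m1 x hx y θ hy)
  · rw [norm_smul, Real.norm_of_nonneg (c.χ0 _)]
    exact mul_le_of_le_one_left (norm_nonneg _) (c.χ1 _)

/-! ### Fourier algebra -/

omit [CompleteSpace H] in
lemma coeff_vel (g : UnitAddCircle → H) (n : ℤ) :
    fourierCoeff (fun θ => vel θ • g θ) n = fourierCoeff g (n - 1) := by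
  unfold fourierCoeff
  congr 1; ext θ
  rw [smul_smul, vel_eq_fourier, ← fourier_add]; congr 3; ring

omit [CompleteSpace H] in
lemma coeff_conj_vel (g : UnitAddCircle → H) (n : ℤ) :
    fourierCoeff (fun θ => conj (vel θ) • g θ) n = fourierCoeff g (n + 1) := by
  unfold fourierCoeff
  congr 1; ext θ
  rw [smul_smul, vel_eq_fourier, ← fourier_neg, ← fourier_add]; congr 3; ring

lemma coeff_clm (W : H →L[ℂ] H) {g : UnitAddCircle → H} {B : ℝ} (hg : BM g B) (n : ℤ) :
    fourierCoeff (fun θ => W (g θ)) n = W (fourierCoeff g n) := by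
  unfold fourierCoeff
  rw [← W.integral_comp_comm ((hg.integrable _).fourier_smul _)]
  simp only [map_smul]

omit [CompleteSpace H] in
lemma coeff_comb {g g' : UnitAddCircle → H} {B B' : ℝ} (hg : BM g B) (hg' : BM g' B')
    (a b : ℂ) (n : ℤ) : fourierCoeff (fun θ => a • g θ + b • g' θ) n
      = a • fourierCoeff g n + b • fourierCoeff g' n := by
  rw [← fourierCoeff.const_smul, ← fourierCoeff.const_smul]
  exact congrFun (fourierCoeff.add ((hg.integrable _).smul a) ((hg'.integrable _).smul b)) n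

section
variable {X : Type} [MeasurableSpace X]

omit [CompleteSpace H] in
lemma BM.comb {g g' : X → H} {B B' : ℝ} (hg : BM g B) (hg' : BM g' B') (a b : ℂ) :
    BM (fun p => a • g p + b • g' p) (‖a‖ * B + ‖b‖ * B') :=
  ⟨(hg.m.const_smul a).add (hg'.m.const_smul b), fun p => (norm_add_le _ _).trans (by
    rw [norm_smul, norm_smul]; gcongr; exacts [hg.b p, hg'.b p])⟩

omit [CompleteSpace H] in
lemma BM.clm {g : X → H} {B : ℝ} (hg : BM g B) (W : H →L[ℂ] H) :
    BM (fun p => W (g p)) (‖W‖ * B) :=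
  ⟨W.continuous.comp_stronglyMeasurable hg.m, fun p => (W.le_opNorm _).trans (by
    gcongr; exact hg.b p)⟩

omit [CompleteSpace H] in
lemma BM.unit {g : X → H} {B : ℝ} (hg : BM g B) {e : X → ℂ} (he : Measurable e)
    (he1 : ∀ p, ‖e p‖ = 1) : BM (fun p => e p • g p) B :=
  ⟨he.stronglyMeasurable.smul hg.m, fun p => by rw [norm_smul, he1, one_mul]; exact hg.b p⟩

end

omit [CompleteSpace H] in
lemma lin_dir (T : ℂ →L[ℝ] H) (v : ℂ) : T v = (v.re : ℂ) • T 1 + (v.im : ℂ) • T I := by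
  conv_lhs => rw [show v = v.re • (1 : ℂ) + v.im • I by simp]
  rw [map_add, map_smul, map_smul, Complex.coe_smul, Complex.coe_smul]

omit [CompleteSpace H] in
lemma lin_X (T : ℂ →L[ℝ] H) (v : ℂ) :
    (1 : ℂ) • v • ((1 / 2 : ℂ) • T 1 + (-I / 2) • T I)
      + (1 : ℂ) • conj v • ((1 / 2 : ℂ) • T 1 + (I / 2) • T I) = T v := by
  rw [lin_dir T v]
  match_scalars <;> apply Complex.ext <;> simp <;> ring

omit [CompleteSpace H] in
lemma lin_Y (T : ℂ →L[ℝ] H) (v : ℂ) :
    (1 : ℂ) • v • ((1 / 2 : ℂ) • T 1 + (-I / 2) • T I)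
      + (-1 : ℂ) • conj v • ((1 / 2 : ℂ) • T 1 + (I / 2) • T I) = (-I) • T (I * v) := by
  rw [lin_dir T (I * v)]
  match_scalars <;> apply Complex.ext <;> simp <;> ring

lemma coeff_XY (k : Ker C η) {u : Ph → H} (hu : BM u 1) (σ : ℂ) :
    ∃ (Z : Ph → H) (B : ℝ), BM Z B ∧ (∀ p : Ph, Z p = (1 : ℂ) • vel p.2 •
        ((1 / 2 : ℂ) • fderiv ℝ (conv k.ψ fun y => u (y, p.2)) p.1 1
          + (-I / 2) • fderiv ℝ (conv k.ψ fun y => u (y, p.2)) p.1 I)
        + σ • conj (vel p.2) • ((1 / 2 : ℂ) • fderiv ℝ (conv k.ψ fun y => u (y, p.2)) p.1 1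
          + (I / 2) • fderiv ℝ (conv k.ψ fun y => u (y, p.2)) p.1 I)) ∧
      ∀ x n, fourierCoeff (fun θ => Z (x, θ)) n
        = dp (conv k.ψ fun y => fourierCoeff (fun θ => u (y, θ)) (n - 1)) x
          + σ • dm (conv k.ψ fun y => fourierCoeff (fun θ => u (y, θ)) (n + 1)) x := by
  have h1 := hu.conv (k.integrable_d 1) (k.continuous_d 1)
  have h2 := hu.conv (k.integrable_d I) (k.continuous_d I)
  have hP := h1.comb h2 (1 / 2) (-I / 2)
  have hM := h1.comb h2 (1 / 2) (I / 2)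
  have hv := hP.unit (e := fun p => vel p.2) (measurable_vel.comp measurable_snd)
    fun p => norm_vel _
  have hw := hM.unit (e := fun p => conj (vel p.2))
    (continuous_conj.measurable.comp (measurable_vel.comp measurable_snd))
    fun p => by rw [Complex.norm_conj, norm_vel]
  refine ⟨_, _, hv.comb hw 1 σ, fun p => ?_, fun x n => ?_⟩
  · simp only [k.fderiv_conv (hu.left _)]
  · rw [coeff_comb (hv.right x) (hw.right x)]
    simp only
    rw [coeff_vel, coeff_conj_vel, coeff_comb (h1.right x) (h2.right x),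
      coeff_comb (h1.right x) (h2.right x)]
    simp only [coeff_conv (k.integrable_d _) (k.continuous_d _) hu, dp, dm,
      k.fderiv_conv (hu.coeff _)]
    module

theorem approx (hA : AffineIndependent ℝ A) (G : Gen H) {f : Ph → H} (hf : BM f 1)
    (heq : ∀ u, 0 < u → ∀ᵐ p ∂(mu0 A), f p = G.V u (f (fwd A u p))) (hε : 0 < ε) :
    ∃ t : ℝ, 1 ≤ t ∧ ∃ a : ℤ → ℂ → H, (∀ n, ContDiff ℝ 2 (a n)) ∧
      (∀ j n, ∀ x ∈ side A j, a (-n) x = cc A j ^ n • a n x) ∧
      (∀ s : Finset ℤ, ∑ n ∈ s, ∫ x in TT A,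
        ‖G.W (dp (a (n - 1)) x + dm (a (n + 1)) x) + G.W' (a n x)‖ ^ 2 ≤ ε ^ 2 / t) ∧
      (∀ s : Finset ℤ, ∑ n ∈ s, ∫ x in TT A,
        ‖G.W (dp (a (n - 1)) x - dm (a (n + 1)) x)‖ ^ 2 ≤ ε ^ 2 * t) ∧
      (∀ s : Finset ℤ, ∑ n ∈ s, ∫ x in TT A, ‖G.W' (a n x)‖ ^ 2
        ≤ ‖G.W'‖ ^ 2 * volume.real (TT A)) ∧
      ∀ n, ∫ x in TT A, ‖a n x - fourierCoeff (fun θ => ft A f (x, θ)) n‖ ^ 2 ≤ ε ^ 2 := by
  obtain ⟨C, hC, hker⟩ := exists_ker
  have hW := norm_nonneg G.W
  have hCπ : 0 < C * π := by positivity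
  set K := (1 + ‖G.W‖) * (1 + C * π) with hK
  have hK1 : 1 + C * π ≤ K := by nlinarith
  have hK2 : ‖G.W‖ ≤ K := by nlinarith
  have hK3 : ‖G.W‖ * (C * π) ≤ K := by nlinarith
  have hK0 : 0 < K := by positivity
  set δ := ε ^ 2 / (9 * K ^ 2) with hδ
  have hδ0 : 0 < δ := by positivity
  obtain ⟨η, hη, hη1, hcut⟩ := exists_cut hA hδ0
  obtain ⟨L, hL, hω⟩ : ∃ L, 1 ≤ L ∧ ∫ p, osc (ft A f) (η / L) p ^ 2 ∂(mu0 A) ≤ δ * η ^ 2 := by
    have h1 := (tendsto_osc (A := A) (hf.ft (A := A))).eventually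
      (ge_mem_nhds (show 0 < δ * η ^ 2 by positivity))
    obtain ⟨h, h2, h3, h4⟩ := (h1.and (Ioc_mem_nhdsGT hη)).exists
    exact ⟨η / h, (one_le_div h3).2 h4, by rwa [div_div_cancel₀ hη.ne']⟩
  have hL0 : 0 < L := by linarith
  have hh : 0 < η / L := by positivity
  obtain ⟨c⟩ := hcut L hL
  obtain ⟨k⟩ := hker _ hh
  have hu := hf.uu c
  set ω := osc (ft A f) (η / L) with hωdef
  have hω0 : ∀ p, 0 ≤ ω p := osc_nonneg _ _
  let g : Ph → ℝ := fun p => 3 * K ^ 2 * (c.γ p ^ 2 + (η ^ 2)⁻¹ * ω p ^ 2 + (1 - c.χ p) ^ 2)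
  have iω : Integrable (fun p => (η ^ 2)⁻¹ * ω p ^ 2) (mu0 A) :=
    ((integrable_osc_sq hf.ft hh).integrable _).const_mul _
  have iχ : Integrable (fun p => (1 - c.χ p) ^ 2) (mu0 A) := by
    refine BM.integrable (B := 1) (w := fun p => (1 - c.χ p) ^ 2)
      ⟨((measurable_const.sub c.mχ).pow_const 2).stronglyMeasurable, fun p => ?_⟩ _
    have := c.χ0 p
    have := c.χ1 p
    rw [Real.norm_of_nonneg (sq_nonneg _)]; nlinarith
  have ig : Integrable g (mu0 A) := ((c.iγ.add iω).add iχ).const_mul _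
  have bg : ∫ p, g p ∂(mu0 A) ≤ ε ^ 2 := by
    simp only [g]
    rw [integral_const_mul, integral_add (f := fun p => c.γ p ^ 2 + (η ^ 2)⁻¹ * ω p ^ 2)
      (c.iγ.add iω) iχ, integral_add c.iγ iω, integral_const_mul]
    have h1 : (η ^ 2)⁻¹ * ∫ p, ω p ^ 2 ∂(mu0 A) ≤ δ := by
      rw [inv_mul_le_iff₀ (by positivity)]; linarith
    calc _ ≤ 3 * K ^ 2 * (δ + δ + δ) := by gcongr; exacts [c.bγ, c.bχ]
      _ = ε ^ 2 := by rw [hδ]; field_simp; norm_num
  have hS : ∀ p (z : ℝ), 0 ≤ z → z ≤ K * (c.γ p + ω p / η + (1 - c.χ p)) → z ^ 2 ≤ g p := by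
    intro p z hz0 hz
    refine (pow_le_pow_left₀ hz0 hz 2).trans ?_
    have e : (η ^ 2)⁻¹ * ω p ^ 2 = (ω p / η) ^ 2 := by field_simp
    simp only [g]
    rw [e, mul_pow, mul_comm 3, mul_assoc]
    gcongr
    nlinarith [sq_nonneg (c.γ p - ω p / η), sq_nonneg (c.γ p - (1 - c.χ p)),
      sq_nonneg (ω p / η - (1 - c.χ p))]
  have hFb := hu.conv k.integrable k.smooth.continuous
  have hcoef := coeff_conv k.integrable k.smooth.continuous hu
  refine ⟨L ^ 2, one_le_pow₀ hL, fun n => conv k.ψ fun y => fourierCoeff (fun θ => uu c f (y, θ)) n,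
    fun n => k.contDiff_conv (hu.coeff n), fun j n x hx => ?_, fun s => ?_, fun s => ?_,
    fun s => ?_, fun n => ?_⟩
  · simp only [← hcoef]
    exact coeff_refl hA (conv_refl hA hh c k f hx) n
  · obtain ⟨Z, B, hZ, hZ1, hZ2⟩ := coeff_XY k hu 1
    have h1 := (hZ.clm G.W).comb (hFb.clm G.W') 1 1
    have h2 := bessel_TT (A := A) _ h1.m _ h1.b (fun p => g p / L ^ 2) (ig.div_const _) ?_ s
    · rw [integral_div] at h2
      refine le_trans (le_of_eq ?_) (h2.trans (by gcongr))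
      refine Finset.sum_congr rfl fun n _ => ?_
      congr 1; ext x
      rw [coeff_comb ((hZ.clm G.W).right x) ((hFb.clm G.W').right x), coeff_clm _ (hZ.right x),
        coeff_clm _ (hFb.right x), hZ2, hcoef]
      simp only [one_smul]
    · filter_upwards [X_bound hA hL0 hh c k G hf heq] with θ hθ x hx
      rw [hZ1, lin_X, one_smul, one_smul, le_div_iff₀ (by positivity), ← mul_pow]
      refine hS _ _ (by positivity) ?_
      have h3 := hθ x hx
      rw [← mul_div_assoc, le_div_iff₀ hL0] at h3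
      have := c.γ0 (x, θ)
      have := c.χ1 (x, θ)
      have : 0 ≤ ω (x, θ) / η := div_nonneg (hω0 _) hη.le
      exact h3.trans (by nlinarith)
  · obtain ⟨Z, B, hZ, hZ1, hZ2⟩ := coeff_XY k hu (-1)
    have h1 := hZ.clm G.W
    have h2 := bessel_TT (A := A) _ h1.m _ h1.b (fun p => g p * L ^ 2) (ig.mul_const _) ?_ s
    · rw [integral_mul_const] at h2
      refine le_trans (le_of_eq ?_) (h2.trans (by gcongr))
      refine Finset.sum_congr rfl fun n _ => ?_
      congr 1; ext x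
      rw [coeff_clm _ (hZ.right x), hZ2]
      simp only [neg_smul, one_smul, sub_eq_add_neg]
    · refine ae_of_all _ fun θ x hx => ?_
      rw [hZ1, lin_Y, ← div_le_iff₀ (by positivity), ← div_pow]
      refine hS _ _ (by positivity) ?_
      have h3 := osc_bound hA hh c hf (φ := k.d (I * vel θ)) (D := C / (η / L) ^ 3) (fun z => by
        refine ((fderiv ℝ k.ψ z).le_opNorm (I * vel θ)).trans ?_
        rw [norm_mul, norm_I, norm_vel, mul_one, mul_one]
        exact k.dle z) (k.d_supp _) hx θ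
      rw [k.conv_d_sub_const (hu.left θ), ← k.fderiv_conv (hu.left θ)] at h3
      have e : C / (η / L) ^ 3 * (π * (η / L) ^ 2) * (η * c.γ (x, θ) + ω (x, θ))
          = C * π * (c.γ (x, θ) + ω (x, θ) / η) * L := by field_simp
      rw [e] at h3
      have := c.γ0 (x, θ)
      have := c.χ1 (x, θ)
      have : 0 ≤ ω (x, θ) / η := div_nonneg (hω0 _) hη.le
      rw [div_le_iff₀ hL0]
      refine (G.W.le_opNorm _).trans ?_
      rw [norm_smul, norm_neg, norm_I, one_mul]
      calc _ ≤ ‖G.W‖ * (C * π * (c.γ (x, θ) + ω (x, θ) / η) * L) := by gcongr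
        _ = ‖G.W‖ * (C * π) * (c.γ (x, θ) + ω (x, θ) / η) * L := by ring
        _ ≤ _ := mul_le_mul_of_nonneg_right (mul_le_mul hK3 (by linarith) (by positivity) hK0.le)
            hL0.le
  · have h1 := hFb.clm G.W'
    have h2 := bessel_TT (A := A) _ h1.m _ h1.b (fun _ => ‖G.W'‖ ^ 2) (integrable_const _) ?_ s
    · refine le_trans (le_of_eq ?_) (h2.trans (le_of_eq ?_))
      · refine Finset.sum_congr rfl fun n _ => ?_
        congr 1; ext x
        rw [coeff_clm _ (hFb.right x), hcoef]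
      · rw [integral_const, smul_eq_mul, mul_comm]
        simp [Measure.real, ← univ_prod_univ, Measure.prod_prod]
    · refine ae_of_all _ fun θ x _ => pow_le_pow_left₀ (norm_nonneg _) ?_ 2
      refine (G.W'.le_opNorm _).trans (mul_le_of_le_one_right (norm_nonneg _) ?_)
      exact k.norm_conv_le (ae_of_all _ fun y _ => hu.b _)
  · have h1 := hFb.comb (hf.ft (A := A)) 1 (-1)
    have h2 := bessel_TT (A := A) _ h1.m _ h1.b g ig ?_ {n}
    · rw [Finset.sum_singleton] at h2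
      refine le_trans (le_of_eq ?_) (h2.trans bg)
      congr 1; ext x
      rw [coeff_comb (hFb.right x) ((hf.ft (A := A)).right x), hcoef]
      simp only [neg_smul, one_smul, sub_eq_add_neg]
    · refine ae_of_all _ fun θ x hx => hS _ _ (norm_nonneg _) ?_
      have h3 := osc_bound hA hh c hf (φ := k.ψ) (D := C / (η / L) ^ 2) (fun z => by
        rw [abs_of_nonneg (k.nonneg z)]; exact k.le z) k.supp hx θ
      rw [k.conv_sub_const (hu.left θ)] at h3
      have e : C / (η / L) ^ 2 * (π * (η / L) ^ 2) * (η * c.γ (x, θ) + ω (x, θ))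
          = C * π * (η * (c.γ (x, θ) + ω (x, θ) / η)) := by field_simp
      rw [e] at h3
      have := c.γ0 (x, θ)
      have := c.χ1 (x, θ)
      have : 0 ≤ ω (x, θ) / η := div_nonneg (hω0 _) hη.le
      have h4 : ‖uu c f (x, θ) - ft A f (x, θ)‖ ≤ 1 - c.χ (x, θ) := by
        have : uu c f (x, θ) - ft A f (x, θ) = -((1 - c.χ (x, θ)) • ft A f (x, θ)) := by
          simp only [uu, fold_of_mem hA (p := (x, θ)) hx, sub_smul, one_smul, neg_sub]
        rw [this, norm_neg, norm_smul, Real.norm_of_nonneg (by linarith)]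
        exact mul_le_of_le_one_right (by linarith) (hf.ft.b _)
      have h5 : C * π * (η * (c.γ (x, θ) + ω (x, θ) / η)) ≤ K * (c.γ (x, θ) + ω (x, θ) / η) := by
        gcongr
        · linarith
        · exact mul_le_of_le_one_left (by positivity) hη1
      simp only [neg_smul, one_smul, ← sub_eq_add_neg]
      refine (norm_sub_le_norm_sub_add_norm_sub _ (uu c f (x, θ)) _).trans ?_
      nlinarith

end Vale.Agent.P099
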